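import Vale.Agent.P006.K.POIa

/-! P006 branch K: the cube terms. -/

noncomputable section
open Complex
open scoped Classical ComplexConjugate

namespace Vale.Agent.P006.K
open Vale.Agent.P026 POIM
namespace CUBM

lemma cubefree (d e b : ℤ) (hd : Squarefree d) (he : Squarefree e) (h : b ^ 3 ∣ d * e) : IsUnit b := by
  by_contra hb
  have b0 : b ≠ 0 := by
    rintro rfl
    rw [zero_pow (by norm_num), zero_dvd_iff] at h
    exact mul_ne_zero hd.ne_zero he.ne_zero h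
  obtain ⟨p, hp, hpb⟩ := WfDvdMonoid.exists_irreducible_factor hb b0
  have hp' : Prime p := hp.prime
  have h3 : p ^ 3 ∣ d * e := (pow_dvd_pow_of_dvd hpb 3).trans h
  have key : ∀ d', ¬ p ∣ d' → ¬ p ^ 2 ∣ d' * e := by
    intro d' h1 h2
    have := hp'.pow_dvd_of_dvd_mul_left 2 h1 h2
    exact hp.not_isUnit (he p (by rwa [← pow_two]))
  by_cases h1 : p ∣ d
  · obtain ⟨d', rfl⟩ := h1
    refine key d' (fun h2 => hp.not_isUnit (hd p (mul_dvd_mul_left p h2))) ?_
    rw [pow_succ', mul_assoc] at h3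
    exact (mul_dvd_mul_iff_left hp'.ne_zero).1 h3
  · exact key d h1 ((pow_dvd_pow p (by norm_num)).trans h3)

lemma iscb (d e h : ℤ) (hd : Squarefree d) (he : Squarefree e) :
    IsCb (d * e * h ^ 2) ↔ ∃ j, h = d * e * j ^ 3 := by
  constructor
  · rintro ⟨t, ht⟩
    by_cases h0 : h = 0
    · exact ⟨0, by simp [h0]⟩
    obtain ⟨g, a, b, hg, hab, rfl, rfl⟩ := Int.exists_gcd_one' (m := h) (n := t)
      (Int.gcd_pos_of_ne_zero_left _ h0)
    have g0 : (g : ℤ) ≠ 0 := by omega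
    have e1 : d * e * a ^ 3 = (a * g) * b ^ 3 := by
      apply mul_left_cancel₀ (pow_ne_zero 2 g0)
      linear_combination a * ht
    have hc : IsCoprime (b ^ 3) (a ^ 3) := ((Int.isCoprime_iff_gcd_eq_one.2 hab).symm).pow
    have hb := cubefree d e b hd he (hc.dvd_of_dvd_mul_right ⟨a * g, by rw [e1]; ring⟩)
    rcases Int.isUnit_iff.1 hb with rfl | rfl
    · exact ⟨a, by linear_combination -e1⟩
    · exact ⟨-a, by linear_combination e1⟩
  · rintro ⟨j, rfl⟩
    exact ⟨d * e * j ^ 2, by ring⟩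

lemma cube_inj : Function.Injective fun j : ℤ => j ^ 3 :=
  (Odd.strictMono_pow (R := ℤ) (n := 3) (by decide)).injective

def g (β : ℝ) (j : ℤ) : ℝ := Real.exp (-(Real.pi * (β * (j : ℝ) ^ 3) ^ 2))

lemma g_sum (β : ℝ) (hβ : 0 < β) : Summable (g β) := by
  refine ((gsum β hβ.ne').comp_injective cube_inj).congr fun j => ?_
  simp only [Function.comp, g]
  push_cast
  rw [mul_comm β]

lemma zs (hE : EMStmt) (β : ℝ) (hβ : 0 < β) : |∑' j, g β j - c1 * β ^ (-1 / 3 : ℝ)| ≤ 3 := by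
  have h := hE.2.2.2.2.1 β hβ
  have s := g_sum β hβ
  have s1 : Summable fun n : ℕ => g β (n + 1) :=
    s.comp_injective (i := fun n : ℕ => (n : ℤ) + 1) fun a b h => by simpa using h
  have e : ∀ n : ℕ, g β (-(n + 1)) = g β (n + 1) := by
    intro n
    unfold g
    push_cast
    congr 1
    ring
  have s2 : Summable fun n : ℕ => g β (-(n + 1)) := by
    simp_rw [e]
    exact s1
  rw [tsum_of_add_one_of_neg_add_one s1 s2]
  simp_rw [e]
  have e0 : g β 0 = 1 := by simp [g]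
  have e1 : ∑' n : ℕ, g β (n + 1) =
      ∑' j : ℕ, Real.exp (-(Real.pi * (β * ((j + 1 : ℕ) : ℝ) ^ 3) ^ 2)) := by
    refine tsum_congr fun n => ?_
    unfold g
    push_cast
    rfl
  rw [e0, e1]
  rw [abs_le] at h ⊢
  constructor <;> linarith [h.1, h.2]

def iv (q : ℕ) : ArithmeticFunction ℝ := ⟨fun n => if Nat.Coprime n q then (n : ℝ)⁻¹ else 0, by simp⟩

lemma iv_apply (q n : ℕ) : iv q n = if Nat.Coprime n q then (n : ℝ)⁻¹ else 0 := rfl

lemma iv_mult (q : ℕ) : (iv q).IsMultiplicative := by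
  refine ⟨by simp [iv_apply], fun {m n} _ => ?_⟩
  simp only [iv_apply, Nat.coprime_mul_iff_left]
  by_cases h1 : Nat.Coprime m q
  · by_cases h2 : Nat.Coprime n q
    · rw [if_pos ⟨h1, h2⟩, if_pos h1, if_pos h2, Nat.cast_mul, mul_inv]
    · rw [if_neg (fun g => h2 g.2), if_neg h2, mul_zero]
  · rw [if_neg (fun g => h1 g.1), if_neg h1, zero_mul]

lemma PR_eq (q : ℕ) (hq : q ≠ 0) :
    PR q = ∑ f ∈ q.divisors, ((ArithmeticFunction.moebius f : ℤ) : ℝ) * (f : ℝ)⁻¹ := by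
  have := mobsum q hq (iv 1) (iv_mult 1)
  simp only [iv_apply, Nat.coprime_one_right_eq_true, if_true] at this
  exact this.symm

lemma Jb (hE : EMStmt) (β : ℝ) (hβ : 0 < β) (q : ℕ) (hq : q ≠ 0) :
    ‖∑' j : ℤ, (if IsCoprime j q then (g β j : ℂ) else 0) -
      ((c1 * β ^ (-1 / 3 : ℝ) * PR q : ℝ) : ℂ)‖ ≤ 3 * q.divisors.card := by
  rw [sieve q hq _ (summable_ofReal.2 (g_sum β hβ)), PR_eq q hq, Finset.mul_sum, ofReal_sum,
    ← Finset.sum_sub_distrib]
  refine (norm_sum_le _ _).trans ?_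
  rw [mul_comm (3 : ℝ), ← nsmul_eq_mul]
  refine Finset.sum_le_card_nsmul _ _ _ fun f hf => ?_
  have f0 : (0 : ℝ) < f := Nat.cast_pos.2 (Nat.pos_of_mem_divisors hf)
  have e : ∀ j : ℤ, g β (f * j) = g (β * f ^ 3) j := by
    intro j
    unfold g
    push_cast
    congr 1
    ring
  have e2 : (β * f ^ 3) ^ (-1 / 3 : ℝ) = β ^ (-1 / 3 : ℝ) * (f : ℝ)⁻¹ := by
    rw [Real.mul_rpow hβ.le (by positivity), ← Real.rpow_natCast, ← Real.rpow_mul f0.le,
      ← Real.rpow_neg_one]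
    norm_num
  have h := zs hE (β * f ^ 3) (by positivity)
  rw [e2] at h
  simp_rw [e]
  rw [← ofReal_tsum, ← ofReal_intCast, ← ofReal_mul, ← ofReal_sub, norm_real, Real.norm_eq_abs]
  have m : |((ArithmeticFunction.moebius f : ℤ) : ℝ)| ≤ 1 := by
    exact_mod_cast ArithmeticFunction.abs_moebius_le_one
  calc _ = |((ArithmeticFunction.moebius f : ℤ) : ℝ)| *
        |∑' j, g (β * f ^ 3) j - c1 * (β ^ (-1 / 3 : ℝ) * (f : ℝ)⁻¹)| := by
        rw [← abs_mul]
        congr 1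
        ring
    _ ≤ 1 * 3 := mul_le_mul m h (abs_nonneg _) (by norm_num)
    _ = 3 := by norm_num

lemma PR_mul (R q M : ℕ) (hq : q ≠ 0) (hM : M.primeFactors = R.primeFactors ∪ q.primeFactors) :
    (∏ p ∈ R.primeFactors, (1 - iv q p)) * PR q = PR M := by
  unfold PR
  rw [hM, ← Finset.sdiff_union_self_eq_union, Finset.prod_union Finset.sdiff_disjoint,
    Finset.sdiff_eq_filter, Finset.prod_filter]
  congr 1
  refine Finset.prod_congr rfl fun p hp => ?_
  have hp' := Nat.prime_of_mem_primeFactors hp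
  rw [iv_apply]
  by_cases h : p ∣ q
  · rw [if_neg (fun g => (hp'.coprime_iff_not_dvd.1 g) h),
      if_neg (fun g => g (Nat.mem_primeFactors.2 ⟨hp', h, hq⟩)), sub_zero]
  · rw [if_pos (hp'.coprime_iff_not_dvd.2 h), if_pos (fun g => h (Nat.dvd_of_mem_primeFactors g))]

lemma E_le (R q : ℕ) : |∏ p ∈ R.primeFactors, (1 - iv q p)| ≤ 1 := by
  rw [Finset.abs_prod]
  refine Finset.prod_le_one (fun _ _ => abs_nonneg _) fun p hp => ?_
  have h1 : (1 : ℝ) ≤ p := by exact_mod_cast (Nat.prime_of_mem_primeFactors hp).one_le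
  have h2 : (p : ℝ)⁻¹ ≤ 1 := inv_le_one_of_one_le₀ h1
  have h3 : 0 ≤ (p : ℝ)⁻¹ := by positivity
  rw [iv_apply, abs_le]
  split_ifs <;> constructor <;> linarith

lemma inner (hB : Bas) (τ : O × ℤ × O) (h : Tr τ) (A : ℝ) (e : ℕ) (he : Squarefree e) :
    ∑' x : ℤ, (if IsCb (τ.2.1 * e * x ^ 2) then tm τ A e x else 0) =
      (if Nat.Coprime e (Nn τ.2.2) then (A : ℂ) else 0) * ∑' j : ℤ,
        if IsCoprime j (Nn τ.2.2) then (g (|(τ.2.1 : ℝ)| * A / N τ.2.2) j : ℂ) else 0 := by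
  obtain ⟨u, d, n⟩ := τ
  obtain ⟨hu, hd, hpd, hn, hsn, hc⟩ := h
  simp only at hu hd hpd hn hsn hc ⊢
  have he' : Squarefree (e : ℤ) := Int.squarefree_natCast.2 he
  have n0 := hB.b2.ne n hn
  have e0 : (e : ℝ) ≠ 0 := Nat.cast_ne_zero.2 he.ne_zero
  have hi : Function.Injective fun j : ℤ => d * e * j ^ 3 := fun a b hab =>
    cube_inj (mul_left_cancel₀ (mul_ne_zero hd.ne_zero he'.ne_zero) hab)
  rw [← hi.tsum_eq (f := fun x => if IsCb (d * e * x ^ 2) then tm (u, d, n) A e x else 0),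
    ← tsum_mul_left]
  · refine tsum_congr fun j => ?_
    rw [if_pos ((iscb d e _ hd he').2 ⟨j, rfl⟩)]
    unfold tm g
    simp only
    have e1 : ((d * e * (d * e * j ^ 3) ^ 2 : ℤ) : O) = ((d : O) * ((e : ℤ) : O) * (j : O) ^ 2) ^ 3 := by
      push_cast
      ring
    have e2 : (((d * e * j ^ 3 : ℤ) : ℝ) * A / (e * N n)) ^ 2 =
        (|(d : ℝ)| * A / N n * (j : ℝ) ^ 3) ^ 2 := by
      have : (|(d : ℝ)| * A / N n * (j : ℝ) ^ 3) ^ 2 = ((d : ℝ) * A / N n * (j : ℝ) ^ 3) ^ 2 := by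
        simp only [mul_pow, div_pow, sq_abs]
      rw [this]
      congr 1
      push_cast
      field_simp
    rw [e1, e2, hB.b6.pow_l _ _ _ (hB.b2.cop n hn), cub_cube hB _ _ n0]
    have e3 : IsCoprime ((d : O) * ((e : ℤ) : O) * (j : O) ^ 2) n ↔
        Nat.Coprime e (Nn n) ∧ IsCoprime j (Nn n) := by
      rw [IsCoprime.mul_left_iff, IsCoprime.mul_left_iff, IsCoprime.pow_left_iff (by norm_num),
        copN hB e, copN hB j, Nat.isCoprime_iff_coprime]
      simp only [hc, true_and]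
    by_cases h1 : Nat.Coprime e (Nn n)
    · by_cases h2 : IsCoprime j (Nn n)
      · rw [if_pos (e3.2 ⟨h1, h2⟩), if_pos h1, if_pos h2, one_mul, ofReal_mul]
      · rw [if_neg (fun g => h2 (e3.1 g).2), if_neg h2, zero_mul, mul_zero]
    · rw [if_neg (fun g => h1 (e3.1 g).1), if_neg h1, zero_mul, zero_mul]
  · intro x hx
    by_cases h1 : IsCb (d * e * x ^ 2)
    · obtain ⟨j, rfl⟩ := (iscb d e x hd he').1 h1
      exact ⟨j, rfl⟩
    · simp [h1] at hx

end CUBM

open CUBM in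
theorem cubS (E : Env) (hE : EMStmt) (hD : DECStmt) : CUBStmt := by
  intro τ A h hA
  have hB := E.hB
  obtain ⟨-, -, hN, hw⟩ := hD.1 τ h
  have hn1 := hB.b1.N_one_le _ (hB.b2.ne _ h.2.2.2.1)
  have hu1 := hB.b1.N_one_le _ (hB.b2.ne _ h.1)
  have q0 : Nn τ.2.2 ≠ 0 := by
    intro h0
    rw [N, h0] at hn1
    norm_num at hn1
  have u0 : Nn τ.1 ≠ 0 := by
    intro h0
    rw [N, h0] at hu1
    norm_num at hu1
  have d0 : τ.2.1.natAbs ≠ 0 := Int.natAbs_ne_zero.2 h.2.1.ne_zero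
  have hd0 : (0 : ℝ) < |(τ.2.1 : ℝ)| := abs_pos.2 (Int.cast_ne_zero.2 h.2.1.ne_zero)
  have hRR : RR τ ≠ 0 := mul_ne_zero (mul_ne_zero (by norm_num) d0) u0
  have hM : (3 * Nn (kq τ)).primeFactors = (RR τ).primeFactors ∪ (Nn τ.2.2).primeFactors := by
    have e : Nn (kq τ) = τ.2.1.natAbs ^ 2 * Nn τ.2.2 * Nn τ.1 ^ 3 := by
      apply Nat.cast_injective (R := ℝ)
      push_cast
      rw [Nat.cast_natAbs, Int.cast_abs, sq_abs]
      exact hN
    unfold RR
    rw [e, Nat.primeFactors_mul (by norm_num) (by positivity),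
      Nat.primeFactors_mul (by positivity) (by positivity),
      Nat.primeFactors_mul (by positivity) (by positivity),
      Nat.primeFactors_mul (by positivity) (by positivity),
      Nat.primeFactors_mul (by positivity) (by positivity),
      Nat.primeFactors_pow _ (by norm_num), Nat.primeFactors_pow _ (by norm_num)]
    ext p
    simp only [Finset.mem_union]
    tauto
  set β : ℝ := |(τ.2.1 : ℝ)| * A / N τ.2.2 with hβ
  have β0 : 0 < β := by positivity
  have hJ := Jb hE β β0 _ q0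
  set J := ∑' j : ℤ, (if IsCoprime j (Nn τ.2.2) then (g β j : ℂ) else 0) with hJd
  set E0 := ∏ p ∈ (RR τ).primeFactors, (1 - iv (Nn τ.2.2) p) with hE0
  set s : ℝ := A * Real.sqrt (N τ.1) / Real.sqrt (N τ.2.2) with hs
  have s0 : 0 ≤ s := by positivity
  have e1 : CP τ A = ((s * E0 : ℝ) : ℂ) * J := by
    unfold CP
    rw [hE0, ← mobsum _ hRR _ (iv_mult _), Finset.mul_sum, ofReal_sum, Finset.sum_mul]
    refine Finset.sum_congr rfl fun e he => ?_
    by_cases hsq : Squarefree e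
    · rw [inner hB τ h A e hsq, ← mul_assoc]
      congr 1
      rw [iv_apply]
      unfold pref
      split_ifs
      · rw [← ofReal_mul, hs]
        congr 1
        ring
      · simp
    · unfold pref
      rw [ArithmeticFunction.moebius_eq_zero_of_not_squarefree hsq]
      simp
  have e2 : c1 * A ^ (2 / 3 : ℝ) * (PR (3 * Nn (kq τ)) * ww (kq τ)) =
      s * E0 * (c1 * β ^ (-1 / 3 : ℝ) * PR (Nn τ.2.2)) := by
    rw [← PR_mul (RR τ) _ _ q0 hM, hw, ← hE0]
    have a : A ^ (2 / 3 : ℝ) * ((τ.2.1 : ℝ) ^ 2 * N τ.2.2) ^ (-1 / 6 : ℝ) =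
        A / Real.sqrt (N τ.2.2) * β ^ (-1 / 3 : ℝ) := by
      have n0 : 0 < N τ.2.2 := by linarith
      rw [hβ, ← sq_abs, Real.mul_rpow (by positivity) n0.le, Real.div_rpow (by positivity) n0.le,
        Real.mul_rpow hd0.le hA.le, ← Real.rpow_natCast, ← Real.rpow_mul hd0.le, Real.sqrt_eq_rpow]
      have b1 : A ^ (2 / 3 : ℝ) = A * A ^ (-1 / 3 : ℝ) := by
        rw [← Real.rpow_one_add' hA.le (by norm_num)]
        norm_num
      have b2 : N τ.2.2 ^ (-1 / 6 : ℝ) = (N τ.2.2 ^ (1 / 2 : ℝ) * N τ.2.2 ^ (-1 / 3 : ℝ))⁻¹ := by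
        rw [← Real.rpow_add n0, ← Real.rpow_neg n0.le]
        norm_num
      have b3 : ((2 : ℕ) : ℝ) * (-1 / 6) = -1 / 3 := by norm_num
      rw [b1, b2, b3]
      ring
    rw [hs]
    linear_combination c1 * E0 * PR (Nn τ.2.2) * Real.sqrt (N τ.1) * a
  rw [e1, e2, ofReal_mul (s * E0), ← mul_sub, norm_mul, norm_real, Real.norm_eq_abs, abs_mul,
    abs_of_nonneg s0]
  have c1' : (1 : ℝ) ≤ (RR τ).divisors.card := by
    exact_mod_cast Finset.card_pos.2 ⟨1, Nat.one_mem_divisors.2 hRR⟩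
  calc _ ≤ s * (RR τ).divisors.card * (3 * (Nn τ.2.2).divisors.card) :=
        mul_le_mul (mul_le_mul_of_nonneg_left ((E_le _ _).trans c1') s0) hJ (norm_nonneg _)
          (by positivity)
    _ = _ := by rw [hs]; ring

end Vale.Agent.P006.K
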