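import Vale.Agent.P006.K0

/-! P006 branch K: decomposition `k = d n u^3` with `d` rational and `n` of squarefree norm. -/

noncomputable section
open Complex MeasureTheory Filter Topology
open scoped Classical ComplexConjugate

namespace Vale.Agent.P006.K
open Vale.Agent.P026

namespace DECM

theorem cjm (a b : O) : cj (a * b) = cj a * cj b := by
  ext <;> simp only [cj, QuadraticAlgebra.re_mul, QuadraticAlgebra.im_mul] <;> ring

theorem cjcj (a : O) : cj (cj a) = a := by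
  ext <;> simp [cj]

theorem cj_int (m : ℤ) : cj (m : O) = m := by
  ext <;> simp [cj]

theorem cj_dvd {a b : O} (h : a ∣ b) : cj a ∣ cj b := by
  obtain ⟨c, rfl⟩ := h
  exact ⟨cj c, cjm a c⟩

theorem idvd (m : ℤ) (a : O) : (m : O) ∣ a ↔ m ∣ a.re ∧ m ∣ a.im := by
  constructor
  · rintro ⟨c, rfl⟩
    exact ⟨⟨c.re, by simp⟩, ⟨c.im, by simp⟩⟩
  · rintro ⟨⟨x, hx⟩, ⟨y, hy⟩⟩
    exact ⟨⟨x, y⟩, by ext <;> simp [hx, hy]⟩

theorem idvd' (m k : ℤ) : (m : O) ∣ (k : O) ↔ m ∣ k := by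
  rw [idvd]; simp

theorem Nn_int (m : ℤ) : Nn (m : O) = m.natAbs ^ 2 := by
  have : nz (m : O) = m ^ 2 := by simp [nz]
  rw [Nn, this, Int.natAbs_pow]

theorem Nn_cj (a : O) : Nn (cj a) = Nn a := by
  have : nz (cj a) = nz a := by simp only [nz, cj]; ring
  rw [Nn, Nn, this]

theorem Nn_dvd (hB : Bas) {a b : O} (h : a ∣ b) : Nn a ∣ Nn b := by
  obtain ⟨c, rfl⟩ := h
  exact ⟨Nn c, hB.b1.Nn_mul a c⟩

theorem pint (hB : Bas) {p : O} {l : ℕ} (hl : l.Prime) (e : Nn p = l) {m : ℤ} (h : p ∣ (m : O)) :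
    (l : ℤ) ∣ m := by
  have h1 := Nn_dvd hB h
  rw [e, Nn_int] at h1
  exact Int.natCast_dvd.2 (hl.dvd_of_dvd_pow h1)

theorem noself (hB : Bas) {p : O} {l : ℕ} (hp : Prime p) (hl : l.Prime) (e : Nn p = l)
    (h3 : ¬ p ∣ 3) : ¬ p ∣ cj p := by
  intro h
  have a1 : p - cj p = (p.im : O) * lam := by
    ext <;> simp [cj, lam] <;> ring
  have a2 : p ∣ (p.im : O) * lam := a1 ▸ dvd_sub dvd_rfl h
  rcases hp.dvd_or_dvd a2 with a3 | a3
  · have a4 : (p.re : O) = p - (p.im : O) * wO := by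
      ext <;> simp [wO]
    have a5 : p ∣ (p.re : O) := a4 ▸ dvd_sub dvd_rfl (a3.mul_right _)
    have a6 : ((l : ℤ) : O) ∣ p := (idvd _ _).2 ⟨pint hB hl e a5, pint hB hl e a3⟩
    have a7 := Nn_dvd hB a6
    rw [Nn_int, e, Int.natAbs_natCast] at a7
    have a8 := Nat.le_of_dvd hl.pos a7
    have := hl.two_le
    nlinarith
  · apply h3
    have a4 : p ∣ -lam ^ 2 := (dvd_neg).2 (a3.trans (dvd_pow_self _ two_ne_zero))
    rwa [hB.b1.lam_sq, neg_neg] at a4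

theorem nd3 {p n : O} (hp : Prime p) (hn : IsCoprime n 3) (h : p ∣ n) : ¬ p ∣ 3 := fun h3 =>
  hp.not_unit (hn.isUnit_of_dvd' h h3)

theorem sqf_int (hB : Bas) {d : ℤ} (hd : Squarefree d) (h3 : IsCoprime (d : O) 3) :
    Squarefree (d : O) := by
  have d0 : (d : O) ≠ 0 := by
    intro h
    have := congrArg QuadraticAlgebra.re h
    simp at this
    exact hd.ne_zero this
  rw [squarefree_iff_irreducible_sq_not_dvd_of_ne_zero d0]
  intro p hp hpp
  have hp' : Prime p := UniqueFactorizationMonoid.irreducible_iff_prime.1 hp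
  obtain ⟨l, hl, hpl, hc⟩ := hB.b5.char p hp'
  have hl' : ¬ IsUnit (l : ℤ) := (Nat.prime_iff_prime_int.1 hl).not_unit
  rcases hc with e | ⟨-, ha⟩
  · have hpd : p ∣ (d : O) := (dvd_mul_right p p).trans hpp
    obtain ⟨d', rfl⟩ := pint hB hl e hpd
    have a1 : ((l * d' : ℤ) : O) = p * (cj p * (d' : O)) := by
      rw [← mul_assoc, hB.b1.cj_mul, e]; push_cast; ring
    rw [a1] at hpp
    rcases hp'.dvd_or_dvd ((mul_dvd_mul_iff_left hp'.ne_zero).1 hpp) with h | h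
    · exact noself hB hp' hl e (nd3 hp' h3 hpd) h
    · exact hl' (hd _ (mul_dvd_mul_left _ (pint hB hl e h)))
  · have a1 : ((l * l : ℤ) : O) ∣ (d : O) := by
      push_cast
      exact (ha.mul_mul ha).symm.dvd.trans hpp
    exact hl' (hd _ ((idvd' _ _).1 a1))

theorem sqf_of_Nn (hB : Bas) {n : O} (h : Squarefree (Nn n)) : Squarefree n := by
  intro x hx
  have a1 := Nn_dvd hB hx
  rw [hB.b1.Nn_mul] at a1
  exact (hB.b1.unit_iff x).2 (Nat.isUnit_iff.1 (h _ a1))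

theorem Nn_sqf (hB : Bas) {n : O} (h3 : IsCoprime n 3) (hs : Squarefree n)
    (hp : ∀ l : ℕ, l.Prime → ¬ (l : O) ∣ n) : Squarefree (Nn n) := by
  rw [Nat.squarefree_iff_prime_squarefree]
  intro l hl hll
  have a0 : ((l : ℤ) : O) = (l : O) := by push_cast; rfl
  have a1 : (l : O) * l ∣ n * cj n := by
    rw [hB.b1.cj_mul]
    exact_mod_cast Nat.cast_dvd_cast (α := O) hll
  have lN : Nn (l : O) = l ^ 2 := by rw [← a0, Nn_int, Int.natAbs_natCast]
  have l0 : (l : O) ≠ 0 := by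
    intro h
    have := congrArg QuadraticAlgebra.re h
    simp at this
    exact hl.ne_zero this
  have lu : ¬ IsUnit (l : O) := by
    rw [hB.b1.unit_iff, lN]
    have := hl.two_le
    nlinarith
  obtain ⟨p, hpi, hpl⟩ := WfDvdMonoid.exists_irreducible_factor lu l0
  have hp' : Prime p := UniqueFactorizationMonoid.irreducible_iff_prime.1 hpi
  obtain ⟨l', hl', hpl', hc⟩ := hB.b5.char p hp'
  have ell : l' = l := by
    by_contra hne
    have b1 : IsCoprime (l' : ℤ) (l : ℤ) :=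
      Nat.isCoprime_iff_coprime.2 ((Nat.coprime_primes hl' hl).2 hne)
    have b2 : IsCoprime ((l' : ℤ) : O) ((l : ℤ) : O) := b1.map (Int.castRingHom O)
    rw [a0] at b2
    refine hp'.not_unit (b2.isUnit_of_dvd' ?_ hpl)
    exact_mod_cast hpl'
  subst ell
  have hcl : ∀ x : O, (l' : O) ∣ cj x → (l' : O) ∣ x := by
    intro x hx
    have := cj_dvd hx
    rwa [cjcj, ← a0, cj_int, a0] at this
  rcases hc with e | ⟨-, ha⟩
  · have b1 : p * p ∣ n * cj n := (mul_dvd_mul hpl hpl).trans a1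
    have cu : ¬ IsUnit (cj p) := by
      rw [hB.b1.unit_iff, Nn_cj, ← hB.b1.unit_iff]; exact hp'.not_unit
    by_cases c1 : p ∣ n
    · by_cases c2 : p ∣ cj n
      · have d1 : cj p ∣ n := by simpa only [cjcj] using cj_dvd c2
        have d2 : IsCoprime p (cj p) :=
          (hp'.irreducible.coprime_iff_not_dvd).2 (noself hB hp' hl e (nd3 hp' h3 c1))
        have d3 := d2.mul_dvd c1 d1
        rw [hB.b1.cj_mul, e] at d3
        exact hp _ hl d3
      · have d2 : IsCoprime p (cj n) := (hp'.irreducible.coprime_iff_not_dvd).2 c2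
        exact hp'.not_unit (hs p ((d2.mul_left d2).dvd_of_dvd_mul_right b1))
    · have d2 : IsCoprime p n := (hp'.irreducible.coprime_iff_not_dvd).2 c1
      have d3 := cj_dvd ((d2.mul_left d2).dvd_of_dvd_mul_left b1)
      rw [cjcj, cjm] at d3
      exact cu (hs _ d3)
  · have lp : Prime (l' : O) := ha.prime hp'
    rcases lp.dvd_or_dvd ((dvd_mul_right _ _).trans a1) with h | h
    · exact hp _ hl h
    · exact hp _ hl (hcl n h)

theorem sign (hB : Bas) (g : ℤ) (h3 : IsCoprime (g : O) 3) : Prim (g : O) ∨ Prim ((-g : ℤ) : O) := by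
  have key : ∀ m : ℤ, 3 ∣ m - 1 → Prim (m : O) := by
    intro m hm
    have := (idvd' 3 (m - 1)).2 hm
    unfold Prim
    exact_mod_cast this
  have a1 : ¬ (3 : ℤ) ∣ g := by
    intro h
    have b1 : ((3 : ℤ) : O) ∣ (g : O) := (idvd' _ _).2 h
    have b2 : IsUnit (3 : O) := h3.isUnit_of_dvd' (by exact_mod_cast b1) dvd_rfl
    have b3 := (hB.b1.unit_iff _).1 b2
    have b4 := Nn_int 3
    norm_num at b4
    omega
  by_cases h : 3 ∣ g - 1
  · exact Or.inl (key g h)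
  · exact Or.inr (key (-g) (by omega))

/-- rational part of a squarefree primary element -/
theorem split (hB : Bas) {n0 : O} (hn : Prim n0) (hs : Squarefree n0) : ∃ (d : ℤ) (n : O),
    Squarefree d ∧ Prim (d : O) ∧ Prim n ∧ Squarefree (Nn n) ∧ IsCoprime (d : O) n ∧ n0 = d * n := by
  have n00 := hB.b2.ne _ hn
  have h3 := hB.b2.cop _ hn
  set g : ℤ := ((Int.gcd n0.re n0.im : ℕ) : ℤ) with hg
  have hgd : (g : O) ∣ n0 := (idvd _ _).2 ⟨Int.gcd_dvd_left _ _, Int.gcd_dvd_right _ _⟩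
  have hmax : ∀ m : ℤ, (m : O) ∣ n0 → m ∣ g := fun m hm =>
    Int.dvd_coe_gcd ((idvd _ _).1 hm).1 ((idvd _ _).1 hm).2
  obtain ⟨d, hd, hdg, hgd'⟩ : ∃ d : ℤ, Prim (d : O) ∧ d ∣ g ∧ g ∣ d := by
    rcases sign hB g (h3.of_isCoprime_of_dvd_left hgd) with h | h
    · exact ⟨g, h, dvd_rfl, dvd_rfl⟩
    · exact ⟨-g, h, neg_dvd.2 dvd_rfl, dvd_neg.2 dvd_rfl⟩
  obtain ⟨n, e⟩ : (d : O) ∣ n0 := ((idvd' _ _).2 hdg).trans hgd
  have pn : Prim n := hB.b2.cancel _ _ hd (e ▸ hn)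
  have hs' : Squarefree ((d : O) * n) := e ▸ hs
  have d0 : d ≠ 0 := by
    rintro rfl
    exact hB.b2.ne _ hd (by simp)
  refine ⟨d, n, fun x hx => ?_, hd, pn, Nn_sqf hB (hB.b2.cop _ pn) hs'.of_mul_right
    fun l hl hln => ?_, (squarefree_mul_iff.1 hs').1.isCoprime, e⟩
  · have a1 : ((x * x : ℤ) : O) ∣ (d : O) := (idvd' _ _).2 hx
    push_cast at a1
    have a2 := (hB.b1.unit_iff _).1 (hs'.of_mul_left _ a1)
    rw [Nn_int] at a2
    exact Int.isUnit_iff_natAbs_eq.2 ((pow_eq_one_iff.1 a2).resolve_right two_ne_zero)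
  · have a1 : ((d * l : ℤ) : O) ∣ n0 := by
      rw [e]; push_cast; exact mul_dvd_mul_left _ hln
    have a2 : d * l ∣ d * 1 := by rw [mul_one]; exact (hmax _ a1).trans hgd'
    have a3 := (mul_dvd_mul_iff_left d0).1 a2
    exact (Nat.prime_iff_prime_int.1 hl).not_unit (isUnit_of_dvd_one a3)

theorem dvd_part (hB : Bas) {d d' : ℤ} {n n' : O} (d0 : d ≠ 0) (hn' : Squarefree (Nn n'))
    (e : (d : O) * n = d' * n') : d ∣ d' := by
  obtain ⟨g, a, b, hg, hab, rfl, rfl⟩ := Int.exists_gcd_one' (Int.gcd_pos_of_ne_zero_left d' d0)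
  have g0 : ((g : ℤ) : O) ≠ 0 := by
    intro h
    have := congrArg QuadraticAlgebra.re h
    simp at this
    omega
  have a1 : (a : O) * n = b * n' := by
    refine mul_left_cancel₀ g0 ?_
    push_cast at e ⊢
    linear_combination e
  have a2 : IsCoprime (a : O) (b : O) :=
    (Int.isCoprime_iff_gcd_eq_one.2 hab).map (Int.castRingHom O)
  have a3 : (a : O) ∣ n' := a2.dvd_of_dvd_mul_left ⟨n, a1.symm⟩
  have a4 := Nn_dvd hB a3
  rw [Nn_int, sq] at a4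
  have a5 : IsUnit a := Int.isUnit_iff_natAbs_eq.2 (Nat.isUnit_iff.1 (hn' _ a4))
  exact mul_dvd_mul_right (a5.dvd) _

theorem sqf_dn (hB : Bas) {τ : O × ℤ × O} (h : Tr τ) : Squarefree ((τ.2.1 : O) * τ.2.2) :=
  squarefree_mul_iff.2 ⟨h.2.2.2.2.2.isRelPrime, sqf_int hB h.2.1 (hB.b2.cop _ h.2.2.1),
    sqf_of_Nn hB h.2.2.2.2.1⟩

theorem inj (E : Env) {τ σ : O × ℤ × O} (h : Tr τ) (h' : Tr σ) (e : kq τ = kq σ) : τ = σ := by
  have hB := E.hB
  obtain ⟨e1, e2⟩ := E.hb.uniq _ _ _ _ (hB.b2.mul _ _ h.2.2.1 h.2.2.2.1) h.1 (sqf_dn hB h)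
    (hB.b2.mul _ _ h'.2.2.1 h'.2.2.2.1) h'.1 (sqf_dn hB h') e
  have a1 := dvd_part hB h.2.1.ne_zero h'.2.2.2.2.1 e1
  have a2 := dvd_part hB h'.2.1.ne_zero h.2.2.2.2.1 e1.symm
  have a3 : (τ.2.1 : O) = σ.2.1 := hB.b2.uniq _ _ h.2.2.1 h'.2.2.1
    (associated_of_dvd_dvd ((idvd' _ _).2 a1) ((idvd' _ _).2 a2))
  have a4 : τ.2.1 = σ.2.1 := by
    have := congrArg QuadraticAlgebra.re a3
    simpa using this
  refine Prod.ext e2 (Prod.ext a4 ?_)
  rw [a3] at e1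
  exact mul_left_cancel₀ (hB.b2.ne _ h'.2.2.1) e1

end DECM

open DECM in
theorem decS (E : Env) : DECStmt := by
  have hB := E.hB
  refine ⟨fun τ h => ?_, fun F z hF => ?_⟩
  · have p0 := hB.b2.mul _ _ h.2.2.1 h.2.2.2.1
    have hN : N ((τ.2.1 : O) * τ.2.2) = (τ.2.1 : ℝ) ^ 2 * N τ.2.2 := by
      rw [hB.b1.N_mul, hB.b1.N_int]
    refine ⟨hB.b2.mul _ _ p0 (hB.b2.pow _ _ h.1), sqf_dn hB h, ?_, ?_⟩
    · rw [kq, hB.b1.N_mul, hN, hB.b1.N_pow]
    · have a1 := hB.b1.N_one_le _ (hB.b2.ne _ p0)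
      have a2 := hB.b1.N_one_le _ (hB.b2.ne _ h.1)
      rw [ww, kq, E.hb.eq _ _ p0 h.1 (sqf_dn hB h), norm_mul, mul_pow,
        E.hH.n3 _ (hB.b2.cop _ p0) (sqf_dn hB h), hB.b1.N_mul _ (τ.1 ^ 3), hB.b1.N_pow, ← hN]
      generalize N ((τ.2.1 : O) * τ.2.2) = x at a1
      generalize N τ.1 = y at a2
      have x0 : 0 < x := by linarith
      have y0 : 0 < y := by linarith
      rw [norm_pow, Complex.norm_real, Real.norm_of_nonneg y0.le, Real.mul_rpow x0.le (by positivity),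
        Real.sqrt_eq_rpow, ← pow_mul, ← Real.rpow_natCast, ← Real.rpow_natCast,
        ← Real.rpow_mul y0.le]
      have b1 : x ^ (-1 / 6 : ℝ) = x * x ^ (-7 / 6 : ℝ) := by
        rw [← Real.rpow_one_add' x0.le (by norm_num)]; norm_num
      have b2 : y ^ (1 / 2 : ℝ) = y ^ ((2 * 2 : ℕ) : ℝ) * y ^ (((3 : ℕ) : ℝ) * (-7 / 6 : ℝ)) := by
        rw [← Real.rpow_add y0]; norm_num
      rw [b1, b2]; ring
  · have a1 : (fun τ => if Tr τ then F (kq τ) else 0) =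
        Set.indicator {τ | Tr τ} (fun τ => F (kq τ)) := by
      funext τ; simp [Set.indicator]
    rw [a1, ← hasSum_subtype_iff_indicator]
    have a2 : Function.Injective fun τ : {τ | Tr τ} => kq τ.1 := fun τ σ e =>
      Subtype.ext (inj E τ.2 σ.2 e)
    refine a2.hasSum_iff (f := F) fun k hk => hF k ?_
    rcases E.hb.cases k with h | ⟨n0, u, hn, hu, hs, rfl⟩
    · exact h
    · obtain ⟨d, n, b1, b2, b3, b4, b5, rfl⟩ := split hB hn hs
      exact absurd ⟨⟨(u, d, n), hu, b1, b2, b3, b4, b5⟩, rfl⟩ hk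

end Vale.Agent.P006.K
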