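import Vale.Agent.P006.K0

/-! P006 branch K, row EM: elementary sums and constants. -/

noncomputable section
open MeasureTheory Filter Topology Set

namespace Vale.Agent.P006.K
open Vale.Agent.P026

namespace EMM

lemma cmp (f : ℝ → ℝ) (ha : AntitoneOn f (Ioi 0)) (hi : IntegrableOn f (Ioi 0))
    (h0 : ∀ x, 0 < x → 0 ≤ f x) :
    0 ≤ (∫ x in Ioi (0 : ℝ), f x) - ∑' n : ℕ, f ((n + 1 : ℕ) : ℝ) ∧
      (∫ x in Ioi (0 : ℝ), f x) - ∑' n : ℕ, f ((n + 1 : ℕ) : ℝ) ≤ ∫ x in Ioc (0 : ℝ) 1, f x := by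
  have hU : (⋃ n : ℕ, Ioc (n : ℝ) (n + 1)) = Ioi 0 := by
    ext x
    simp only [mem_iUnion, mem_Ioc, mem_Ioi]
    constructor
    · rintro ⟨n, h, _⟩; exact (Nat.cast_nonneg n).trans_lt h
    · intro hx
      have h1 : 1 ≤ ⌈x⌉₊ := Nat.one_le_iff_ne_zero.2 (Nat.ceil_pos.2 hx).ne'
      refine ⟨⌈x⌉₊ - 1, ?_, ?_⟩
      · rw [Nat.cast_sub h1]; have := Nat.ceil_lt_add_one hx.le; push_cast; linarith
      · rw [Nat.cast_sub h1]; have := Nat.le_ceil x; push_cast; linarith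
  have hd : Pairwise (Function.onFun Disjoint fun n : ℕ => Ioc (n : ℝ) (n + 1)) := by
    intro m n hmn
    rw [Function.onFun, Set.disjoint_left]
    rintro x ⟨a, b⟩ ⟨c, d⟩
    have h1 : (m : ℝ) < n + 1 := by linarith
    have h2 : (n : ℝ) < m + 1 := by linarith
    have h3 : m < n + 1 := by exact_mod_cast h1
    have h4 : n < m + 1 := by exact_mod_cast h2
    omega
  have hs := hasSum_integral_iUnion (μ := volume) (f := f) (fun n : ℕ => measurableSet_Ioc) hd (hU ▸ hi)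
  rw [hU] at hs
  have sub : ∀ n : ℕ, Ioc (n : ℝ) (n + 1) ⊆ Ioi 0 := fun n x hx => (Nat.cast_nonneg n).trans_lt hx.1
  have vol : ∀ (n : ℕ) (c : ℝ), ∫ _ in Ioc (n : ℝ) (n + 1), c = c := fun n c => by simp
  have ic : ∀ (n : ℕ) (c : ℝ), IntegrableOn (fun _ => c) (Ioc (n : ℝ) (n + 1)) := fun n c =>
    integrableOn_const (by simp)
  have lo : ∀ n : ℕ, f ((n + 1 : ℕ) : ℝ) ≤ ∫ x in Ioc (n : ℝ) (n + 1), f x := by
    intro n
    rw [← vol n (f _)]
    refine setIntegral_mono_on (ic n _) (hi.mono_set (sub n)) measurableSet_Ioc fun x hx => ?_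
    exact ha (sub n hx) (by simp only [mem_Ioi]; positivity) (by push_cast; exact hx.2)
  have hi' : ∀ n : ℕ, ∫ x in Ioc ((n + 1 : ℕ) : ℝ) ((n + 1 : ℕ) + 1), f x ≤ f ((n + 1 : ℕ) : ℝ) := by
    intro n
    refine le_trans ?_ (vol (n + 1) (f ((n + 1 : ℕ) : ℝ))).le
    refine setIntegral_mono_on (hi.mono_set (sub _)) (ic _ _) measurableSet_Ioc fun x hx => ?_
    exact ha (by simp only [mem_Ioi]; positivity) (sub _ hx) hx.1.le
  have sf : Summable fun n : ℕ => f ((n + 1 : ℕ) : ℝ) :=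
    Summable.of_nonneg_of_le (fun n => h0 _ (by positivity)) lo hs.summable
  constructor
  · rw [← hs.tsum_eq]
    exact sub_nonneg.2 (sf.tsum_le_tsum lo hs.summable)
  · rw [← hs.tsum_eq, hs.summable.tsum_eq_zero_add]
    have := ((summable_nat_add_iff 1).2 hs.summable).tsum_le_tsum hi' sf
    simp only [Nat.cast_zero, zero_add]
    linarith

lemma c2pos : 0 < c2 := by
  unfold c2
  have := Real.Gamma_pos_of_pos (by norm_num : (0 : ℝ) < 1 / 3)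
  have := Real.pi_pos
  positivity

lemma const : c1 = cstar * c2 := by
  unfold c1 cstar c2
  have h := Real.Gamma_mul_Gamma_add_half (1 / 6)
  have hp := Real.pi_pos
  have g := Real.Gamma_pos_of_pos (by norm_num : (0 : ℝ) < 2 / 3)
  rw [show (1 / 6 + 1 / 2 : ℝ) = 2 / 3 by norm_num, show (2 * (1 / 6) : ℝ) = 1 / 3 by norm_num,
    show (1 - 1 / 3 : ℝ) = 2 / 3 by norm_num, Real.sqrt_eq_rpow] at h
  have e : Real.pi ^ (-1 / 6 : ℝ) * Real.pi ^ (1 / 2 : ℝ) =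
      Real.pi ^ (2 / 3 : ℝ) * Real.pi ^ (-1 / 3 : ℝ) := by
    rw [← Real.rpow_add hp, ← Real.rpow_add hp]; norm_num
  rw [Real.mul_rpow (by norm_num) hp.le]
  generalize Real.pi ^ (-1 / 6 : ℝ) = x1, Real.pi ^ (-1 / 3 : ℝ) = x2, Real.pi ^ (1 / 2 : ℝ) = x3,
    Real.pi ^ (2 / 3 : ℝ) = x4, (2 : ℝ) ^ (2 / 3 : ℝ) = x5, Real.Gamma (1 / 6) = y1,
    Real.Gamma (1 / 3) = y2, Real.Gamma (2 / 3) = y3 at *
  field_simp
  linear_combination x1 * h + y2 * x5 * e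

lemma s4 : ∃ C : ℝ, ∀ A : ℝ, 0 < A →
    |∑' b : ℕ, ((b + 1 : ℕ) : ℝ) ^ (-1 / 3 : ℝ) * gA A (b + 1 : ℕ) - c2 / 2 * A ^ (2 / 3 : ℝ)| ≤
      C * A ^ (3 / 5 : ℝ) := by
  refine ⟨3 / 2 + c2 / 2, fun A hA => ?_⟩
  have hp := Real.pi_pos
  have hb : 0 < Real.pi / A ^ 2 := by positivity
  have hi := integrableOn_rpow_mul_exp_neg_mul_rpow (p := 2) (s := -1 / 3) (by norm_num) (by norm_num) hb
  have hI := integral_rpow_mul_exp_neg_mul_rpow (p := 2) (q := -1 / 3) (by norm_num) (by norm_num) hb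
  obtain ⟨k1, k2⟩ := cmp (fun x => x ^ (-1 / 3 : ℝ) * Real.exp (-(Real.pi / A ^ 2) * x ^ (2 : ℝ)))
    (fun x hx y hy hxy => by
      simp only [mem_Ioi] at hx hy
      refine mul_le_mul (Real.rpow_le_rpow_of_nonpos hx hxy (by norm_num))
        (Real.exp_le_exp.2 ?_) (Real.exp_pos _).le (by positivity)
      have := Real.rpow_le_rpow hx.le hxy (by norm_num : (0 : ℝ) ≤ 2)
      nlinarith) hi fun x hx => by positivity
  have e1 : (Real.pi / A ^ 2) ^ (-(-1 / 3 + 1) / 2 : ℝ) * (1 / 2) * Real.Gamma ((-1 / 3 + 1) / 2) =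
      c2 / 2 * A ^ (2 / 3 : ℝ) := by
    unfold c2
    rw [show (-(-1 / 3 + 1) / 2 : ℝ) = -1 / 3 by norm_num, show ((-1 / 3 + 1) / 2 : ℝ) = 1 / 3 by norm_num,
      Real.div_rpow hp.le (by positivity), ← Real.rpow_natCast, ← Real.rpow_mul hA.le,
      show ((2 : ℕ) : ℝ) * (-1 / 3) = -(2 / 3) by norm_num, Real.rpow_neg hA.le]
    field_simp
  have e2 : ∀ b : ℕ, ((b + 1 : ℕ) : ℝ) ^ (-1 / 3 : ℝ) * gA A (b + 1 : ℕ) =
      ((b + 1 : ℕ) : ℝ) ^ (-1 / 3 : ℝ) * Real.exp (-(Real.pi / A ^ 2) * ((b + 1 : ℕ) : ℝ) ^ (2 : ℝ)) := by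
    intro b
    unfold gA
    rw [Real.rpow_two]
    congr 2
    push_cast
    ring
  have e3 : ∫ x in Ioc (0 : ℝ) 1, x ^ (-1 / 3 : ℝ) * Real.exp (-(Real.pi / A ^ 2) * x ^ (2 : ℝ)) ≤ 3 / 2 := by
    have i1 : IntervalIntegrable (fun x : ℝ => x ^ (-1 / 3 : ℝ)) volume 0 1 :=
      intervalIntegral.intervalIntegrable_rpow' (by norm_num)
    calc _ ≤ ∫ x in Ioc (0 : ℝ) 1, x ^ (-1 / 3 : ℝ) := by
          refine setIntegral_mono_on (hi.mono_set Ioc_subset_Ioi_self) i1.1 measurableSet_Ioc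
            fun x hx => mul_le_of_le_one_right (Real.rpow_nonneg hx.1.le _) (Real.exp_le_one_iff.2 ?_)
          have := mul_nonneg hb.le (Real.rpow_nonneg hx.1.le 2)
          linarith
      _ = 3 / 2 := by
          rw [← intervalIntegral.integral_of_le zero_le_one, integral_rpow (Or.inl (by norm_num))]
          norm_num
  simp only [e2]
  rw [hI, e1] at k1 k2
  rw [abs_sub_comm, abs_of_nonneg k1]
  have c := c2pos
  have S0 : 0 ≤ ∑' b : ℕ, ((b + 1 : ℕ) : ℝ) ^ (-1 / 3 : ℝ) *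
      Real.exp (-(Real.pi / A ^ 2) * ((b + 1 : ℕ) : ℝ) ^ (2 : ℝ)) := tsum_nonneg fun b => by positivity
  have p0 : 0 < A ^ (3 / 5 : ℝ) := by positivity
  rcases le_total 1 A with h | h
  · have := Real.one_le_rpow h (by norm_num : (0 : ℝ) ≤ 3 / 5)
    nlinarith
  · have := Real.rpow_le_rpow_of_exponent_ge hA h (by norm_num : (3 / 5 : ℝ) ≤ 2 / 3)
    nlinarith

lemma s5 (β : ℝ) (hβ : 0 < β) :
    |∑' j : ℕ, Real.exp (-(Real.pi * (β * ((j + 1 : ℕ) : ℝ) ^ 3) ^ 2)) - c1 / 2 * β ^ (-1 / 3 : ℝ)| ≤ 1 := by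
  have hp := Real.pi_pos
  have hb : 0 < Real.pi * β ^ 2 := by positivity
  have hi := integrableOn_rpow_mul_exp_neg_mul_rpow (p := 6) (s := 0) (by norm_num) (by norm_num) hb
  have hI := integral_rpow_mul_exp_neg_mul_rpow (p := 6) (q := 0) (by norm_num) (by norm_num) hb
  simp only [Real.rpow_zero, one_mul] at hi hI
  obtain ⟨k1, k2⟩ := cmp (fun x => Real.exp (-(Real.pi * β ^ 2) * x ^ (6 : ℝ)))
    (fun x hx y hy hxy => by
      simp only [mem_Ioi] at hx hy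
      refine Real.exp_le_exp.2 ?_
      have := Real.rpow_le_rpow hx.le hxy (by norm_num : (0 : ℝ) ≤ 6)
      nlinarith) hi fun x hx => by positivity
  have e1 : (Real.pi * β ^ 2) ^ (-(0 + 1) / 6 : ℝ) * (1 / 6) * Real.Gamma ((0 + 1) / 6) =
      c1 / 2 * β ^ (-1 / 3 : ℝ) := by
    unfold c1
    rw [show (-(0 + 1) / 6 : ℝ) = -1 / 6 by norm_num, show ((0 + 1) / 6 : ℝ) = 1 / 6 by norm_num,
      Real.mul_rpow hp.le (by positivity), ← Real.rpow_natCast, ← Real.rpow_mul hβ.le,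
      show ((2 : ℕ) : ℝ) * (-1 / 6) = -1 / 3 by norm_num]
    ring
  have e2 : ∀ j : ℕ, Real.exp (-(Real.pi * (β * ((j + 1 : ℕ) : ℝ) ^ 3) ^ 2)) =
      Real.exp (-(Real.pi * β ^ 2) * ((j + 1 : ℕ) : ℝ) ^ (6 : ℝ)) := by
    intro j
    rw [show (6 : ℝ) = ((6 : ℕ) : ℝ) by norm_num, Real.rpow_natCast]
    congr 1; ring
  have e3 : ∫ x in Ioc (0 : ℝ) 1, Real.exp (-(Real.pi * β ^ 2) * x ^ (6 : ℝ)) ≤ 1 := by
    calc _ ≤ ∫ _ in Ioc (0 : ℝ) 1, (1 : ℝ) := by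
          refine setIntegral_mono_on (hi.mono_set Ioc_subset_Ioi_self) (integrableOn_const (by simp))
            measurableSet_Ioc fun x hx => Real.exp_le_one_iff.2 ?_
          have := Real.rpow_nonneg hx.1.le 6
          nlinarith
      _ = 1 := by simp
  simp only [e2]
  rw [hI, e1] at k1 k2
  rw [abs_sub_comm, abs_of_nonneg k1]
  linarith

lemma exp_le (s : ℝ) (hs : 0 ≤ s) : ∃ C : ℝ, 0 ≤ C ∧ ∀ y : ℝ, 0 < y → Real.exp (-y) ≤ C * y ^ (-s) := by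
  refine ⟨1 + (⌈s⌉₊).factorial, by positivity, fun y hy => ?_⟩
  have h1 : y ^ s ≤ 1 + y ^ ⌈s⌉₊ := by
    rcases le_total y 1 with h | h
    · have := Real.rpow_le_one hy.le h hs
      have := pow_pos hy ⌈s⌉₊
      linarith
    · have := Real.rpow_le_rpow_of_exponent_le h (Nat.le_ceil s)
      rw [Real.rpow_natCast] at this
      linarith
  have h2 := Real.pow_div_factorial_le_exp y hy.le ⌈s⌉₊
  rw [div_le_iff₀ (by positivity)] at h2
  have h3 : 1 ≤ Real.exp y := Real.one_le_exp hy.le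
  rw [Real.rpow_neg hy.le, Real.exp_neg, ← div_eq_mul_inv, le_div_iff₀ (by positivity),
    inv_mul_le_iff₀ (by positivity)]
  nlinarith

lemma s6 (σ δ : ℝ) (hσ : 0 ≤ σ) (hδ : 0 < δ) : ∃ C : ℝ, ∀ A : ℝ, 0 < A →
    (Summable fun a : ℤ => |(a : ℝ)| ^ σ * gA A a) ∧
    ∑' a : ℤ, (if a = 0 then 0 else |(a : ℝ)| ^ σ * gA A a) ≤ C * A ^ (σ + 1 + δ) := by
  obtain ⟨C, hC0, hC⟩ := exp_le ((σ + 1 + δ) / 2) (by positivity)
  have hz := Real.summable_abs_int_rpow (b := 1 + δ) (by linarith)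
  refine ⟨C * ∑' a : ℤ, |(a : ℝ)| ^ (-(1 + δ)), fun A hA => ?_⟩
  have g0 : ∀ a : ℤ, 0 ≤ |(a : ℝ)| ^ σ * gA A a := fun a =>
    mul_nonneg (Real.rpow_nonneg (abs_nonneg _) _) (Real.exp_pos _).le
  have key : ∀ a : ℤ, (if a = 0 then 0 else |(a : ℝ)| ^ σ * gA A a) ≤
      C * A ^ (σ + 1 + δ) * |(a : ℝ)| ^ (-(1 + δ)) := by
    intro a
    split_ifs with h
    · positivity
    have ha : 0 < |(a : ℝ)| := abs_pos.2 (by exact_mod_cast h)
    have hq : 0 < |(a : ℝ)| / A := by positivity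
    have h1 : gA A a ≤ Real.exp (-((|(a : ℝ)| / A) ^ 2)) := by
      unfold gA
      refine Real.exp_le_exp.2 (neg_le_neg ?_)
      rw [div_pow, div_pow, sq_abs]
      exact le_mul_of_one_le_left (by positivity) (by linarith [Real.pi_gt_three])
    have h2 := hC _ (pow_pos hq 2)
    have e0 : ((|(a : ℝ)| / A) ^ 2) ^ (-((σ + 1 + δ) / 2)) =
        |(a : ℝ)| ^ (-(σ + 1 + δ)) * A ^ (σ + 1 + δ) := by
      rw [← Real.rpow_natCast _ 2, ← Real.rpow_mul hq.le,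
        show ((2 : ℕ) : ℝ) * -((σ + 1 + δ) / 2) = -(σ + 1 + δ) by push_cast; ring,
        Real.div_rpow ha.le hA.le, Real.rpow_neg hA.le, div_inv_eq_mul]
    rw [e0] at h2
    have e : |(a : ℝ)| ^ σ * |(a : ℝ)| ^ (-(σ + 1 + δ)) = |(a : ℝ)| ^ (-(1 + δ)) := by
      rw [← Real.rpow_add ha]; congr 1; ring
    calc _ ≤ |(a : ℝ)| ^ σ * (C * (|(a : ℝ)| ^ (-(σ + 1 + δ)) * A ^ (σ + 1 + δ))) := by
          gcongr; exact h1.trans h2
      _ = C * A ^ (σ + 1 + δ) * (|(a : ℝ)| ^ σ * |(a : ℝ)| ^ (-(σ + 1 + δ))) := by ring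
      _ = _ := by rw [e]
  have s1 : Summable fun a : ℤ => if a = 0 then 0 else |(a : ℝ)| ^ σ * gA A a :=
    Summable.of_nonneg_of_le (fun a => by split_ifs; exacts [le_rfl, g0 a]) key (hz.mul_left _)
  constructor
  · refine (s1.add (hasSum_ite_eq (0 : ℤ) (|((0 : ℤ) : ℝ)| ^ σ * gA A 0)).summable).congr fun a => ?_
    by_cases h : a = 0
    · simp [h]
    · simp [h]
  · refine (s1.tsum_le_tsum key (hz.mul_left _)).trans (le_of_eq ?_)
    rw [tsum_mul_left]; ring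

lemma PR01 (R : ℕ) : ∀ p ∈ R.primeFactors, 1 / 2 ≤ 1 - (p : ℝ)⁻¹ ∧ 1 - (p : ℝ)⁻¹ ≤ 1 := by
  intro p hp
  have h2 : (2 : ℝ) ≤ p := by exact_mod_cast (Nat.prime_of_mem_primeFactors hp).two_le
  have h3 : (p : ℝ)⁻¹ ≤ 2⁻¹ := inv_anti₀ (by norm_num) h2
  have h4 : 0 ≤ (p : ℝ)⁻¹ := by positivity
  constructor <;> linarith

lemma s7 (hB : Bas) (ε : ℝ) (hε : 0 < ε) : ∃ C : ℝ, 0 < C ∧ ∀ R : ℕ, R ≠ 0 →
    (R.divisors.card : ℝ) ≤ C * (R : ℝ) ^ ε ∧ (R : ℝ) ^ (-ε) ≤ C * PR R ∧ PR R ≤ 1 := by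
  classical
  obtain ⟨C, hC⟩ := hB.b3.div (ε / 2) (by positivity)
  refine ⟨max C 1, zero_lt_one.trans_le (le_max_right _ _), fun R hR => ?_⟩
  have hN : ∀ n : ℕ, N (n : O) = (n : ℝ) ^ 2 := fun n => by simpa using hB.b1.N_int n
  have R0 : (0 : ℝ) < R := by positivity
  have inj : Function.Injective (Nat.cast : ℕ → O) := by
    intro a b h
    have := hN a
    rw [h, hN b] at this
    have := (pow_left_inj₀ (Nat.cast_nonneg b) (Nat.cast_nonneg a) two_ne_zero).1 this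
    exact_mod_cast this.symm
  have h1 : (R.divisors.card : ℝ) ≤ max C 1 * (R : ℝ) ^ ε := by
    have := hC (R : O) (fun h => hR (inj (by simpa using h))) (R.divisors.image Nat.cast) fun d hd => by
      obtain ⟨e, he, rfl⟩ := Finset.mem_image.1 hd
      exact Nat.cast_dvd_cast (Nat.dvd_of_mem_divisors he)
    rw [Finset.card_image_of_injective _ inj, hN, ← Real.rpow_natCast, ← Real.rpow_mul R0.le,
      show ((2 : ℕ) : ℝ) * (ε / 2) = ε by push_cast; ring] at this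
    exact this.trans (mul_le_mul_of_nonneg_right (le_max_left _ _) (by positivity))
  have P0 : 0 ≤ PR R := Finset.prod_nonneg fun p hp => by linarith [(PR01 R p hp).1]
  have h2 : 1 ≤ (R.divisors.card : ℝ) * PR R := by
    rw [Nat.card_divisors hR]
    unfold PR
    push_cast
    rw [← Finset.prod_mul_distrib]
    refine le_trans (le_of_eq (Finset.prod_const_one (s := R.primeFactors)).symm)
      (Finset.prod_le_prod (fun _ _ => zero_le_one) fun p hp => ?_)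
    have a := (PR01 R p hp).1
    have b : (1 : ℝ) ≤ R.factorization p := by
      exact_mod_cast (Nat.prime_of_mem_primeFactors hp).factorization_pos_of_dvd hR
        (Nat.dvd_of_mem_primeFactors hp)
    nlinarith
  refine ⟨h1, ?_, Finset.prod_le_one (fun p hp => by linarith [(PR01 R p hp).1])
    fun p hp => (PR01 R p hp).2⟩
  rw [Real.rpow_neg R0.le, inv_le_iff_one_le_mul₀ (by positivity)]
  nlinarith [mul_le_mul_of_nonneg_right h1 P0]

end EMM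

theorem emS (E : Env) : EMStmt := by
  refine ⟨EMM.const, EMM.c2pos, ?_, EMM.s4, EMM.s5, EMM.s6, EMM.s7 E.hB⟩
  unfold rho0
  have := Real.pi_pos
  positivity

end Vale.Agent.P006.K
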