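import Vale.Agent.P006.K0

noncomputable section
open Complex MeasureTheory Filter Topology
open scoped Classical ComplexConjugate

namespace Vale.Agent.P006.K
open Vale.Agent.P026
namespace FINM

lemma VV_symm {x y : ℝ} : VV x y = VV y x := by
  unfold VV
  rw [← inv_div x y, Real.log_inv]; ring_nf

lemma VV_pos (x y : ℝ) : 0 < VV x y := Real.exp_pos _

lemma vint (hL : LN) {A0 : ℝ} (h0 : 0 < A0) (θ : ℝ) :
    IntegrableOn (fun A => VV A0 A / A * A ^ θ) (Set.Ioi 0) ∧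
    ∫ A in Set.Ioi (0 : ℝ), VV A0 A / A * A ^ θ = Real.sqrt Real.pi * Real.exp (θ ^ 2 / 4) * A0 ^ θ := by
  have h := hL.fwd A0 (-(θ : ℂ)) h0
  have h2 : ∫ A in Set.Ioi (0 : ℝ), (VV A A0 : ℂ) * (A : ℂ) ^ (-(-(θ : ℂ)) - 1) =
      ∫ A in Set.Ioi (0 : ℝ), ((VV A0 A / A * A ^ θ : ℝ) : ℂ) := by
    refine setIntegral_congr_fun measurableSet_Ioi fun A hA => ?_
    have hA : 0 < A := hA
    have : (-(-(θ : ℂ)) - 1) = ((θ - 1 : ℝ) : ℂ) := by push_cast; ring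
    show (VV A A0 : ℂ) * (A : ℂ) ^ (-(-(θ : ℂ)) - 1) = ((VV A0 A / A * A ^ θ : ℝ) : ℂ)
    rw [this, ← Complex.ofReal_cpow hA.le, VV_symm, Real.rpow_sub_one hA.ne']
    push_cast; ring
  rw [h2, integral_complex_ofReal] at h
  have h3 : ∫ A in Set.Ioi (0 : ℝ), VV A0 A / A * A ^ θ = Real.sqrt Real.pi * Real.exp (θ ^ 2 / 4) * A0 ^ θ := by
    apply Complex.ofReal_injective
    rw [h, neg_neg, ← Complex.ofReal_cpow h0.le]
    push_cast; ring_nf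
  refine ⟨?_, h3⟩
  apply Integrable.of_integral_ne_zero
  rw [h3]
  have := Real.pi_pos
  positivity

lemma Npos (E : Env) (k : O) (hk : k ≠ 0) : 0 < N k := lt_of_lt_of_le one_pos (E.hB.b1.N_one_le k hk)

lemma ww_nn (k : O) : 0 ≤ ww k := by
  unfold ww N; positivity

lemma ww_le (E : Env) (k : O) (hk : k ≠ 0) : ww k ≤ N k ^ (1 / 6 : ℝ) := by
  have hN : 0 < N k := Npos E k hk
  have h := E.hb.norm_le k
  unfold ww
  have h2 : ‖bb k‖ ^ 2 ≤ (N k ^ (2 / 3 : ℝ)) ^ 2 := pow_le_pow_left₀ (norm_nonneg _) h 2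
  calc _ ≤ (N k ^ (2 / 3 : ℝ)) ^ 2 * N k ^ (-7 / 6 : ℝ) := by gcongr
    _ = _ := by
      rw [sq, ← Real.rpow_add hN, ← Real.rpow_add hN]; norm_num

/-- lower bound for `SS` -/
lemma ss_low (E : Env) (hEM : EMStmt) (hW : W8Stmt) (ε : ℝ) (hε : 0 < ε) :
    ∃ c C : ℝ, 0 < c ∧ ∀ Y : ℝ, 1 ≤ Y → c * Y ^ (5 / 6 - ε) - C * Y ^ (11 / 20 : ℝ) ≤ SS Y := by
  obtain ⟨C, hC, hP⟩ := hEM.2.2.2.2.2.2 ε hε
  obtain ⟨D, hD, hW⟩ := hW 1 one_pos
  obtain ⟨S, hS⟩ := E.hL.sum (1 / 6)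
  have hr := hEM.2.2.1
  set q := Real.exp (-ε / 2) with hq
  have hq0 : 0 < q := Real.exp_pos _
  set K := C⁻¹ * (3 : ℝ) ^ (-ε) * Real.exp (ε ^ 2 / 4) with hK
  have hK0 : 0 < K := by positivity
  refine ⟨K * rho0 * q ^ (5 / 6 : ℝ), K * D * q ^ (11 / 20 : ℝ), by positivity, fun Y hY => ?_⟩
  have hY0 : 0 < Y := by linarith
  have p1 : Prim (1 : O) := by unfold Prim; simp
  have h1 := hW 1 (Y * q) p1 (by positivity)
  have hE : EP 1 = 1 := by unfold EP; rw [E.h8.pf_one]; simp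
  have hN1 : N (1 : O) = 1 := by simpa using E.hB.b1.N_int 1
  rw [hE, hN1, Real.one_rpow, mul_one, mul_one] at h1
  have h2 := (abs_le.1 h1).1
  have sm : ∀ Z : ℝ, 0 < Z → Summable fun k : O => if Prim k then ww k * VV Z (N k) else 0 := by
    intro Z hZ
    refine Summable.of_nonneg_of_le (fun k => ?_) (fun k => ?_) (hS Z hZ).1
    · split_ifs
      · exact mul_nonneg (ww_nn k) (VV_pos _ _).le
      · exact le_rfl
    · by_cases hk : Prim k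
      · rw [if_pos hk, if_neg (E.hB.b2.ne k hk)]
        exact mul_le_mul_of_nonneg_right (ww_le E k (E.hB.b2.ne k hk)) (VV_pos _ _).le
      · rw [if_neg hk]; split_ifs
        · exact le_rfl
        · have := VV_pos Z (N k); unfold N at *; positivity
  have hPR : ∀ k : O, Prim k → (3 * N k) ^ (-ε) ≤ C * PR (3 * Nn k) ∧ PR (3 * Nn k) ≤ 1 := by
    intro k hk
    have hN : 0 < N k := Npos E k (E.hB.b2.ne k hk)
    have : 3 * Nn k ≠ 0 := by
      unfold N at hN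
      have : 0 < Nn k := by exact_mod_cast hN
      omega
    have h := hP _ this
    refine ⟨?_, h.2.2⟩
    have e : ((3 * Nn k : ℕ) : ℝ) = 3 * N k := by unfold N; push_cast; ring
    rw [← e]; exact h.2.1
  have hlow : K * Y ^ (-ε) * ∑' k, (if Prim k then ww k * VV (Y * q) (N k) else 0) ≤ SS Y := by
    rw [← tsum_mul_left]
    unfold SS
    refine Summable.tsum_le_tsum (fun k => ?_) ((sm _ (by positivity)).mul_left _) ?_
    · by_cases hk : Prim k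
      · rw [if_pos hk, if_pos hk]
        have hN : 0 < N k := Npos E k (E.hB.b2.ne k hk)
        have hs := E.hL.shift Y (N k) ε hY0 hN
        have h3 := (hPR k hk).1
        rw [Real.mul_rpow (by norm_num) hN.le] at h3
        have h4 : C⁻¹ * (3 ^ (-ε) * N k ^ (-ε)) ≤ PR (3 * Nn k) := by
          rw [inv_mul_le_iff₀ hC]; exact h3
        calc K * Y ^ (-ε) * (ww k * VV (Y * q) (N k))
            = C⁻¹ * 3 ^ (-ε) * ww k * (Y ^ (-ε) * Real.exp (ε ^ 2 / 4) * VV (Y * q) (N k)) := by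
              rw [hK]; ring
          _ = C⁻¹ * (3 ^ (-ε) * N k ^ (-ε)) * (ww k * VV Y (N k)) := by rw [← hs]; ring
          _ ≤ PR (3 * Nn k) * (ww k * VV Y (N k)) :=
              mul_le_mul_of_nonneg_right h4 (mul_nonneg (ww_nn k) (VV_pos _ _).le)
          _ = _ := by ring
      · rw [if_neg hk, if_neg hk, mul_zero]
    · refine Summable.of_nonneg_of_le (fun k => ?_) (fun k => ?_) (sm Y hY0)
      · split_ifs with hk
        · have h3 := (hPR k hk).1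
          have hN : 0 < N k := Npos E k (E.hB.b2.ne k hk)
          have : 0 ≤ C * PR (3 * Nn k) := le_trans (by positivity) h3
          have : 0 ≤ PR (3 * Nn k) := by
            by_contra hh; push Not at hh; nlinarith
          exact mul_nonneg (mul_nonneg this (ww_nn k)) (VV_pos _ _).le
        · exact le_rfl
      · split_ifs with hk
        · have := (hPR k hk).2
          have h5 := mul_nonneg (ww_nn k) (VV_pos Y (N k)).le
          nlinarith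
        · exact le_rfl
  have e1 : (∑' k, if Prim k ∧ IsCoprime k 1 then ww k * VV (Y * q) (N k) else 0) =
      ∑' k, (if Prim k then ww k * VV (Y * q) (N k) else 0) := by
    simp [isCoprime_one_right]
  rw [e1] at h2
  refine le_trans ?_ hlow
  have h6 : rho0 * (Y * q) ^ (5 / 6 : ℝ) - D * (Y * q) ^ (11 / 20 : ℝ) ≤
    ∑' k, (if Prim k then ww k * VV (Y * q) (N k) else 0) := by linarith
  refine le_trans ?_ (mul_le_mul_of_nonneg_left h6 (by positivity))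
  rw [Real.mul_rpow hY0.le hq0.le, Real.mul_rpow hY0.le hq0.le, Real.rpow_sub hY0, Real.rpow_neg hY0.le]
  have h7 : (Y ^ ε)⁻¹ ≤ 1 := inv_le_one_of_one_le₀ (Real.one_le_rpow hY hε.le)
  have h8 : 0 ≤ K * D * q ^ (11 / 20 : ℝ) * Y ^ (11 / 20 : ℝ) := by positivity
  have : K * (Y ^ ε)⁻¹ * (rho0 * (Y ^ (5 / 6 : ℝ) * q ^ (5 / 6 : ℝ)) - D * (Y ^ (11 / 20 : ℝ) * q ^ (11 / 20 : ℝ))) =
    K * rho0 * q ^ (5 / 6 : ℝ) * (Y ^ (5 / 6 : ℝ) / Y ^ ε) -
      (Y ^ ε)⁻¹ * (K * D * q ^ (11 / 20 : ℝ) * Y ^ (11 / 20 : ℝ)) := by ring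
  rw [this]; nlinarith

end FINM

theorem finS (E : Env) (hEM : EMStmt) (hW : W8Stmt) (hKL : KLStmt) (hKR : KRStmt) (hNC : NCStmt) :
    KStmt := by
  intro ρ hT
  by_contra hne
  obtain ⟨h1, hc2, hr, -⟩ := id hEM
  set δ : ℂ := ρ / rho0 * c2 - c1 with hδ
  have hδ0 : δ ≠ 0 := by
    intro h
    apply hne
    have a : (rho0 : ℂ) ≠ 0 := by exact_mod_cast hr.ne'
    have b : (c2 : ℂ) ≠ 0 := by exact_mod_cast hc2.ne'
    rw [hδ, h1, sub_eq_zero] at h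
    push_cast at h ⊢
    field_simp at h
    rw [h]; ring
  have hδ1 : 0 < ‖δ‖ := norm_pos_iff.2 hδ0
  obtain ⟨C1, hL⟩ := hKL ρ hT (1 / 1000) (by norm_num)
  obtain ⟨C2, hR⟩ := hKR (1 / 1000) (by norm_num)
  obtain ⟨C3, hN⟩ := hNC (1 / 1000) (by norm_num)
  obtain ⟨c, C4, hc, hS⟩ := FINM.ss_low E hEM hW (1 / 1000) (by norm_num)
  set J : ℝ → ℝ := fun θ => Real.sqrt Real.pi * Real.exp (θ ^ 2 / 4) with hJ
  have hJ0 : ∀ θ, 0 < J θ := fun θ => by have := Real.pi_pos; simp only [hJ]; positivity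
  have key : ∀ A0 Y : ℝ, 0 < A0 → 1 ≤ Y → ‖δ‖ * SS Y * (J (2 / 3) * A0 ^ (2 / 3 : ℝ)) ≤
      C3 * A0 ^ (-5 / 9 : ℝ) * Y ^ (14 / 9 + 1 / 1000 : ℝ) +
      (C1 * Y ^ (1 / 1000 : ℝ) * (J (2 + 1 / 1000) * A0 ^ (2 + 1 / 1000 : ℝ)) +
       C1 * Y ^ (11 / 20 : ℝ) * (J (1 + 1 / 1000) * A0 ^ (1 + 1 / 1000 : ℝ)) +
       C1 * Y ^ (5 / 6 + 1 / 1000 : ℝ) * (J (3 / 5) * A0 ^ (3 / 5 : ℝ)) +
       C2 * Y ^ (1 / 2 + 1 / 1000 : ℝ) * (J 1 * A0 ^ (1 : ℝ))) := by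
    intro A0 Y h0 hY
    obtain ⟨i1, e1⟩ := FINM.vint E.hL h0 (2 / 3)
    obtain ⟨i2, e2⟩ := FINM.vint E.hL h0 (2 + 1 / 1000)
    obtain ⟨i3, e3⟩ := FINM.vint E.hL h0 (1 + 1 / 1000)
    obtain ⟨i4, e4⟩ := FINM.vint E.hL h0 (3 / 5)
    obtain ⟨i5, e5⟩ := FINM.vint E.hL h0 1
    obtain ⟨iN, eN⟩ := hN A0 Y h0 hY
    have i1' : IntegrableOn (fun A : ℝ => δ * (SS Y : ℂ) * ((VV A0 A / A * A ^ (2 / 3 : ℝ) : ℝ) : ℂ))
        (Set.Ioi 0) := (i1.ofReal).const_mul _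
    have ib : IntegrableOn (fun A : ℝ =>
        C1 * Y ^ (1 / 1000 : ℝ) * (VV A0 A / A * A ^ (2 + 1 / 1000 : ℝ)) +
        C1 * Y ^ (11 / 20 : ℝ) * (VV A0 A / A * A ^ (1 + 1 / 1000 : ℝ)) +
        C1 * Y ^ (5 / 6 + 1 / 1000 : ℝ) * (VV A0 A / A * A ^ (3 / 5 : ℝ)) +
        C2 * Y ^ (1 / 2 + 1 / 1000 : ℝ) * (VV A0 A / A * A ^ (1 : ℝ))) (Set.Ioi 0) :=
      (((i2.const_mul _).add (i3.const_mul _)).add (i4.const_mul _)).add (i5.const_mul _)
    have hb := norm_integral_le_of_norm_le (μ := volume.restrict (Set.Ioi 0))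
      (f := fun A : ℝ => δ * (SS Y : ℂ) * ((VV A0 A / A * A ^ (2 / 3 : ℝ) : ℝ) : ℂ) -
        ((VV A0 A / A : ℝ) : ℂ) * NCs A Y) ib (by
      filter_upwards [ae_restrict_mem measurableSet_Ioi] with A hA
      have hA : 0 < A := hA
      have a1 := hL A Y hA hY
      have a2 := hR A Y hA hY
      have hv : 0 ≤ VV A0 A / A := div_nonneg (FINM.VV_pos _ _).le hA.le
      have e : δ * (SS Y : ℂ) * ((VV A0 A / A * A ^ (2 / 3 : ℝ) : ℝ) : ℂ) -
          ((VV A0 A / A : ℝ) : ℂ) * NCs A Y = ((VV A0 A / A : ℝ) : ℂ) *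
          ((LL A Y - ((c1 * A ^ (2 / 3 : ℝ) * SS Y : ℝ) : ℂ) - NCs A Y) -
            (LL A Y - ρ / rho0 * ((c2 * A ^ (2 / 3 : ℝ) * SS Y : ℝ) : ℂ))) := by
        rw [hδ]; push_cast; ring
      rw [e, norm_mul, Complex.norm_real, Real.norm_of_nonneg hv]
      refine le_trans (mul_le_mul_of_nonneg_left ((norm_sub_le _ _).trans (add_le_add a2 a1)) hv) ?_
      rw [Real.rpow_one]
      exact le_of_eq (by ring))
    have q4 : ∀ (a b c d : ℝ) (f g h k : ℝ → ℝ), IntegrableOn f (Set.Ioi 0) → IntegrableOn g (Set.Ioi 0) →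
        IntegrableOn h (Set.Ioi 0) → IntegrableOn k (Set.Ioi 0) →
        ∫ A in Set.Ioi (0 : ℝ), (a * f A + b * g A + c * h A + d * k A) =
          a * (∫ A in Set.Ioi (0 : ℝ), f A) + b * (∫ A in Set.Ioi (0 : ℝ), g A) +
          c * (∫ A in Set.Ioi (0 : ℝ), h A) + d * (∫ A in Set.Ioi (0 : ℝ), k A) := by
      intro a b c d f g h k hf hg hh hk
      have u1 : Integrable (fun A => a * f A + b * g A) (volume.restrict (Set.Ioi 0)) :=
        (hf.const_mul _).add (hg.const_mul _)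
      have u2 : Integrable (fun A => a * f A + b * g A + c * h A) (volume.restrict (Set.Ioi 0)) :=
        u1.add (hh.const_mul _)
      rw [integral_add u2 (hk.const_mul _), integral_add u1 (hh.const_mul _),
        integral_add (hf.const_mul _) (hg.const_mul _), integral_const_mul, integral_const_mul,
        integral_const_mul, integral_const_mul]
    rw [integral_sub i1' iN, integral_const_mul, integral_complex_ofReal, e1,
      q4 _ _ _ _ _ _ _ _ i2 i3 i4 i5, e2, e3, e4, e5] at hb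
    have t := norm_sub_norm_le
      (δ * (SS Y : ℂ) * ((Real.sqrt Real.pi * Real.exp ((2 / 3) ^ 2 / 4) * A0 ^ (2 / 3 : ℝ) : ℝ) : ℂ))
      (∫ A in Set.Ioi (0 : ℝ), ((VV A0 A / A : ℝ) : ℂ) * NCs A Y)
    have t2 : ‖δ‖ * SS Y * (J (2 / 3) * A0 ^ (2 / 3 : ℝ)) ≤
        ‖δ * (SS Y : ℂ) * ((Real.sqrt Real.pi * Real.exp ((2 / 3) ^ 2 / 4) * A0 ^ (2 / 3 : ℝ) : ℝ) : ℂ)‖ := by
      rw [norm_mul, norm_mul, Complex.norm_real, Complex.norm_real]
      have := hJ0 (2 / 3)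
      refine mul_le_mul (mul_le_mul_of_nonneg_left (le_abs_self _) hδ1.le) (le_abs_self _)
        (by positivity) (by positivity)
    simp only [hJ] at t2 ⊢
    linarith
  -- choose `A0 = Y^(61/100)`
  set D := |C3| + |C1| * J (2 + 1 / 1000) + |C1| * J (1 + 1 / 1000) + |C1| * J (3 / 5) + |C2| * J 1 +
    ‖δ‖ * J (2 / 3) * |C4| with hD
  have fin : ∀ Y : ℝ, 1 ≤ Y → ‖δ‖ * J (2 / 3) * c * Y ^ (9 / 1000 : ℝ) ≤ D := by
    intro Y hY
    have hY0 : 0 < Y := by linarith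
    have k := key (Y ^ (61 / 100 : ℝ)) Y (by positivity) hY
    simp only [← Real.rpow_mul hY0.le] at k
    have s := hS Y hY
    have m : ∀ a b : ℝ, a + b ≤ 123 / 100 → Y ^ a * Y ^ b ≤ Y ^ (123 / 100 : ℝ) := fun a b h => by
      rw [← Real.rpow_add hY0]; exact Real.rpow_le_rpow_of_exponent_le hY h
    have g : ∀ (C j a b : ℝ), 0 ≤ j → a + b ≤ 123 / 100 →
        C * Y ^ a * (j * Y ^ b) ≤ |C| * j * Y ^ (123 / 100 : ℝ) := fun C j a b hj h => by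
      calc C * Y ^ a * (j * Y ^ b) = C * j * (Y ^ a * Y ^ b) := by ring
        _ ≤ |C| * j * (Y ^ a * Y ^ b) := by
          have := le_abs_self C
          gcongr
        _ ≤ _ := mul_le_mul_of_nonneg_left (m a b h) (by positivity)
    have b0 := g C3 1 (61 / 100 * (-5 / 9)) (14 / 9 + 1 / 1000) zero_le_one (by norm_num)
    have b1 := g C1 _ (1 / 1000) (61 / 100 * (2 + 1 / 1000)) (hJ0 (2 + 1 / 1000)).le (by norm_num)
    have b2 := g C1 _ (11 / 20) (61 / 100 * (1 + 1 / 1000)) (hJ0 (1 + 1 / 1000)).le (by norm_num)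
    have b3 := g C1 _ (5 / 6 + 1 / 1000) (61 / 100 * (3 / 5)) (hJ0 (3 / 5)).le (by norm_num)
    have b4 := g C2 _ (1 / 2 + 1 / 1000) (61 / 100 * 1) (hJ0 1).le (by norm_num)
    have b5 := g C4 (‖δ‖ * J (2 / 3)) (11 / 20) (61 / 100 * (2 / 3))
      (mul_nonneg hδ1.le (hJ0 _).le) (by norm_num)
    have hj := hJ0 (2 / 3)
    have l1 : ‖δ‖ * (c * Y ^ (5 / 6 - 1 / 1000 : ℝ) - C4 * Y ^ (11 / 20 : ℝ)) *
        (J (2 / 3) * Y ^ (61 / 100 * (2 / 3) : ℝ)) ≤ ‖δ‖ * SS Y * (J (2 / 3) * Y ^ (61 / 100 * (2 / 3) : ℝ)) := by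
      gcongr
    have l2 : Y ^ (5 / 6 - 1 / 1000 : ℝ) * Y ^ (61 / 100 * (2 / 3) : ℝ) =
        Y ^ (9 / 1000 : ℝ) * Y ^ (123 / 100 : ℝ) := by
      rw [← Real.rpow_add hY0, ← Real.rpow_add hY0]; norm_num
    have hp : 0 < Y ^ (123 / 100 : ℝ) := by positivity
    refine le_of_mul_le_mul_right ?_ hp
    have l3 : ‖δ‖ * (c * Y ^ (5 / 6 - 1 / 1000 : ℝ) - C4 * Y ^ (11 / 20 : ℝ)) *
        (J (2 / 3) * Y ^ (61 / 100 * (2 / 3) : ℝ)) =
        ‖δ‖ * J (2 / 3) * c * (Y ^ (5 / 6 - 1 / 1000 : ℝ) * Y ^ (61 / 100 * (2 / 3) : ℝ)) -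
        C4 * Y ^ (11 / 20 : ℝ) * (‖δ‖ * J (2 / 3) * Y ^ (61 / 100 * (2 / 3) : ℝ)) := by ring
    rw [l3, l2] at l1
    rw [hD]
    nlinarith
  have hj := hJ0 (2 / 3)
  have tt : Tendsto (fun Y : ℝ => ‖δ‖ * J (2 / 3) * c * Y ^ (9 / 1000 : ℝ)) atTop atTop :=
    (tendsto_rpow_atTop (by norm_num)).const_mul_atTop (by positivity)
  obtain ⟨Y, h1, h2⟩ := ((tt.eventually_gt_atTop D).and (eventually_ge_atTop 1)).exists
  exact absurd (fin Y h2) (not_le.2 h1)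

end Vale.Agent.P006.K
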