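import Vale.Agent.P006.K.GBa

noncomputable section
open Complex
open scoped Classical ComplexConjugate

namespace Vale.Agent.P006.K
open Vale.Agent.P026

namespace GBM
open SS0M RATM

lemma natdec (n : ℕ) : n ≠ 0 → ∃ a b c : ℕ, n = a * b ^ 2 * c ^ 3 ∧ Squarefree (a * b) := by
  induction n using induction_on_primes with
  | zero => intro h; exact absurd rfl h
  | one => intro _; exact ⟨1, 1, 1, rfl, by simp⟩
  | prime_mul p m hp ih =>
    intro h
    obtain ⟨a, b, c, e, hs⟩ := ih (by rintro rfl; simp at h)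
    by_cases h1 : p ∣ b
    · obtain ⟨b', rfl⟩ := h1
      exact ⟨a, b', p * c, by rw [e]; ring, hs.squarefree_of_dvd ⟨p, by ring⟩⟩
    by_cases h2 : p ∣ a
    · obtain ⟨a', rfl⟩ := h2
      exact ⟨a', p * b, c, by rw [e]; ring, by rwa [show a' * (p * b) = p * a' * b by ring]⟩
    · refine ⟨p * a, b, c, by rw [e]; ring, ?_⟩
      rw [mul_assoc, Nat.squarefree_mul_iff]
      exact ⟨(Nat.Prime.coprime_iff_not_dvd hp).2 fun h => ((Nat.Prime.dvd_mul hp).1 h).elim h2 h1,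
        hp.squarefree, hs⟩

lemma eq_of_natAbs' (a : ℤ) (h : (a : O) = 1) : a = 1 := by
  have := congrArg QuadraticAlgebra.re h
  simpa only [QuadraticAlgebra.re_intCast, Int.cast_id, QuadraticAlgebra.re_one] using this

lemma summ1 (hB : Bas) (D : O) {y : ℝ} (hy : 0 < y) :
    Summable fun l => (if Prim l then cub D l else 0) * cexp (-(y * N l : ℝ)) := by
  refine Summable.of_norm_bounded (summ_exp hB hy) fun l => ?_
  rw [norm_mul, cexp_norm]
  refine mul_le_of_le_one_left (Real.exp_pos _).le ?_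
  split_ifs
  · exact hB.b6.norm_le _ _
  · simp

lemma sieve (hB : Bas) {ε : ℝ} (hε : 0 < ε) : ∃ C : ℝ, 0 ≤ C ∧ ∀ (D g : O) (K y : ℝ), Prim g →
    (∀ y : ℝ, 0 < y → ‖∑' l, (if Prim l then cub D l else 0) * cexp (-(y * N l : ℝ))‖ ≤ K) →
    0 < y → ‖∑' l, (if Prim l then cub (D * g ^ 3) l else 0) * cexp (-(y * N l : ℝ))‖ ≤
      C * N g ^ ε * K := by
  obtain ⟨C, hC⟩ := hB.b3.div ε hε
  refine ⟨max C 0, le_max_right _ _, fun D g K y hg hK hy => ?_⟩
  have g0 := hB.b2.ne g hg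
  have K0 : 0 ≤ K := (norm_nonneg _).trans (hK 1 one_pos)
  obtain ⟨S, hS⟩ : ∃ S : Finset O, ∀ d, d ∈ S ↔ Prim d ∧ d ∣ g := by
    refine ⟨(hB.b3.fin (N g)).toFinset.filter fun d => Prim d ∧ d ∣ g, fun d => ?_⟩
    simp only [Finset.mem_filter, Set.Finite.mem_toFinset, Set.mem_setOf_eq, and_iff_right_iff_imp]
    rintro ⟨_, t, rfl⟩
    rw [hB.b1.N_mul]
    exact le_mul_of_one_le_right (N0 _) (hB.b1.N_one_le t (right_ne_zero_of_mul g0))
  obtain ⟨f, hf⟩ : ∃ f : O → ℂ, f = fun l => (if Prim l then cub D l else 0) *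
    cexp (-(y * N l : ℝ)) := ⟨_, rfl⟩
  have sf : Summable f := hf ▸ summ1 hB D hy
  have e : ∀ l, (if Prim l then cub (D * g ^ 3) l else 0) * cexp (-(y * N l : ℝ)) =
      ∑ d ∈ S, mu d * (if d ∣ l then f l else 0) := fun l => by
    have h1 := Poi3.mob2 hB l hg S (fun d hd => ((hS d).1 hd).1) fun d h1 h2 => (hS d).2 ⟨h1, h2⟩
    have h2 : ∑ d ∈ S, mu d * (if d ∣ l then f l else 0) =
        (∑ d ∈ S, (if d ∣ g ∧ d ∣ l then mu d else 0)) * f l := by
      rw [Finset.sum_mul]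
      refine Finset.sum_congr rfl fun d hd => ?_
      by_cases h : d ∣ l <;> simp [h, ((hS d).1 hd).2]
    rw [h2, h1, hf]
    simp only
    by_cases hl : Prim l
    · have c := hB.b2.cop l hl
      rw [if_pos hl, if_pos hl, hB.b6.mul_l _ _ _ c, hB.b6.pow_l _ _ _ c]
      split_ifs with hc
      · rw [hB.b6.cube _ _ hc]; ring
      · rw [hB.b6.zero g l (hB.b2.ne l hl) hc]; ring
    · simp [hl]
  simp only [e]
  have sd : ∀ d : O, Summable fun l => if d ∣ l then f l else 0 := fun d =>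
    Summable.of_norm_bounded sf.norm fun l => by split_ifs <;> simp
  rw [Summable.tsum_finsetSum fun d _ => (sd d).mul_left _]
  have bd : ∀ d ∈ S, ‖∑' l, mu d * (if d ∣ l then f l else 0)‖ ≤ K := fun d hd => by
    have pd := ((hS d).1 hd).1
    have d0 := hB.b2.ne d pd
    have d1 : 0 < N d := lt_of_lt_of_le one_pos (hB.b1.N_one_le d d0)
    have i1 : ∑' l, (if d ∣ l then f l else 0) = ∑' l, f (d * l) := by
      rw [← (mul_right_injective₀ d0).tsum_eq (f := fun l => if d ∣ l then f l else 0)]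
      · simp
      · intro l hl
        by_cases h : d ∣ l
        · obtain ⟨t, rfl⟩ := h
          exact ⟨t, rfl⟩
        · simp [h] at hl
    have i2 : ∀ l, f (d * l) = cub D d * ((if Prim l then cub D l else 0) *
        cexp (-(y * N d * N l : ℝ))) := fun l => by
      rw [hf]
      simp only
      rw [hB.b1.N_mul, ← mul_assoc y]
      by_cases hl : Prim l
      · rw [if_pos hl, if_pos (hB.b2.mul _ _ pd hl), hB.b6.mul_r _ _ _ d0 (hB.b2.ne l hl), mul_assoc]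
      · rw [if_neg hl, if_neg (fun h => hl (hB.b2.cancel _ _ pd h))]; simp
    rw [tsum_mul_left, i1]
    simp only [i2]
    rw [tsum_mul_left, norm_mul, norm_mul]
    have a1 := ZKM.norm_mu d
    have a2 := hB.b6.norm_le D d
    have a3 := hK (y * N d) (by positivity)
    calc _ ≤ 1 * (1 * K) := by gcongr
      _ = K := by ring
  have a4 := hC g g0 S fun d hd => ((hS d).1 hd).2
  have a5 : 0 ≤ N g ^ ε := Real.rpow_nonneg (N0 _) _
  refine (norm_sum_le _ _).trans ((Finset.sum_le_card_nsmul _ _ K bd).trans ?_)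
  rw [nsmul_eq_mul]
  gcongr
  exact a4.trans (by gcongr; exact le_max_left _ _)

end GBM

open GBM RATM SS0M in
theorem gbS (E : Env) : GBStmt := by
  have hB := E.hB
  intro ε hε
  obtain ⟨C1, c1, h1⟩ := gsum hB E.hG
  obtain ⟨C2, c2, h2⟩ := core E
  obtain ⟨C3, c3, h3⟩ := sieve hB (half_pos hε)
  refine ⟨C1 + C3 * C2, by positivity, fun m1 m2 f y hf hm hy => ?_⟩
  have m0 : m1 * m2 ^ 2 ≠ 0 := fun h => hm ⟨0, by rw [h]; rfl⟩
  have m12 : m1 * m2 ≠ 0 := by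
    rcases mul_ne_zero_iff.1 m0 with ⟨a, b⟩
    exact mul_ne_zero a (pow_ne_zero_iff two_ne_zero |>.1 b)
  have A1 : (1 : ℝ) ≤ |((m1 * m2 : ℤ) : ℝ)| := by exact_mod_cast Int.one_le_abs m12
  have A2 : (1 : ℝ) ≤ |((m1 * m2 * f : ℤ) : ℝ)| := by
    exact_mod_cast Int.one_le_abs (mul_ne_zero m12 hf)
  have A3 := Real.one_le_rpow A2 hε.le
  rcases le_total 1 y with hy1 | hy1
  · rw [min_eq_right (inv_le_one_of_one_le₀ hy1)]
    have hb := tsum_of_norm_bounded (f := fun l => (if Prim l then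
      cub ((m1 * m2 ^ 2 * f ^ 3 : ℤ) : O) l else 0) * cexp (-(y * N l : ℝ)))
      (summ0 hB hy).hasSum (fun l => by
        by_cases hl : Prim l
        · rw [if_pos hl, if_neg (hB.b2.ne l hl), norm_mul, cexp_norm]
          exact mul_le_of_le_one_left (Real.exp_pos _).le (hB.b6.norm_le _ _)
        · rw [if_neg hl, zero_mul, norm_zero]
          split_ifs <;> positivity)
    refine hb.trans ((h1 y hy).trans ?_)
    rw [div_eq_mul_inv]
    gcongr
    calc C1 ≤ (C1 + C3 * C2) * 1 * 1 := by nlinarith [mul_nonneg c3 c2]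
      _ ≤ _ := by gcongr
  rw [min_eq_left ((one_le_inv₀ hy).2 hy1), mul_one]
  obtain ⟨w, n, n3, en⟩ := Nat.exists_eq_pow_mul_and_not_dvd (Int.natAbs_ne_zero.2 m0) 3 (by norm_num)
  obtain ⟨k, f', f3, ef⟩ := Nat.exists_eq_pow_mul_and_not_dvd (Int.natAbs_ne_zero.2 hf) 3 (by norm_num)
  obtain ⟨a, b, c, rfl, hs⟩ := natdec n (by rintro rfl; exact n3 (dvd_zero _))
  have hs' := Nat.squarefree_mul_iff.1 hs
  obtain ⟨A, a1, a2, a3, -⟩ := sqf_case E a hs'.2.1 fun h => n3 ((h.mul_right _).mul_right _)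
  obtain ⟨B, b1, b2, b3, -⟩ := sqf_case E b hs'.2.2 fun h =>
    n3 (((dvd_pow h two_ne_zero).mul_left _).mul_right _)
  obtain ⟨G, g1, g2⟩ := ex_prim (c * f') fun h =>
    ((Nat.Prime.dvd_mul Nat.prime_three).1 h).elim
      (fun h => n3 ((dvd_pow h (by norm_num)).mul_left _)) f3
  have hc : IsCoprime (A : O) (B : O) := cop_int (by rw [a1, b1]; exact hs'.1)
  have nt : (w + 3 * k) % 3 ≠ 0 ∨ (A : O) ≠ 1 ∨ (B : O) ≠ 1 := by
    by_contra hn
    push Not at hn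
    obtain ⟨x1, x2, x3⟩ := hn
    have y2 : A = 1 := eq_of_natAbs' A x2
    have y3 : B = 1 := eq_of_natAbs' B x3
    obtain ⟨j, rfl⟩ : ∃ j, w = 3 * j := ⟨w / 3, by omega⟩
    rw [← a1, ← b1, y2, y3] at en
    have : (m1 * m2 ^ 2).natAbs = (((3 ^ j * c : ℕ) : ℤ) ^ 3).natAbs := by
      rw [en, Int.natAbs_pow, Int.natAbs_natCast]; simp; ring
    rcases Int.natAbs_eq_natAbs_iff.1 this with h | h
    · exact hm ⟨_, h⟩
    · exact hm ⟨-((3 ^ j * c : ℕ) : ℤ), by rw [h]; ring⟩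
  have eD : (m1 * m2 ^ 2 * f ^ 3).natAbs = (3 ^ (w + 3 * k) * A * B ^ 2 * G ^ 3).natAbs := by
    rw [Int.natAbs_mul, en, Int.natAbs_pow, ef]
    simp only [Int.natAbs_mul, Int.natAbs_pow, a1, b1, g1]
    simp; ring
  have e : ∀ l, (if Prim l then cub ((m1 * m2 ^ 2 * f ^ 3 : ℤ) : O) l else 0) =
      if Prim l then cub ((3 : O) ^ (w + 3 * k) * A * (B : O) ^ 2 * (G : O) ^ 3) l else 0 := fun l => by
    split_ifs with hl
    · rcases Int.natAbs_eq_natAbs_iff.1 eD with h | h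
      · rw [h]; push_cast; rfl
      · rw [h]; push_cast; rw [hB.b6.neg_l _ _ (hB.b2.cop l hl)]
    · rfl
  simp only [e]
  refine (h3 _ _ _ y g2 (fun y hy => h2 _ _ _ y a2 b2 a3 b3 hc nt hy) hy).trans ?_
  have nm : (m1 * m2).natAbs ≠ 0 := Int.natAbs_ne_zero.2 m12
  have d1 : (m1 * m2 ^ 2).natAbs ∣ (m1 * m2).natAbs ^ 2 := by
    rw [← Int.natAbs_pow]; exact Int.natAbs_dvd_natAbs.2 ⟨m1, by ring⟩
  have l1 : a * b ≤ (m1 * m2).natAbs := by
    refine Nat.le_of_dvd (Nat.pos_of_ne_zero nm) ((hs.dvd_pow_iff_dvd two_ne_zero).1 (dvd_trans ?_ d1))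
    exact ⟨3 ^ w * b * c ^ 3, by rw [en]; ring⟩
  have l2 : c ≤ (m1 * m2).natAbs := by
    have : c ^ 3 ∣ (m1 * m2).natAbs ^ 3 :=
      dvd_trans (dvd_trans ⟨3 ^ w * a * b ^ 2, by rw [en]; ring⟩ d1) (pow_dvd_pow _ (by norm_num))
    exact Nat.le_of_dvd (Nat.pos_of_ne_zero nm) ((Nat.pow_dvd_pow_iff (by norm_num)).1 this)
  have l3 : f' ≤ f.natAbs :=
    Nat.le_of_dvd (Nat.pos_of_ne_zero (Int.natAbs_ne_zero.2 hf)) ⟨3 ^ k, by rw [ef]; ring⟩
  have r1 : Real.sqrt (N (A : O) * N (B : O)) ≤ |((m1 * m2 : ℤ) : ℝ)| := by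
    rw [hB.b1.N_int, hB.b1.N_int, ← mul_pow, Real.sqrt_sq_eq_abs, ← Int.cast_mul, ← Int.cast_abs,
      ← Int.cast_abs, Int.cast_le, Int.abs_eq_natAbs, Int.abs_eq_natAbs, Int.natAbs_mul, a1, b1]
    exact_mod_cast l1
  have r2 : N (G : O) ^ (ε / 2) ≤ |((m1 * m2 * f : ℤ) : ℝ)| ^ ε := by
    have : |(G : ℝ)| ≤ |((m1 * m2 * f : ℤ) : ℝ)| := by
      rw [← Int.cast_abs, ← Int.cast_abs, Int.cast_le, Int.abs_eq_natAbs, Int.abs_eq_natAbs, g1,
        Int.natAbs_mul]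
      exact_mod_cast Nat.mul_le_mul l2 l3
    rw [hB.b1.N_int, ← sq_abs, ← Real.rpow_natCast, ← Real.rpow_mul (abs_nonneg _),
      show ((2 : ℕ) : ℝ) * (ε / 2) = ε by push_cast; ring]
    exact Real.rpow_le_rpow (abs_nonneg _) this hε.le
  calc _ ≤ C3 * |((m1 * m2 * f : ℤ) : ℝ)| ^ ε * (C2 * |((m1 * m2 : ℤ) : ℝ)|) := by gcongr
    _ = C3 * C2 * |((m1 * m2 : ℤ) : ℝ)| * |((m1 * m2 * f : ℤ) : ℝ)| ^ ε := by ring
    _ ≤ _ := by gcongr; linarith

end Vale.Agent.P006.K
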