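import Vale.Agent.P006.K0

noncomputable section
open Complex
open scoped Classical ComplexConjugate

namespace Vale.Agent.P006.K
open Vale.Agent.P026

namespace GZM

theorem Nn_cast (n : O) : ((Nn n : ℕ) : ℤ) = n.re ^ 2 - n.re * n.im + n.im ^ 2 := by
  unfold Nn
  rw [Int.natAbs_of_nonneg (nz_nonneg n)]
  rfl

theorem cop_im (n : O) (hs : Squarefree (Nn n)) : IsCoprime n.im ((Nn n : ℕ) : ℤ) := by
  rw [Int.isCoprime_iff_gcd_eq_one]
  by_contra hne
  obtain ⟨p, hp, hpd⟩ := Nat.exists_prime_and_dvd hne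
  have h1 : (p : ℤ) ∣ n.im := (Int.natCast_dvd_natCast.2 hpd).trans (Int.gcd_dvd_left _ _)
  have h2 : (p : ℤ) ∣ ((Nn n : ℕ) : ℤ) :=
    (Int.natCast_dvd_natCast.2 hpd).trans (Int.gcd_dvd_right _ _)
  have hp' : Prime (p : ℤ) := Nat.prime_iff_prime_int.1 hp
  have h3 : (p : ℤ) ∣ n.re ^ 2 := by
    have h4 : n.re ^ 2 = ((Nn n : ℕ) : ℤ) + n.im * (n.re - n.im) := by
      rw [Nn_cast]
      ring
    rw [h4]
    exact dvd_add h2 (h1.mul_right _)
  have h5 : (p : ℤ) ∣ n.re := hp'.dvd_of_dvd_pow h3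
  obtain ⟨a, ha⟩ := h5
  obtain ⟨b, hb⟩ := h1
  have h6 : ((p * p : ℕ) : ℤ) ∣ ((Nn n : ℕ) : ℤ) := by
    refine ⟨a ^ 2 - a * b + b ^ 2, ?_⟩
    rw [Nn_cast, ha, hb]
    push_cast
    ring
  have h7 := hs p (Int.natCast_dvd_natCast.1 h6)
  exact hp.one_lt.ne' (Nat.isUnit_iff.1 h7)

theorem sqf (hB : Bas) (n : O) (hs : Squarefree (Nn n)) : Squarefree n := by
  intro x hx
  obtain ⟨c, hc⟩ := hx
  have h1 : Nn x * Nn x ∣ Nn n := ⟨Nn c, by rw [hc, hB.b1.Nn_mul, hB.b1.Nn_mul]⟩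
  exact (hB.b1.unit_iff x).2 (Nat.isUnit_iff.1 (hs _ h1))

theorem prim_cj (n : O) (hn : Prim n) : Prim (cj n) := by
  obtain ⟨c, hc⟩ := hn
  have h1 := congrArg QuadraticAlgebra.re hc
  have h2 := congrArg QuadraticAlgebra.im hc
  have r3 : QuadraticAlgebra.re (3 : O) = 3 := rfl
  have i3 : QuadraticAlgebra.im (3 : O) = 0 := rfl
  simp [QuadraticAlgebra.re_one, QuadraticAlgebra.im_one, r3, i3] at h1 h2
  refine ⟨cj c, ?_⟩
  ext
  · simp [cj, QuadraticAlgebra.re_one, r3, i3]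
    linarith
  · simp [cj, QuadraticAlgebra.im_one, r3, i3]
    linarith

theorem cj_cj (n : O) : cj (cj n) = n := by
  ext <;> simp [cj]

theorem sub_cj (n : O) : n - cj n = (n.im : O) * lam := by
  ext
  · simp [cj, lam]
  · simp [cj, lam]
    ring

theorem decomp (x : O) : x = (x.re : O) + (x.im : O) * wO := by
  ext <;> simp [wO]

theorem eQ_int (hB : Bas) (n : O) (hn : n ≠ 0) (m : ℤ) :
    eQ (m : O) n = cexp (2 * Real.pi * I * (-(m * n.im) / Nn n)) := by
  have hq : (0 : ℝ) < (Nn n : ℝ) := lt_of_lt_of_le one_pos (hB.b1.N_one_le n hn)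
  have hn0 : toC n ≠ 0 := fun h => hn (hB.b1.inj (by rw [h, map_zero]))
  have h1 : toC n * toC (cj n) = (Nn n : ℂ) := by
    rw [← map_mul, hB.b1.cj_mul, map_natCast]
  have hq' : (Nn n : ℂ) ≠ 0 := by exact_mod_cast hq.ne'
  have h2 : toC (m : O) / toC n = (((m : ℝ) / (Nn n : ℝ) : ℝ) : ℂ) * toC (cj n) := by
    rw [map_intCast]
    push_cast
    field_simp
    rw [← h1]
    ring
  have h3 : (toC (cj n)).im = -(n.im : ℝ) * (Real.sqrt 3 / 2) := by
    simp [toC, cj, om]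
  have h4 : Real.sqrt 3 ≠ 0 := by positivity
  unfold eQ psi
  rw [h2, im_ofReal_mul, h3]
  congr 2
  have h5 : 2 * ((m : ℝ) / (Nn n : ℝ) * (-(n.im : ℝ) * (Real.sqrt 3 / 2))) / Real.sqrt 3 =
      -((m : ℝ) * n.im) / (Nn n : ℝ) := by
    field_simp
  rw [h5]
  push_cast
  ring

end GZM

theorem gzS (E : Env) : GZStmt := by
  intro n hn hs h
  have hB := E.hB
  have hn0 := hB.b2.ne n hn
  have h3 := hB.b2.cop n hn
  have hcop := GZM.cop_im n hs
  obtain ⟨u, v, huv⟩ := hcop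
  have hq : 0 < Nn n := Nat.pos_of_ne_zero hs.ne_zero
  have hqC : (Nn n : ℂ) ≠ 0 := by exact_mod_cast hq.ne'
  have hnq : n ∣ ((Nn n : ℕ) : O) := ⟨cj n, (hB.b1.cj_mul n).symm⟩
  have huvO : (u : O) * (n.im : O) + (v : O) * ((Nn n : ℕ) : O) = 1 := by
    exact_mod_cast congrArg (Int.cast : ℤ → O) huv
  have hub : n ∣ (u : O) * (n.im : O) - 1 := by
    have h1 : (u : O) * (n.im : O) - 1 = ((Nn n : ℕ) : O) * (-(v : O)) := by
      linear_combination huvO
    rw [h1]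
    exact hnq.mul_right _
  have hPe : Pe n (fun r => conj (cub r n) * eQ (r * ((h * u : ℤ) : O)) n) := by
    intro a m
    have h1 := hB.b6.pe n a m
    dsimp only at h1 ⊢
    rw [h1, add_mul, hB.b1.eQ_add, hB.b1.eQ_dvd (n * m * _) n
      ((dvd_mul_right n m).mul_right _), mul_one]
  have hsum := hB.b4.sum_eq n _ (Finset.range (Nn n)) (fun r : ℕ => (r : O)) hn0 hPe (by
    intro a
    have hz : ((Nn n : ℕ) : ℤ) ≠ 0 := by exact_mod_cast hq.ne'
    set m : ℤ := a.re - a.im * (u * n.re) with hm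
    have k1 := Int.emod_nonneg m hz
    have k2 := Int.emod_lt_of_pos m (show (0 : ℤ) < (Nn n : ℕ) by exact_mod_cast hq)
    refine ⟨(m % (Nn n : ℕ)).toNat, Finset.mem_range.2 (by omega), ?_⟩
    have k3 : (((m % (Nn n : ℕ)).toNat : ℕ) : O) = ((m % (Nn n : ℕ) : ℤ) : O) := by
      rw [← Int.cast_natCast, Int.toNat_of_nonneg k1]
    have k4 : ((m % (Nn n : ℕ) : ℤ) : O) =
        (m : O) - ((Nn n : ℕ) : O) * ((m / (Nn n : ℕ) : ℤ) : O) := by
      rw [Int.emod_def]
      push_cast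
      ring
    have k5 : (m : O) = (a.re : O) - (a.im : O) * ((u : O) * (n.re : O)) := by
      rw [hm]
      push_cast
      ring
    have k6 : a - ((m : O) - ((Nn n : ℕ) : O) * ((m / (Nn n : ℕ) : ℤ) : O)) =
        n * ((a.im : O) * u) - ((u : O) * (n.im : O) - 1) * ((a.im : O) * wO) +
          ((Nn n : ℕ) : O) * ((m / (Nn n : ℕ) : ℤ) : O) := by
      have e1 := GZM.decomp a
      have e2 := GZM.decomp n
      rw [k5]
      linear_combination e1 - ((a.im : O) * u) * e2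
    rw [k3, k4, k6]
    exact dvd_add (dvd_sub (dvd_mul_right _ _) (hub.mul_right _)) (hnq.mul_right _)) (by
    intro i hi j hj hij
    obtain ⟨c, hc⟩ := hij
    have k1 : ((i : O) - (j : O)) * cj n = ((Nn n : ℕ) : O) * c := by
      rw [hc, ← hB.b1.cj_mul]
      ring
    have k2 := congrArg QuadraticAlgebra.im k1
    simp [cj] at k2
    have k3 : ((Nn n : ℕ) : ℤ) ∣ (i : ℤ) - j := by
      refine ⟨v * ((i : ℤ) - j) - u * c.im, ?_⟩
      linear_combination (-((i : ℤ) - j)) * huv - u * k2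
    have k4 := Finset.mem_range.1 hi
    have k5 := Finset.mem_range.1 hj
    have k6 : (i : ℤ) - j = 0 := Int.eq_zero_of_abs_lt_dvd k3 (by
      rw [abs_lt]
      constructor <;> omega)
    omega)
  rw [E.hH.tw3 n _ h3 (GZM.sqf hB n hs)] at hsum
  have hz : cub (u : O) n = cub lam n := by
    have k1 : cub (u : O) n * cub (n.im : O) n = 1 := by
      rw [← hB.b6.mul_l _ _ n h3, ← hB.b6.one_l n]
      exact hB.b4.pe_congr n _ _ _ (hB.b6.pe n) hub
    have k2 : cub (cj n) n = cub (n.im : O) n * cub lam n := by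
      rw [← hB.b6.mul_l _ _ n h3, ← hB.b6.neg_l (cj n) n h3]
      refine hB.b4.pe_congr n _ _ _ (hB.b6.pe n) ⟨-1, ?_⟩
      rw [← GZM.sub_cj]
      ring
    have k3 : cub (cj n) n = cub (cj n) n ^ 2 := by
      rw [← hB.b6.conj_eq, ← hB.b6.cj_cj (cj n) n h3, GZM.cj_cj]
      exact E.hC _ _ (GZM.prim_cj n hn) hn
    have k4 : IsCoprime lam n := by
      have k5 : (3 : O) = lam * (-lam) := by linear_combination hB.b1.lam_sq
      rw [k5] at h3
      exact h3.of_mul_right_left.symm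
    have k6 : cub lam n ≠ 0 := by
      intro k7
      have := hB.b6.norm lam n k4
      rw [k7] at this
      simp at this
    have k8 : cub (n.im : O) n ≠ 0 := by
      intro k7
      rw [k7] at k1
      simp at k1
    have k9 : cub (cj n) n ≠ 0 := by
      rw [k2]
      exact mul_ne_zero k8 k6
    have k10 : cub (cj n) n = 1 := by
      apply mul_left_cancel₀ k9
      linear_combination -k3
    apply mul_left_cancel₀ k8
    linear_combination k1 - k10 + k2
  have hc := congrArg conj hsum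
  rw [map_sum] at hc
  have hR : conj (cub ((h * u : ℤ) : O) n * gs n) =
      cub ((h ^ 2 : ℤ) : O) n * conj (cub lam n * gs n) := by
    push_cast
    rw [hB.b6.mul_l _ _ n h3, hB.b6.pow_l _ n 2 h3, hz, ← hB.b6.conj_eq]
    simp only [map_mul]
    ring
  rw [← hR, ← hc]
  refine Finset.sum_congr rfl fun r _ => ?_
  have k1 : -((r : O) * ((h * u : ℤ) : O)) = ((-(r * (h * u)) : ℤ) : O) := by
    push_cast
    ring
  rw [map_mul, conj_conj, ← hB.b1.eQ_neg, k1, GZM.eQ_int hB n hn0]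
  congr 1
  have huvC : (u : ℂ) * (n.im : ℂ) + (v : ℂ) * (Nn n : ℂ) = 1 := by
    exact_mod_cast congrArg (Int.cast : ℤ → ℂ) huv
  have k2 : (2 * Real.pi * I * ((r : ℂ) * h / Nn n) : ℂ) =
      2 * Real.pi * I * (-(((-(r * (h * u)) : ℤ) : ℂ) * n.im) / Nn n) +
        ((r * h * v : ℤ) : ℂ) * (2 * Real.pi * I) := by
    push_cast
    field_simp
    linear_combination (-(r : ℂ) * h) * huvC
  rw [k2, Complex.exp_add, Complex.exp_int_mul_two_pi_mul_I, mul_one]

end Vale.Agent.P006.K
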