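import Vale.Agent.P006.K0

noncomputable section
open Complex MeasureTheory Filter Topology
open scoped Classical ComplexConjugate

namespace Vale.Agent.P006.K
open Vale.Agent.P026

namespace KLM

def pa (a : ℤ) : ℤ := if Prim (a : O) then a else -a

lemma pa_prim (a : ℤ) (h : IsCoprime a 3) : Prim (pa a : O) := by
  unfold pa
  split_ifs with hp
  · exact hp
  · have h3 : ¬ (3 : ℤ) ∣ a := by
      intro h3
      have := h.isUnit_of_dvd' h3 dvd_rfl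
      rcases Int.isUnit_iff.1 this with h | h <;> omega
    have h1 : ¬ (3 : ℤ) ∣ a - 1 := by
      rintro ⟨c, hc⟩
      apply hp
      refine ⟨(c : O), ?_⟩
      have := congrArg (Int.cast : ℤ → O) hc
      push_cast at this
      exact this
    obtain ⟨c, hc⟩ : (3 : ℤ) ∣ -a - 1 := by omega
    refine ⟨(c : O), ?_⟩
    have := congrArg (Int.cast : ℤ → O) hc
    push_cast at this ⊢
    exact this

lemma pa_abs (a : ℤ) : (pa a).natAbs = a.natAbs := by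
  unfold pa; split_ifs <;> simp

lemma pa_sq (a : ℤ) : ((pa a : ℤ) : ℝ) ^ 2 = |(a : ℝ)| ^ 2 := by
  unfold pa; split_ifs <;> simp

lemma pa_cop (a : ℤ) (k : O) : IsCoprime k (pa a : O) ↔ IsCoprime k (a : O) := by
  unfold pa; split_ifs
  · rfl
  · push_cast; exact IsCoprime.neg_right_iff _ _

lemma pa_T0 (E : Env) (a : ℤ) (Y : ℝ) : T0 (pa a : O) Y = T0 (a : O) Y := by
  unfold pa; split_ifs
  · rfl
  · unfold T0
    refine tsum_congr fun k => ?_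
    split_ifs with hk
    · push_cast
      rw [E.hB.b6.neg_l _ _ (E.hB.b2.cop k hk)]
    · rfl

lemma cop_cj (a : ℤ) (k : O) (h : IsCoprime k (a : O)) : IsCoprime (cj k) (a : O) := by
  obtain ⟨u, v, huv⟩ := h
  refine ⟨cj u, cj v, ?_⟩
  have h1 := congrArg QuadraticAlgebra.re huv
  have h2 := congrArg QuadraticAlgebra.im huv
  have r1 : QuadraticAlgebra.re (1 : O) = 1 := rfl
  have r2 : QuadraticAlgebra.im (1 : O) = 0 := rfl
  rw [r1] at h1
  rw [r2] at h2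
  simp [QuadraticAlgebra.re_mul, QuadraticAlgebra.im_mul] at h1 h2
  ext
  · rw [r1]
    simp [cj, QuadraticAlgebra.re_mul]
    linarith
  · rw [r2]
    simp [cj, QuadraticAlgebra.im_mul]
    linarith

lemma cop_iff (E : Env) (a : ℤ) (k : O) :
    IsCoprime a ((3 * Nn k : ℕ) : ℤ) ↔ IsCoprime a 3 ∧ IsCoprime k (a : O) := by
  push_cast
  rw [IsCoprime.mul_right_iff]
  refine and_congr Iff.rfl ⟨fun h => ?_, fun h => ?_⟩
  · have h1 := h.map (Int.castRingHom O)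
    simp only [eq_intCast, Int.cast_natCast] at h1
    rw [← E.hB.b1.cj_mul] at h1
    exact h1.of_mul_right_left.symm
  · have h1 := h.mul_left (cop_cj a k h)
    rw [E.hB.b1.cj_mul] at h1
    obtain ⟨u, v, huv⟩ := h1
    refine ⟨v.re, u.re, ?_⟩
    have h2 := congrArg QuadraticAlgebra.re huv
    have r1 : QuadraticAlgebra.re (1 : O) = 1 := rfl
    rw [r1] at h2
    simp [QuadraticAlgebra.re_mul] at h2
    linarith

lemma N0 (k : O) : 0 ≤ N k := Nat.cast_nonneg _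

lemma ww0 (k : O) : 0 ≤ ww k := by
  unfold ww
  have := N0 k
  positivity

lemma VV0 (Y x : ℝ) : 0 ≤ VV Y x := (Real.exp_pos _).le

lemma ww_le (E : Env) (k : O) (hk : k ≠ 0) : ww k ≤ N k ^ (1 / 6 : ℝ) := by
  have h1 := E.hB.b1.N_one_le k hk
  have h2 := E.hb.norm_le k
  unfold ww
  calc ‖bb k‖ ^ 2 * N k ^ (-7 / 6 : ℝ) ≤ (N k ^ (2 / 3 : ℝ)) ^ 2 * N k ^ (-7 / 6 : ℝ) := by
        gcongr
    _ = _ := by
        rw [← Real.rpow_natCast, ← Real.rpow_mul (by linarith), ← Real.rpow_add (by linarith)]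
        norm_num

def v (Y : ℝ) (k : O) : ℝ := if Prim k then ww k * VV Y (N k) else 0

lemma v0 (Y : ℝ) (k : O) : 0 ≤ v Y k := by
  unfold v
  split_ifs
  · exact mul_nonneg (ww0 k) (VV0 _ _)
  · exact le_rfl

lemma v_summ (E : Env) (Y : ℝ) (hY : 0 < Y) : Summable (v Y) := by
  obtain ⟨C, hC⟩ := E.hL.sum (1 / 6)
  refine Summable.of_nonneg_of_le (v0 Y) (fun k => ?_) (hC Y hY).1
  unfold v
  by_cases hk : Prim k
  · have h0 := E.hB.b2.ne k hk
    rw [if_pos hk, if_neg h0]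
    exact mul_le_mul_of_nonneg_right (ww_le E k h0) (VV0 _ _)
  · rw [if_neg hk]
    split_ifs
    · exact le_rfl
    · exact mul_nonneg (Real.rpow_nonneg (N0 k) _) (VV0 _ _)

lemma v_shift (E : Env) (Y ε : ℝ) (hY : 0 < Y) (k : O) :
    v Y k * N k ^ ε = Y ^ ε * Real.exp (ε ^ 2 / 4) * v (Y * Real.exp (ε / 2)) k := by
  unfold v
  split_ifs with hk
  · have h1 := E.hB.b1.N_one_le k (E.hB.b2.ne k hk)
    have h2 := E.hL.shift Y (N k) (-ε) hY (by linarith)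
    simp only [neg_neg, even_two, Even.neg_pow] at h2
    calc ww k * VV Y (N k) * N k ^ ε = ww k * (N k ^ ε * VV Y (N k)) := by ring
      _ = _ := by rw [h2]; ring
  · simp

lemma v_bound (E : Env) (hEM : EMStmt) (hW : W8Stmt) (ε : ℝ) (hε : 0 < ε) : ∃ C : ℝ, 0 ≤ C ∧
    ∀ Y : ℝ, 1 ≤ Y → Summable (fun k => v Y k * N k ^ ε) ∧
      ∑' k, v Y k * N k ^ ε ≤ C * Y ^ (5 / 6 + ε) := by
  obtain ⟨C, hC0, hC⟩ := hW 1 one_pos
  have hr := hEM.2.2.1
  refine ⟨Real.exp (ε ^ 2 / 4) * ((rho0 + C) * Real.exp (ε / 2) ^ (5 / 6 : ℝ)), by positivity,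
    fun Y hY => ?_⟩
  have hY0 : 0 < Y := by linarith
  have he : 1 ≤ Real.exp (ε / 2) := Real.one_le_exp (by linarith)
  have hY' : 1 ≤ Y * Real.exp (ε / 2) := by nlinarith
  simp only [v_shift E Y ε hY0]
  refine ⟨(v_summ E _ (by linarith)).mul_left _, ?_⟩
  rw [tsum_mul_left]
  have h1 := hC 1 (Y * Real.exp (ε / 2)) E.hB.b2.one (by linarith)
  have e1 : EP 1 = 1 := by unfold EP; rw [E.h8.pf_one]; simp
  have e2 : N (1 : O) = 1 := by simpa using E.hB.b1.N_int 1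
  have e3 : (∑' k, if Prim k ∧ IsCoprime k 1 then ww k * VV (Y * Real.exp (ε / 2)) (N k) else 0) =
      ∑' k, v (Y * Real.exp (ε / 2)) k := by
    refine tsum_congr fun k => ?_
    unfold v
    simp only [isCoprime_one_right, and_true]
  rw [e1, e2, e3] at h1
  have h2 : (Y * Real.exp (ε / 2)) ^ (11 / 20 : ℝ) ≤ (Y * Real.exp (ε / 2)) ^ (5 / 6 : ℝ) :=
    Real.rpow_le_rpow_of_exponent_le hY' (by norm_num)
  have h3 : ∑' k, v (Y * Real.exp (ε / 2)) k ≤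
      (rho0 + C) * (Y * Real.exp (ε / 2)) ^ (5 / 6 : ℝ) := by
    have h4 := (abs_le.1 h1).2
    have h5 := mul_le_mul_of_nonneg_left h2 hC0
    simp only [Real.one_rpow, mul_one] at h4
    linarith
  calc Y ^ ε * Real.exp (ε ^ 2 / 4) * ∑' k, v (Y * Real.exp (ε / 2)) k
      ≤ Y ^ ε * Real.exp (ε ^ 2 / 4) * ((rho0 + C) * (Y * Real.exp (ε / 2)) ^ (5 / 6 : ℝ)) := by
        gcongr
    _ = _ := by
        rw [Real.mul_rpow hY0.le (by positivity), Real.rpow_add hY0]; ring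

def W (a : ℤ) (Y : ℝ) : ℝ :=
  ∑' k, if Prim k ∧ IsCoprime k (a : O) then ww k * VV Y (N k) else 0

lemma point (E : Env) (hEM : EMStmt) (hR : RATStmt) (hW : W8Stmt) (ρ : ℂ) (hT : TI ρ) (ε : ℝ)
    (hε : 0 < ε) : ∃ C : ℝ, 0 ≤ C ∧ ∀ (a : ℤ) (Y : ℝ), IsCoprime a 3 → 1 ≤ Y →
      ‖T0 (a : O) Y - ρ / rho0 * ((mm a.natAbs * W a Y : ℝ) : ℂ)‖ ≤
        C * (|(a : ℝ)| ^ (1 + ε / 2) * Y ^ ε + |(a : ℝ)| ^ (ε / 2) * Y ^ (11 / 20 : ℝ)) := by
  obtain ⟨C1, h1⟩ := hT (ε / 4) (by linarith)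
  obtain ⟨C2, hC2, h2⟩ := hW (ε / 4) (by linarith)
  have hr := hEM.2.2.1
  refine ⟨|C1| + ‖ρ‖ / rho0 * C2, by positivity, fun a Y ha hY => ?_⟩
  have hp := pa_prim a ha
  have hY0 : 0 < Y := by linarith
  have g1 := h1 _ Y hp hY
  have g2 := h2 _ Y hp hY0
  have g3 := hR.2 _ hp
  rw [pa_abs] at g3
  rw [pa_T0 E] at g1
  simp only [pa_cop] at g2
  have eN : N ((pa a : ℤ) : O) = |(a : ℝ)| ^ 2 := by rw [E.hB.b1.N_int, pa_sq]
  have eN1 : N ((pa a : ℤ) : O) ^ (1 / 2 + ε / 4) = |(a : ℝ)| ^ (1 + ε / 2) := by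
    rw [eN, ← Real.rpow_natCast, ← Real.rpow_mul (abs_nonneg _)]
    congr 1; push_cast; ring
  have eN2 : N ((pa a : ℤ) : O) ^ (ε / 4) = |(a : ℝ)| ^ (ε / 2) := by
    rw [eN, ← Real.rpow_natCast, ← Real.rpow_mul (abs_nonneg _)]
    congr 1; push_cast; ring
  rw [eN1] at g1
  rw [eN2] at g2
  change |W a Y - _| ≤ _ at g2
  have hr' : (rho0 : ℂ) ≠ 0 := by exact_mod_cast hr.ne'
  have e1 : T0 (a : O) Y - ρ / rho0 * ((mm a.natAbs * W a Y : ℝ) : ℂ) =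
      (T0 (a : O) Y - ρ * MM (pa a : O) * ((Y ^ (5 / 6 : ℝ) : ℝ) : ℂ)) -
        ρ / rho0 * ((mm a.natAbs * (W a Y - rho0 * EP (pa a : O) * Y ^ (5 / 6 : ℝ)) : ℝ) : ℂ) := by
    unfold MM
    have : conj (cc (pa a : O)) * ((N (pa a : O) ^ (-1 / 6 : ℝ) * EP (pa a : O) : ℝ) : ℂ) =
        (mm a.natAbs : ℂ) * (EP (pa a : O) : ℂ) := by
      rw [← g3]; push_cast; ring
    rw [this]
    push_cast
    field_simp
    ring
  rw [e1]
  refine (norm_sub_le _ _).trans ?_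
  have m0 := (hR.1 a.natAbs).1
  have m1 := (hR.1 a.natAbs).2
  have g4 : ‖ρ / rho0 * ((mm a.natAbs *
      (W a Y - rho0 * EP (pa a : O) * Y ^ (5 / 6 : ℝ)) : ℝ) : ℂ)‖ ≤
      ‖ρ‖ / rho0 * (C2 * |(a : ℝ)| ^ (ε / 2) * Y ^ (11 / 20 : ℝ)) := by
    rw [norm_mul, norm_div, Complex.norm_real, Complex.norm_real, Real.norm_eq_abs,
      Real.norm_eq_abs, abs_of_pos hr, abs_mul, abs_of_nonneg m0]
    refine mul_le_mul_of_nonneg_left ?_ (by positivity)
    exact (mul_le_of_le_one_left (abs_nonneg _) m1).trans g2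
  have g5 : Y ^ (ε / 4) ≤ Y ^ ε := Real.rpow_le_rpow_of_exponent_le hY (by linarith)
  have g6 : C1 * |(a : ℝ)| ^ (1 + ε / 2) * Y ^ (ε / 4) ≤
      |C1| * (|(a : ℝ)| ^ (1 + ε / 2) * Y ^ ε) := by
    rw [mul_assoc]
    refine mul_le_mul (le_abs_self _) (by gcongr) (by positivity) (abs_nonneg _)
  have p1 : 0 ≤ |C1| * (|(a : ℝ)| ^ (ε / 2) * Y ^ (11 / 20 : ℝ)) := by positivity
  have p2 : 0 ≤ ‖ρ‖ / rho0 * C2 * (|(a : ℝ)| ^ (1 + ε / 2) * Y ^ ε) := by positivity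
  nlinarith

lemma gA0 (A : ℝ) (a : ℤ) : 0 ≤ gA A a := (Real.exp_pos _).le

def u (A : ℝ) (a : ℤ) : ℝ := mm a.natAbs * gA A a
def g (A Y : ℝ) (a : ℤ) : ℝ := if IsCoprime a 3 then u A a * W a Y else 0
def Z (A : ℝ) (k : O) : ℝ :=
  ∑' a : ℤ, if IsCoprime a ((3 * Nn k : ℕ) : ℤ) then mm a.natAbs * gA A a else 0

lemma swap (E : Env) (hEM : EMStmt) (hR : RATStmt) (A Y : ℝ) (hA : 0 < A) (hY : 0 < Y) :
    Summable (g A Y) ∧ Summable (fun k => v Y k * Z A k) ∧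
      ∑' a, g A Y a = ∑' k, v Y k * Z A k := by
  obtain ⟨C, hC⟩ := hEM.2.2.2.2.2.1 0 1 le_rfl one_pos
  have u0 : ∀ a, 0 ≤ u A a := fun a => mul_nonneg (hR.1 _).1 (gA0 A a)
  have us : Summable (u A) := by
    refine Summable.of_nonneg_of_le u0 (fun a => ?_) (hC A hA).1
    rw [Real.rpow_zero, one_mul]
    exact mul_le_of_le_one_left (gA0 A a) (hR.1 _).2
  have vs := v_summ E Y hY
  have ps := us.mul_of_nonneg vs u0 (v0 Y)
  let F : ℤ → O → ℝ := fun a k => if IsCoprime a ((3 * Nn k : ℕ) : ℤ) then u A a * v Y k else 0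
  have Fs : Summable (Function.uncurry F) := by
    refine Summable.of_nonneg_of_le (fun x => ?_) (fun x => ?_) ps
    · simp only [Function.uncurry, F]
      split_ifs
      · exact mul_nonneg (u0 _) (v0 _ _)
      · exact le_rfl
    · simp only [Function.uncurry, F]
      split_ifs
      · exact le_rfl
      · exact mul_nonneg (u0 _) (v0 _ _)
  have e1 : ∀ a, ∑' k, F a k = g A Y a := by
    intro a
    unfold g W
    split_ifs with ha
    · rw [← tsum_mul_left]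
      refine tsum_congr fun k => ?_
      simp only [F, cop_iff E, v, ha, true_and]
      by_cases h1 : Prim k <;> by_cases h2 : IsCoprime k (a : O) <;> simp [h1, h2]
    · simp only [F, cop_iff E, ha, false_and, if_false, tsum_zero]
  have e2 : ∀ k, ∑' a, F a k = v Y k * Z A k := by
    intro k
    unfold Z
    rw [← tsum_mul_left]
    refine tsum_congr fun a => ?_
    simp only [F, u]
    split_ifs
    · ring
    · simp
  refine ⟨?_, ?_, ?_⟩
  · exact Fs.prod.congr e1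
  · exact Fs.prod_symm.prod.congr e2
  · simp only [← e1, ← e2]
    exact Fs.tsum_comm.symm

lemma mainZ (E : Env) (hEM : EMStmt) (hM : MZStmt) (hR : RATStmt) (hW : W8Stmt) (ε : ℝ)
    (hε : 0 < ε) : ∃ C : ℝ, 0 ≤ C ∧ ∀ A Y : ℝ, 0 < A → 1 ≤ Y →
      |∑' a, g A Y a - c2 * A ^ (2 / 3 : ℝ) * SS Y| ≤
        C * (A ^ (3 / 5 : ℝ) * Y ^ (5 / 6 + ε)) := by
  obtain ⟨C1, h1⟩ := hM ε hε
  obtain ⟨C2, hC2, h2⟩ := v_bound E hEM hW ε hε
  obtain ⟨C3, hC3, h3⟩ := hEM.2.2.2.2.2.2 1 one_pos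
  refine ⟨|C1| * 3 ^ ε * C2, by positivity, fun A Y hA hY => ?_⟩
  have hY0 : 0 < Y := by linarith
  obtain ⟨-, s2, s3⟩ := swap E hEM hR A Y hA hY0
  obtain ⟨s4, s5⟩ := h2 Y hY
  have hne : ∀ k, Prim k → 3 * Nn k ≠ 0 := by
    intro k hk
    have := E.hB.b2.N_mod k hk
    omega
  have e1 : ∀ k, (if Prim k then PR (3 * Nn k) * ww k * VV Y (N k) else 0) =
      v Y k * PR (3 * Nn k) := by
    intro k
    unfold v
    split_ifs
    · ring
    · simp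
  have s6 : Summable fun k => v Y k * PR (3 * Nn k) := by
    refine Summable.of_norm_bounded (v_summ E Y hY0) fun k => ?_
    by_cases hk : Prim k
    · obtain ⟨-, a2, a3⟩ := h3 _ (hne k hk)
      have a4 : 0 ≤ PR (3 * Nn k) := by
        have : 0 ≤ C3 * PR (3 * Nn k) := le_trans (by positivity) a2
        exact nonneg_of_mul_nonneg_right this hC3 |> fun h => by
          by_contra hh
          push Not at hh
          nlinarith
      rw [Real.norm_eq_abs, abs_of_nonneg (mul_nonneg (v0 Y k) a4)]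
      exact mul_le_of_le_one_right (v0 Y k) a3
    · simp [v, hk]
  unfold SS
  simp only [e1]
  rw [s3, ← tsum_mul_left, ← s2.tsum_sub (s6.mul_left _), ← Real.norm_eq_abs]
  have s7 := (s4.mul_left (|C1| * 3 ^ ε * A ^ (3 / 5 : ℝ))).hasSum
  refine (tsum_of_norm_bounded s7 fun k => ?_).trans ?_
  · by_cases hk : Prim k
    · have a1 := h1 (3 * Nn k) A (Dvd.intro _ rfl) (hne k hk) hA
      change |Z A k - _| ≤ _ at a1
      have a2 : v Y k * Z A k - c2 * A ^ (2 / 3 : ℝ) * (v Y k * PR (3 * Nn k)) =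
          v Y k * (Z A k - c2 * PR (3 * Nn k) * A ^ (2 / 3 : ℝ)) := by ring
      rw [a2, Real.norm_eq_abs, abs_mul, abs_of_nonneg (v0 Y k)]
      have a3 : ((3 * Nn k : ℕ) : ℝ) ^ ε = 3 ^ ε * N k ^ ε := by
        push_cast
        rw [Real.mul_rpow (by norm_num) (by positivity)]
        rfl
      rw [a3] at a1
      have a4 := N0 k
      have a5 : C1 * (3 ^ ε * N k ^ ε) * A ^ (3 / 5 : ℝ) ≤
          |C1| * (3 ^ ε * N k ^ ε) * A ^ (3 / 5 : ℝ) := by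
        gcongr; exact le_abs_self _
      calc v Y k * |Z A k - c2 * PR (3 * Nn k) * A ^ (2 / 3 : ℝ)|
          ≤ v Y k * (|C1| * (3 ^ ε * N k ^ ε) * A ^ (3 / 5 : ℝ)) :=
            mul_le_mul_of_nonneg_left (a1.trans a5) (v0 Y k)
        _ = _ := by ring
    · simp [v, hk]
  · rw [tsum_mul_left]
    calc |C1| * 3 ^ ε * A ^ (3 / 5 : ℝ) * ∑' k, v Y k * N k ^ ε
        ≤ |C1| * 3 ^ ε * A ^ (3 / 5 : ℝ) * (C2 * Y ^ (5 / 6 + ε)) := by gcongr
      _ = _ := by ring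

end KLM

open KLM in
theorem klS (E : Env) (hEM : EMStmt) (hM : MZStmt) (hR : RATStmt) (hW : W8Stmt) : KLStmt := by
  intro ρ hT ε hε
  obtain ⟨C1, hC1, h1⟩ := point E hEM hR hW ρ hT ε hε
  obtain ⟨C2, hC2, h2⟩ := mainZ E hEM hM hR hW ε hε
  obtain ⟨D1, d1⟩ := hEM.2.2.2.2.2.1 (1 + ε / 2) (ε / 2) (by linarith) (by linarith)
  obtain ⟨D2, d2⟩ := hEM.2.2.2.2.2.1 (ε / 2) (ε / 2) (by linarith) (by linarith)
  have hr := hEM.2.2.1
  refine ⟨C1 * |D1| + C1 * |D2| + ‖ρ‖ / rho0 * C2, fun A Y hA hY => ?_⟩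
  have hY0 : 0 < Y := by linarith
  obtain ⟨s1, -, -⟩ := swap E hEM hR A Y hA hY0
  obtain ⟨t1, t2⟩ := d1 A hA
  obtain ⟨t3, t4⟩ := d2 A hA
  have sm : ∀ σ : ℝ, Summable (fun a : ℤ => |(a : ℝ)| ^ σ * gA A a) →
      Summable fun a : ℤ => if a = 0 then 0 else |(a : ℝ)| ^ σ * gA A a := by
    intro σ h
    refine Summable.of_nonneg_of_le (fun a => ?_) (fun a => ?_) h
    · split_ifs
      · exact le_rfl
      · exact mul_nonneg (by positivity) (gA0 A a)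
    · split_ifs
      · exact mul_nonneg (by positivity) (gA0 A a)
      · exact le_rfl
  have t5 := sm _ t1
  have t6 := sm _ t3
  have t7 := ((t5.hasSum.mul_left (C1 * Y ^ ε)).add (t6.hasSum.mul_left (C1 * Y ^ (11 / 20 : ℝ))))
  let f : ℤ → ℂ := fun a => if IsCoprime a 3 then (gA A a : ℂ) * T0 (a : O) Y else 0
  have hb : ∀ a, ‖f a - ρ / rho0 * (g A Y a : ℂ)‖ ≤
      C1 * Y ^ ε * (if a = 0 then 0 else |(a : ℝ)| ^ (1 + ε / 2) * gA A a) +
      C1 * Y ^ (11 / 20 : ℝ) * (if a = 0 then 0 else |(a : ℝ)| ^ (ε / 2) * gA A a) := by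
    intro a
    have hg := gA0 A a
    by_cases ha : IsCoprime a 3
    · have h0 : a ≠ 0 := by
        rintro rfl
        have := isCoprime_zero_left.1 ha
        rcases Int.isUnit_iff.1 this with h | h <;> omega
      have e1 : f a - ρ / rho0 * (g A Y a : ℂ) =
          (gA A a : ℂ) * (T0 (a : O) Y - ρ / rho0 * ((mm a.natAbs * W a Y : ℝ) : ℂ)) := by
        simp only [f, g, u, if_pos ha]
        push_cast; ring
      rw [e1, norm_mul, Complex.norm_real, Real.norm_eq_abs, abs_of_nonneg hg, if_neg h0, if_neg h0]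
      refine (mul_le_mul_of_nonneg_left (h1 a Y ha hY) hg).trans (le_of_eq ?_)
      ring
    · simp only [f, g, if_neg ha]
      simp only [Complex.ofReal_zero, mul_zero, sub_zero, norm_zero]
      split_ifs <;> positivity
  have s2 : Summable fun a => ρ / rho0 * (g A Y a : ℂ) :=
    (Complex.summable_ofReal.2 s1).mul_left _
  have s3 : Summable fun a => f a - ρ / rho0 * (g A Y a : ℂ) :=
    Summable.of_norm_bounded t7.summable hb
  have s4 : Summable f := by simpa using s3.add s2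
  have b1 := tsum_of_norm_bounded t7 hb
  rw [s4.tsum_sub s2, tsum_mul_left, ← Complex.ofReal_tsum] at b1
  have b2 := h2 A Y hA hY
  have e2 : LL A Y - ρ / rho0 * ((c2 * A ^ (2 / 3 : ℝ) * SS Y : ℝ) : ℂ) =
      (∑' a, f a - ρ / rho0 * ((∑' a, g A Y a : ℝ) : ℂ)) +
        ρ / rho0 * ((∑' a, g A Y a - c2 * A ^ (2 / 3 : ℝ) * SS Y : ℝ) : ℂ) := by
    have : LL A Y = ∑' a, f a := rfl
    rw [this, Complex.ofReal_sub]; ring
  rw [e2]
  refine (norm_add_le _ _).trans ?_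
  have b3 : ‖ρ / rho0 * ((∑' a, g A Y a - c2 * A ^ (2 / 3 : ℝ) * SS Y : ℝ) : ℂ)‖ ≤
      ‖ρ‖ / rho0 * (C2 * (A ^ (3 / 5 : ℝ) * Y ^ (5 / 6 + ε))) := by
    rw [norm_mul, norm_div, Complex.norm_real, Complex.norm_real, Real.norm_eq_abs,
      Real.norm_eq_abs, abs_of_pos hr]
    exact mul_le_mul_of_nonneg_left b2 (by positivity)
  have e3 : 1 + ε / 2 + 1 + ε / 2 = 2 + ε := by ring
  have e4 : ε / 2 + 1 + ε / 2 = 1 + ε := by ring
  rw [e3] at t2
  rw [e4] at t4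
  have b4 : D1 * A ^ (2 + ε) ≤ |D1| * A ^ (2 + ε) := by gcongr; exact le_abs_self _
  have b5 : D2 * A ^ (1 + ε) ≤ |D2| * A ^ (1 + ε) := by gcongr; exact le_abs_self _
  have b6 := mul_le_mul_of_nonneg_left (t2.trans b4) (by positivity : 0 ≤ C1 * Y ^ ε)
  have b7 := mul_le_mul_of_nonneg_left (t4.trans b5) (by positivity : 0 ≤ C1 * Y ^ (11 / 20 : ℝ))
  obtain ⟨x1, hx1⟩ : ∃ x, x = A ^ (2 + ε) * Y ^ ε := ⟨_, rfl⟩
  obtain ⟨x2, hx2⟩ : ∃ x, x = A ^ (1 + ε) * Y ^ (11 / 20 : ℝ) := ⟨_, rfl⟩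
  obtain ⟨x3, hx3⟩ : ∃ x, x = A ^ (3 / 5 : ℝ) * Y ^ (5 / 6 + ε) := ⟨_, rfl⟩
  have p1 : 0 ≤ x1 := by rw [hx1]; positivity
  have p2 : 0 ≤ x2 := by rw [hx2]; positivity
  have p3 : 0 ≤ x3 := by rw [hx3]; positivity
  have q1 : C1 * Y ^ ε * (|D1| * A ^ (2 + ε)) = C1 * |D1| * x1 := by rw [hx1]; ring
  have q2 : C1 * Y ^ (11 / 20 : ℝ) * (|D2| * A ^ (1 + ε)) = C1 * |D2| * x2 := by rw [hx2]; ring
  rw [← hx1, ← hx2, ← hx3]
  rw [← hx3] at b3
  rw [q1] at b6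
  rw [q2] at b7
  obtain ⟨k1, hk1⟩ : ∃ x, x = C1 * |D1| := ⟨_, rfl⟩
  obtain ⟨k2, hk2⟩ : ∃ x, x = C1 * |D2| := ⟨_, rfl⟩
  obtain ⟨k3, hk3⟩ : ∃ x, x = ‖ρ‖ / rho0 * C2 := ⟨_, rfl⟩
  have r1 : 0 ≤ k1 := by rw [hk1]; positivity
  have r2 : 0 ≤ k2 := by rw [hk2]; positivity
  have r3 : 0 ≤ k3 := by rw [hk3]; positivity
  rw [← mul_assoc, ← hk3] at b3
  rw [← hk1] at b6
  rw [← hk2] at b7
  rw [← hk1, ← hk2, ← hk3]
  have z : k1 * x1 + k2 * x2 + k3 * x3 ≤ (k1 + k2 + k3) * (x1 + x2 + x3) := by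
    have := mul_nonneg r1 p2
    have := mul_nonneg r1 p3
    have := mul_nonneg r2 p1
    have := mul_nonneg r2 p3
    have := mul_nonneg r3 p1
    have := mul_nonneg r3 p2
    nlinarith
  linarith

end Vale.Agent.P006.K
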