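import Vale.Agent.P006.K0

/-! P006 branch K: evaluation of `LL` by Poisson summation. -/

noncomputable section
open Complex MeasureTheory Filter Topology
open scoped Classical ComplexConjugate

namespace Vale.Agent.P006.K
open Vale.Agent.P026

namespace KRM

theorem ineq {x y z Y δ : ℝ} (hx : 1 ≤ x) (hy : 1 ≤ y) (hz : 1 ≤ z) (hY : 0 < Y) (hδ : 0 < δ) :
    (Y / (y ^ 2 * z * x ^ 3)) ^ (1 / 2 + 2 * δ) * (√x / √z * (3 * y * x) ^ δ * z ^ δ) ≤
      3 ^ δ * Y ^ (1 / 2 + 2 * δ) * (x ^ (-(1 + δ)) * (y ^ (-(1 + δ)) * z ^ (-(1 + δ)))) := by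
  have x0 : 0 < x := by linarith
  have y0 : 0 < y := by linarith
  have z0 : 0 < z := by linarith
  have a := Real.log_nonneg hx
  have b := Real.log_nonneg hy
  rw [← Real.log_le_log_iff (by positivity) (by positivity)]
  simp (disch := positivity) only [Real.log_mul, Real.log_div, Real.log_rpow, Real.log_pow,
    Real.log_sqrt]
  push_cast
  nlinarith [mul_nonneg hδ.le a, mul_nonneg hδ.le b]

theorem vv0 (Y x : ℝ) : 0 ≤ VV Y x := (Real.exp_pos _).le

theorem sumV (E : Env) {Y : ℝ} (hY : 0 < Y) :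
    Summable fun k : O => if Prim k then N k ^ (1 / 6 : ℝ) * VV Y (N k) else 0 := by
  obtain ⟨C, hC⟩ := E.hL.sum (1 / 6)
  have n0 : ∀ k, 0 ≤ N k := fun k => Nat.cast_nonneg _
  refine Summable.of_nonneg_of_le (fun k => ?_) (fun k => ?_) (hC Y hY).1
  · have := vv0 Y (N k)
    have := n0 k
    split_ifs <;> positivity
  · have := vv0 Y (N k)
    have := n0 k
    split_ifs with h1 h2
    · exact absurd h2 (E.hB.b2.ne _ h1)
    · exact le_rfl
    · exact le_rfl
    · positivity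

theorem ccle (E : Env) {k : O} (hk : Prim k) : ‖cc k‖ ≤ N k ^ (1 / 6 : ℝ) := by
  have n0 : 0 < N k := lt_of_lt_of_le one_pos (E.hB.b1.N_one_le _ (E.hB.b2.ne _ hk))
  rw [cc, norm_div, norm_mul, norm_real, Real.norm_of_nonneg (Real.sqrt_nonneg _),
    div_le_iff₀ (by positivity), Real.sqrt_eq_rpow, ← Real.rpow_add n0]
  calc _ ≤ 1 * N k ^ (2 / 3 : ℝ) :=
        mul_le_mul (E.hB.b6.norm_le _ _) (E.hb.norm_le k) (norm_nonneg _) zero_le_one
    _ = _ := by norm_num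

theorem wwle (E : Env) {k : O} (hk : Prim k) : 0 ≤ ww k ∧ ww k ≤ N k ^ (1 / 6 : ℝ) := by
  have n0 : 0 < N k := lt_of_lt_of_le one_pos (E.hB.b1.N_one_le _ (E.hB.b2.ne _ hk))
  refine ⟨by unfold ww; positivity, ?_⟩
  calc ww k ≤ (N k ^ (2 / 3 : ℝ)) ^ 2 * N k ^ (-7 / 6 : ℝ) := by
        unfold ww
        gcongr
        exact E.hb.norm_le k
    _ = _ := by
        rw [← Real.rpow_natCast, ← Real.rpow_mul n0.le, ← Real.rpow_add n0]
        norm_num

end KRM

open KRM in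
theorem krS (E : Env) (hE : EMStmt) (hD : DECStmt) (hP : POIStmt) (hC : CUBStmt) : KRStmt := by
  intro ε hε
  obtain ⟨δ, hδ, rfl⟩ : ∃ δ : ℝ, 0 < δ ∧ ε = 2 * δ := ⟨ε / 2, by positivity, by ring⟩
  obtain ⟨-, -, -, -, -, h6, h7⟩ := hE
  obtain ⟨C6, h6⟩ := h6 0 1 le_rfl one_pos
  obtain ⟨C, C0, h7⟩ := h7 δ hδ
  have hB := E.hB
  have n0 : ∀ k, 0 ≤ N k := fun k => Nat.cast_nonneg _
  have s1 := hB.b3.summ (1 + δ) (by linarith)
  have s2 := Real.summable_abs_int_rpow (b := 1 + δ) (by linarith)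
  have s3 := s1.mul_of_nonneg (s2.mul_of_nonneg s1 (fun _ => by positivity)
    fun k => Real.rpow_nonneg (n0 k) _) (fun k => Real.rpow_nonneg (n0 k) _)
    fun k => mul_nonneg (by positivity) (Real.rpow_nonneg (n0 _) _)
  set W : O × ℤ × O → ℝ := fun τ =>
    N τ.1 ^ (-(1 + δ)) * (|(τ.2.1 : ℝ)| ^ (-(1 + δ)) * N τ.2.2 ^ (-(1 + δ))) with hW
  set K := Real.exp ((1 / 2 + 2 * δ) ^ 2 / 4) * 3 * C ^ 2 * 3 ^ δ with hK
  refine ⟨K * ∑' τ, W τ, fun A Y A0 Y1 => ?_⟩
  have Y0 : 0 < Y := by linarith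
  have sg : Summable (gA A) := by simpa using (h6 A A0).1
  have g0 : ∀ a, 0 ≤ gA A a := fun a => (Real.exp_pos _).le
  have sV := sumV E Y0
  set H : ℤ → O → ℂ := fun a k => (if IsCoprime a 3 then (gA A a : ℂ) else 0) *
    if Prim k then cc k * cub (a : O) k * VV Y (N k) else 0 with hH
  have sH : Summable (Function.uncurry H) := by
    refine Summable.of_norm_bounded (sg.mul_of_nonneg sV g0 fun k => ?_) fun q => ?_
    · have := vv0 Y (N k)
      have := n0 k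
      simp only [Pi.zero_apply]
      split_ifs <;> positivity
    · simp only [hH, Function.uncurry_def, norm_mul]
      refine mul_le_mul ?_ ?_ (norm_nonneg _) (g0 _)
      · split_ifs
        · rw [norm_real, Real.norm_of_nonneg (g0 _)]
        · rw [norm_zero]; exact g0 _
      · split_ifs with h
        · rw [norm_mul, norm_mul, norm_real, Real.norm_of_nonneg (vv0 _ _)]
          refine mul_le_mul_of_nonneg_right ?_ (vv0 _ _)
          exact (mul_le_of_le_one_right (norm_nonneg _) (hB.b6.norm_le _ _)).trans (ccle E h)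
        · rw [norm_zero]
  have h1 : HasSum (fun k => ∑' a, H a k) (LL A Y) := by
    have : LL A Y = ∑' a, ∑' k, H a k := tsum_congr fun a => by
      simp only [hH, tsum_mul_left, T0]
      rw [ite_mul, zero_mul]
    rw [this, ← sH.tsum_comm]
    exact sH.prod_symm.prod.hasSum
  have h2 := (hD.2 _ _ fun k hk => by simp [hH, cc, hk]).2 h1
  have h3 : HasSum (fun k => ((if Prim k then PR (3 * Nn k) * ww k * VV Y (N k) else 0 : ℝ) : ℂ))
      (SS Y : ℂ) := by
    refine Complex.hasSum_ofReal.2 (Summable.hasSum (Summable.of_norm_bounded sV fun k => ?_))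
    split_ifs with h
    · have k0 : 3 * Nn k ≠ 0 := by
        have := hB.b2.N_mod k h
        omega
      obtain ⟨-, a1, a2⟩ := h7 _ k0
      have a3 : 0 ≤ PR (3 * Nn k) := nonneg_of_mul_nonneg_right (le_trans (by positivity) a1) C0
      obtain ⟨w0, w1⟩ := wwle E h
      have := vv0 Y (N k)
      rw [Real.norm_of_nonneg (by positivity)]
      exact mul_le_mul_of_nonneg_right ((mul_le_of_le_one_left w0 a2).trans w1) this
    · rw [norm_zero]
  have h4 := ((hD.2 _ _ fun k hk => by simp [ww, hk]).2 h3).mul_left ((c1 * A ^ (2 / 3 : ℝ) : ℝ) : ℂ)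
  set R : O × ℤ × O → ℂ := fun τ => if Tr τ then (VV Y (N (kq τ)) : ℂ) *
    (CP τ A - ((c1 * A ^ (2 / 3 : ℝ) * (PR (3 * Nn (kq τ)) * ww (kq τ)) : ℝ) : ℂ)) else 0 with hR
  have bR : ∀ τ, ‖R τ‖ ≤ K * A * Y ^ (1 / 2 + 2 * δ) * W τ := fun τ => by
    simp only [hR]
    split_ifs with h
    swap
    · have := n0 τ.1
      have := n0 τ.2.2
      rw [norm_zero]
      positivity
    have x1 := hB.b1.N_one_le _ (hB.b2.ne _ h.1)
    have z1 := hB.b1.N_one_le _ (hB.b2.ne _ h.2.2.2.1)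
    have y1 : 1 ≤ |(τ.2.1 : ℝ)| := by exact_mod_cast Int.one_le_abs h.2.1.ne_zero
    have er : (RR τ : ℝ) = 3 * |(τ.2.1 : ℝ)| * N τ.1 := by simp [RR, N]
    have r0 : RR τ ≠ 0 := by
      rw [← Nat.cast_ne_zero (R := ℝ), er]; positivity
    have d1 := (h7 _ r0).1
    have d2 := (h7 _ h.2.2.2.2.1.ne_zero).1
    rw [er] at d1
    have v := E.hL.le (1 / 2 + 2 * δ) Y _ Y0 (lt_of_lt_of_le one_pos
      (hB.b1.N_one_le _ (hB.b2.ne _ (hD.1 τ h).1)))
    have i := ineq x1 y1 z1 Y0 hδ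
    rw [norm_mul, norm_real, Real.norm_of_nonneg (vv0 _ _)]
    rw [sq_abs, ← (hD.1 τ h).2.2.1] at i
    have := n0 (kq τ)
    calc _ ≤ Real.exp ((1 / 2 + 2 * δ) ^ 2 / 4) * (Y / N (kq τ)) ^ (1 / 2 + 2 * δ) *
          (3 * A * √(N τ.1) / √(N τ.2.2) * (C * (3 * |(τ.2.1 : ℝ)| * N τ.1) ^ δ) *
            (C * N τ.2.2 ^ δ)) := by
          refine mul_le_mul v ((hC τ A h A0).trans ?_) (norm_nonneg _) (by positivity)
          gcongr
          exact d2
      _ = Real.exp ((1 / 2 + 2 * δ) ^ 2 / 4) * 3 * C ^ 2 * A * ((Y / N (kq τ)) ^ (1 / 2 + 2 * δ) *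
          (√(N τ.1) / √(N τ.2.2) * (3 * |(τ.2.1 : ℝ)| * N τ.1) ^ δ * N τ.2.2 ^ δ)) := by ring
      _ ≤ Real.exp ((1 / 2 + 2 * δ) ^ 2 / 4) * 3 * C ^ 2 * A *
          (3 ^ δ * Y ^ (1 / 2 + 2 * δ) * W τ) := by gcongr
      _ = _ := by rw [hK]; ring
  have sb := s3.mul_left (K * A * Y ^ (1 / 2 + 2 * δ))
  have sR : Summable R := Summable.of_norm_bounded sb bR
  have h5 : HasSum (fun τ => if Tr τ then (VV Y (N (kq τ)) : ℂ) * NP τ A else 0)
      (LL A Y - ((c1 * A ^ (2 / 3 : ℝ) : ℝ) : ℂ) * SS Y - ∑' τ, R τ) := by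
    refine ((h2.sub h4).sub sR.hasSum).congr_fun fun τ => ?_
    simp only [hR]
    split_ifs with h h'
    · have e : ∑' a, H a (kq τ) = VV Y (N (kq τ)) * (CP τ A + NP τ A) := by
        rw [← hP τ A h A0, ← tsum_mul_left, ← tsum_mul_left]
        refine tsum_congr fun a => ?_
        simp only [hH, if_pos h']
        split_ifs <;> ring
      rw [e]
      push_cast
      ring
    · exact absurd (hD.1 τ h).1 h'
    · simp
  rw [NCs, h5.tsum_eq, ofReal_mul _ (SS Y), sub_sub_cancel]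
  refine (tsum_of_norm_bounded sb.hasSum bR).trans_eq ?_
  rw [tsum_mul_left]
  ring

end Vale.Agent.P006.K
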