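import Vale.Agent.P006.K0

/-! P006 row MZ: the rational weight against a Gaussian. -/

noncomputable section
open Filter Topology ArithmeticFunction
open scoped Classical

namespace Vale.Agent.P006.K

namespace MZM

theorem conv (k : ℕ) (F : ℕ → ℕ → ℝ) (h0 : ∀ c, F 0 c = 0) (h1 : ∀ t, Summable fun c => |F t c|)
    (h2 : Summable fun t => ∑' c, |F t c|) :
    ∑' n, ∑' t, (if t ^ k ∣ n then F t (n / t ^ k) else 0) = ∑' t, ∑' c, F t c := by
  have a : ∀ G : ℕ → ℕ → ℝ, (∀ c, G 0 c = 0) → ∀ t x, HasSum (G t) x →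
      HasSum (fun n => if t ^ k ∣ n then G t (n / t ^ k) else 0) x := by
    intro G g0 t x hx
    by_cases e : t = 0
    · subst e
      rw [show G 0 = fun _ => 0 from funext g0] at hx ⊢
      simpa using hx
    · have p : t ^ k ≠ 0 := pow_ne_zero _ e
      rw [← (mul_right_injective₀ p).hasSum_iff fun n hn => if_neg fun ⟨c, hc⟩ => hn ⟨c, hc.symm⟩]
      refine (congrArg (HasSum · x) (funext fun c => ?_)).mpr hx
      simp [Nat.mul_div_cancel_left _ (Nat.pos_of_ne_zero p)]
  have b := fun t => a (fun t c => |F t c|) (by simp [h0]) t _ (h1 t).hasSum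
  have s : Summable (Function.uncurry fun t n => if t ^ k ∣ n then F t (n / t ^ k) else 0) := by
    rw [← summable_abs_iff, summable_prod_of_nonneg fun _ => abs_nonneg _]
    simp only [Function.uncurry, apply_ite abs, abs_zero]
    exact ⟨fun t => (b t).summable, by simpa only [fun t => (b t).tsum_eq] using h2⟩
  rw [s.tsum_comm]
  exact tsum_congr fun t => (a F h0 t _ (h1 t).of_abs.hasSum).tsum_eq

theorem mob {s : ℕ} (hs : s ≠ 0) (x : ℝ) (f : ℕ → ℝ)
    (hf : ∀ t, f t = if t ∣ s then (moebius t : ℝ) * x else 0) : ∑' t, f t = if s = 1 then x else 0 := by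
  rw [tsum_eq_sum (s := s.divisors) fun t ht => by
    rw [hf, if_neg fun c => ht (Nat.mem_divisors.2 ⟨c, hs⟩)]]
  rw [Finset.sum_congr rfl fun t ht => by rw [hf, if_pos (Nat.dvd_of_mem_divisors ht)], ← Finset.sum_mul]
  have := congrArg (fun g : ArithmeticFunction ℝ => g s) (coe_moebius_mul_coe_zeta (R := ℝ))
  simp only [coe_mul_zeta_apply, intCoe_apply, one_apply] at this
  rw [this]
  simp

theorem pr {R : ℕ} (hR : R ≠ 0) : ∑ e ∈ R.divisors, (moebius e : ℝ) * (e : ℝ)⁻¹ = PR R := by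
  have q : Squarefree (∏ p ∈ R.primeFactors, p) :=
    Finset.squarefree_prod_of_pairwise_isCoprime (fun p hp q hq h => Nat.coprime_iff_isRelPrime.1
      ((Nat.coprime_primes (Nat.prime_of_mem_primeFactors hp) (Nat.prime_of_mem_primeFactors hq)).2 h))
      fun p hp => (Nat.prime_of_mem_primeFactors hp).squarefree
  have := IsMultiplicative.prodPrimeFactors_one_sub_of_squarefree (R := ℝ) ⟨fun n => (n : ℝ)⁻¹, by simp⟩
    ⟨by simp, fun _ => by simp [mul_comm]⟩ q
  rw [Nat.primeFactors_prod_primeFactors] at this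
  refine Eq.trans (Finset.sum_subset (Nat.divisors_subset_of_dvd hR R.prod_primeFactors_dvd)
    fun e he h => ?_).symm this.symm
  rw [moebius_eq_zero_of_not_squarefree fun c => h (Nat.mem_divisors.2 ⟨?_, q.ne_zero⟩)]
  · simp
  · conv_lhs => rw [← Nat.prod_primeFactors_of_squarefree c]
    exact Finset.prod_dvd_prod_of_subset _ _ _ (Nat.primeFactors_mono (Nat.dvd_of_mem_divisors he) hR)

/-- weighted Gaussian sum -/
def S (w : ℕ → ℝ) (A : ℝ) : ℝ := ∑' n, w n * gA A n
/-- basic weight -/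
def w0 (n : ℕ) : ℝ := (n : ℝ) ^ (-1 / 3 : ℝ)

theorem w00 (n) : 0 ≤ w0 n := Real.rpow_nonneg n.cast_nonneg _
theorem g0 (A a) : 0 ≤ gA A a := (Real.exp_pos _).le
theorem mu1 (t : ℕ) : |(moebius t : ℝ)| ≤ 1 := by exact_mod_cast abs_moebius_le_one

theorem step {K c C : ℝ} (k : ℕ) (a w w' u : ℕ → ℝ)
    (hs : ∀ A, 0 < A → Summable fun n => w0 n * gA A n)
    (hK : ∀ A, 0 < A → S w0 A ≤ K * (A ^ (2 / 3 : ℝ) + A ^ (3 / 5 : ℝ))) (K0 : 0 ≤ K)
    (a0 : a 0 = 0) (hw : ∀ n, |w n| ≤ w0 n) (hu : Summable u)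
    (ha : ∀ t, t ≠ 0 → |a t| * ((t : ℝ) ^ k) ^ (-(3 / 5) : ℝ) ≤ u t) (u0 : 0 ≤ u 0)
    (hw' : ∀ n, w' n = ∑' t, if t ^ k ∣ n then a t * w (n / t ^ k) else 0) (hC : 0 ≤ C)
    (hP : ∀ A, 0 < A → |S w A - c * A ^ (2 / 3 : ℝ)| ≤ C * A ^ (3 / 5 : ℝ)) (A : ℝ) (hA : 0 < A) :
    |S w' A - c * (∑' t, a t * ((t : ℝ) ^ k) ^ (-(2 / 3) : ℝ)) * A ^ (2 / 3 : ℝ)| ≤
      C * (∑' t, u t) * A ^ (3 / 5 : ℝ) := by
  have T : ∀ t : ℕ, t ≠ 0 → (1 : ℝ) ≤ t ^ k := fun t h => one_le_pow₀ (Nat.one_le_cast.2 (Nat.pos_of_ne_zero h))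
  have d : ∀ t : ℕ, t ≠ 0 → ∀ θ : ℝ, (A / t ^ k) ^ θ = ((t : ℝ) ^ k) ^ (-θ) * A ^ θ := fun t h θ => by
    rw [Real.div_rpow hA.le (by positivity), Real.rpow_neg (by positivity), div_eq_inv_mul]
  have ha' : ∀ t, t ≠ 0 → |a t| * ((t : ℝ) ^ k) ^ (-(2 / 3) : ℝ) ≤ u t := fun t h =>
    le_trans (mul_le_mul_of_nonneg_left (Real.rpow_le_rpow_of_exponent_le (T t h) (by norm_num))
      (abs_nonneg _)) (ha t h)
  have p : ∀ t : ℕ, t ≠ 0 → 0 < A / t ^ k := fun t h => div_pos hA (one_pos.trans_le (T t h))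
  have l : ∀ t c : ℕ, |a t * (w c * gA (A / t ^ k) c)| ≤ |a t| * (w0 c * gA (A / t ^ k) c) := fun t c => by
    rw [abs_mul, abs_mul, abs_of_nonneg (g0 _ _)]
    gcongr
    · exact g0 _ _
    · exact hw c
  have h1 : ∀ t : ℕ, Summable fun c : ℕ => |a t * (w c * gA (A / t ^ k) c)| := fun t => by
    by_cases e : t = 0
    · simp [e, a0]
    · exact Summable.of_nonneg_of_le (fun _ => abs_nonneg _) (l t) ((hs _ (p t e)).mul_left _)
  have e1 : S w' A = ∑' t, a t * S w (A / t ^ k) := by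
    simp only [S, ← tsum_mul_left]
    rw [← conv k (fun t c => a t * (w c * gA (A / t ^ k) c)) (by simp [a0]) h1]
    · refine tsum_congr fun n => ?_
      rw [hw', ← tsum_mul_right]
      refine tsum_congr fun t => ?_
      split_ifs with h
      · by_cases e : t = 0
        · simp [e, a0]
        · obtain ⟨m, rfl⟩ := h
          rw [Nat.mul_div_cancel_left _ (Nat.pos_of_ne_zero (pow_ne_zero _ e)), mul_assoc, gA, gA]
          congr 6
          push_cast
          rw [div_div_eq_mul_div, mul_comm]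
      · simp
    · refine Summable.of_nonneg_of_le (fun _ => tsum_nonneg fun _ => abs_nonneg _) (fun t => ?_)
        (hu.mul_right (K * (A ^ (2 / 3 : ℝ) + A ^ (3 / 5 : ℝ))))
      by_cases e : t = 0
      · simp only [e, a0, zero_mul, abs_zero, tsum_zero]
        positivity
      · refine ((h1 t).tsum_le_tsum (l t) ((hs _ (p t e)).mul_left _)).trans ?_
        rw [tsum_mul_left]
        refine (mul_le_mul_of_nonneg_left (hK _ (p t e)) (abs_nonneg _)).trans ?_
        rw [d t e, d t e]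
        have b1 := mul_le_mul_of_nonneg_right (ha t e) (show 0 ≤ K * A ^ (3 / 5 : ℝ) by positivity)
        have b2 := mul_le_mul_of_nonneg_right (ha' t e) (show 0 ≤ K * A ^ (2 / 3 : ℝ) by positivity)
        linarith
  have m : Summable fun t => a t * ((t : ℝ) ^ k) ^ (-(2 / 3) : ℝ) := by
    refine Summable.of_norm_bounded hu fun t => ?_
    by_cases e : t = 0
    · simpa [e, a0] using u0
    · rw [norm_mul, Real.norm_of_nonneg (Real.rpow_nonneg (by positivity) _)]
      exact ha' t e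
  have r : ∀ t, ‖a t * S w (A / t ^ k) - c * (a t * ((t : ℝ) ^ k) ^ (-(2 / 3) : ℝ)) * A ^ (2 / 3 : ℝ)‖ ≤
      C * u t * A ^ (3 / 5 : ℝ) := fun t => by
    by_cases e : t = 0
    · simp only [e, a0, zero_mul, mul_zero, sub_zero, norm_zero]
      positivity
    · have b1 := mul_le_mul_of_nonneg_left (hP _ (p t e)) (abs_nonneg (a t))
      have b2 := mul_le_mul_of_nonneg_right (ha t e) (show 0 ≤ C * A ^ (3 / 5 : ℝ) by positivity)
      rw [← abs_mul, d t e, d t e] at b1
      refine le_trans (le_of_eq ?_) (b1.trans (by linarith))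
      rw [Real.norm_eq_abs]
      congr 1
      ring
  have su := (hu.mul_left C).mul_right (A ^ (3 / 5 : ℝ))
  have m' := (m.mul_left c).mul_right (A ^ (2 / 3 : ℝ))
  have s2 := (Summable.of_norm_bounded su r).add m'
  simp only [sub_add_cancel] at s2
  rw [e1, ← tsum_mul_left, ← tsum_mul_right, ← s2.tsum_sub m', ← tsum_mul_left, ← tsum_mul_right]
  exact tsum_of_norm_bounded su.hasSum r

theorem uniq {b u b' u' : ℕ} (h : Squarefree b) (h' : Squarefree b') (hu : u ≠ 0) (e : b * u ^ 3 = b' * u' ^ 3) :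
    u = u' := by
  have hu' : u' ≠ 0 := by
    rintro rfl
    simp [hu, h.ne_zero] at e
  refine Nat.eq_of_factorization_eq hu hu' fun p => ?_
  have := congrArg (fun n => n.factorization p) e
  simp only [Nat.factorization_mul h.ne_zero (pow_ne_zero 3 hu), Nat.factorization_pow,
    Nat.factorization_mul h'.ne_zero (pow_ne_zero 3 hu'), Finsupp.add_apply, Finsupp.smul_apply,
    smul_eq_mul] at this
  have := h.natFactorization_le_one p
  have := h'.natFactorization_le_one p
  omega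

theorem mm1 (n) : 0 ≤ mm n ∧ mm n ≤ 1 := by
  unfold mm
  split_ifs with h
  · exact ⟨by positivity, Real.rpow_le_one_of_one_le_of_nonpos
      (Nat.one_le_cast.2 (Nat.pos_of_ne_zero h.choose_spec.1.ne_zero)) (by norm_num)⟩
  · norm_num

theorem w0m (a b : ℕ) : w0 (a * b) = w0 a * w0 b := by
  rw [w0, Nat.cast_mul, Real.mul_rpow a.cast_nonneg b.cast_nonneg, w0, w0]

theorem ind (a b R : ℕ) (x y : ℝ) : (if (a * b).Coprime R then x * y else 0) =
    (if a.Coprime R then x else 0) * (if b.Coprime R then y else 0) := by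
  rw [ite_zero_mul_ite_zero]
  exact if_congr Nat.coprime_mul_iff_left rfl rfl

theorem pw (t k : ℕ) (x y z : ℝ) (ht : t ≠ 0) (h : x + k * y = z) :
    (t : ℝ) ^ x * ((t : ℝ) ^ k) ^ y = (t : ℝ) ^ z := by
  rw [← Real.rpow_natCast, ← Real.rpow_mul t.cast_nonneg, ← Real.rpow_add (Nat.cast_pos.2 (Nat.pos_of_ne_zero ht)), h]

end MZM

open MZM

theorem mzS (_E : Env) (hE : EMStmt) : MZStmt := by
  obtain ⟨-, c0, -, ⟨C, hC⟩, -, h6, h7⟩ := hE
  have sg : ∀ A, 0 < A → Summable fun a : ℤ => gA A a := fun A hA => by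
    obtain ⟨_, h⟩ := h6 0 1 le_rfl one_pos
    simpa using (h A hA).1
  have w1 : ∀ n, w0 n ≤ 1 := fun n => by
    rcases n with _ | n
    · simp [w0]
    · exact Real.rpow_le_one_of_one_le_of_nonpos (Nat.one_le_cast.2 n.succ_pos) (by norm_num)
  have hs : ∀ A, 0 < A → Summable fun n => w0 n * gA A n := fun A hA =>
    Summable.of_nonneg_of_le (fun n => mul_nonneg (w00 n) (g0 _ _))
      (fun n => mul_le_of_le_one_left (g0 _ _) (w1 n)) ((sg A hA).comp_injective Nat.cast_injective)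
  have z0 : w0 0 = 0 := by simp [w0]
  have C0 : 0 ≤ C := by simpa using (abs_nonneg _).trans (hC 1 one_pos)
  have P0 : ∀ A, 0 < A → |S w0 A - c2 / 2 * A ^ (2 / 3 : ℝ)| ≤ C * A ^ (3 / 5 : ℝ) := fun A hA => by
    rw [S, (hs A hA).tsum_eq_zero_add, z0, zero_mul, zero_add]
    exact hC A hA
  have hK : ∀ A, 0 < A → S w0 A ≤ (c2 + C) * (A ^ (2 / 3 : ℝ) + A ^ (3 / 5 : ℝ)) := fun A hA => by
    have := (abs_le.1 (P0 A hA)).2
    have := Real.rpow_pos_of_pos hA (2 / 3)
    have := Real.rpow_pos_of_pos hA (3 / 5)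
    nlinarith
  have su : Summable fun t : ℕ => (t : ℝ) ^ (-(9 / 5) : ℝ) := Real.summable_nat_rpow.2 (by norm_num)
  obtain ⟨U, hU⟩ : ∃ U, U = ∑' t : ℕ, (t : ℝ) ^ (-(9 / 5) : ℝ) := ⟨_, rfl⟩
  have U0 : 0 ≤ U := hU ▸ tsum_nonneg fun _ => by positivity
  intro ε hε
  obtain ⟨D, D0, hD⟩ := h7 ε hε
  refine ⟨2 * (C * D * U * U), fun R A h3 hR hA => ?_⟩
  have R1 : ¬ Nat.Coprime 0 R := fun h => by
    rw [Nat.coprime_zero_left] at h
    omega
  have P3 := step 1 (fun e => if e ∣ R then moebius e * w0 e else 0) w0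
    (fun n => if n.Coprime R then w0 n else 0) (fun e => if e ∈ R.divisors then 1 else 0) hs hK (by positivity)
    (by simp) (fun n => (abs_of_nonneg (w00 n)).le)
    (summable_of_ne_finset_zero (s := R.divisors) fun e h => if_neg h) (fun t ht => by
      by_cases h : t ∣ R
      · rw [if_pos h, if_pos (Nat.mem_divisors.2 ⟨h, hR⟩), abs_mul, abs_of_nonneg (w00 _)]
        exact mul_le_one₀ (mul_le_one₀ (mu1 t) (w00 _) (w1 _)) (by positivity)
          (Real.rpow_le_one_of_one_le_of_nonpos (by simpa using Nat.one_le_iff_ne_zero.2 ht) (by norm_num))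
      · simp [h]) (by simp) (fun n => by
      refine (mob (Nat.gcd_ne_zero_right hR) (w0 n) _ fun t => ?_).symm
      simp only [pow_one, Nat.dvd_gcd_iff]
      by_cases h : t ∣ n
      · obtain ⟨m, rfl⟩ := h
        by_cases h : t ∣ R
        · simp [h, Nat.mul_div_cancel_left _ (Nat.pos_of_dvd_of_pos h (Nat.pos_of_ne_zero hR)), w0m, mul_assoc]
        · simp [h]
      · simp [h]) C0 P0
  rw [tsum_eq_sum (s := R.divisors) fun t ht => by
      rw [if_neg fun c => ht (Nat.mem_divisors.2 ⟨c, hR⟩), zero_mul],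
    Finset.sum_congr rfl fun t ht => by
      rw [if_pos (Nat.dvd_of_mem_divisors ht), mul_assoc, w0, pw t 1 _ _ (-1) (Nat.pos_of_mem_divisors ht).ne'
        (by norm_num), Real.rpow_neg_one], pr hR, tsum_eq_sum (s := R.divisors) fun e h => if_neg h,
    Finset.sum_congr rfl fun t ht => if_pos ht, Finset.sum_const, nsmul_eq_mul, mul_one] at P3
  have P2 := step 2 (fun t => if t.Coprime R then moebius t * (t : ℝ) ^ (-(2 / 3) : ℝ) else 0) _
    (fun n => if Squarefree n ∧ n.Coprime R then w0 n else 0) _ hs hK (by positivity)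
    (by simp) (fun n => by split_ifs <;> simp [abs_of_nonneg (w00 n), w00]) su (fun t ht => by
      split_ifs
      · rw [abs_mul, abs_of_nonneg (a := (t : ℝ) ^ _) (by positivity), mul_assoc, pw t 2 _ _ _ ht rfl]
        exact (mul_le_of_le_one_left (by positivity) (mu1 t)).trans (Real.rpow_le_rpow_of_exponent_le
          (Nat.one_le_cast.2 (Nat.pos_of_ne_zero ht)) (by norm_num))
      · simp only [abs_zero, zero_mul]
        positivity) (by positivity) (fun n => by
      by_cases n0 : n = 0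
      · simp [n0, z0]
      obtain ⟨b, s, b0, s0, rfl, hb⟩ := Nat.sq_mul_squarefree_of_pos (Nat.pos_of_ne_zero n0)
      rw [mob s0.ne' (if (s ^ 2 * b).Coprime R then w0 (s ^ 2 * b) else 0)]
      · by_cases h : s = 1
        · simp [h, hb]
        · rw [if_neg h, if_neg fun c => h (Nat.isUnit_iff.1 (c.1 s ⟨b, by ring⟩))]
      intro t
      by_cases q : Squarefree t
      · have i : t ^ 2 ∣ s ^ 2 * b ↔ t ∣ s := ⟨fun c => (q.dvd_pow_iff_dvd two_ne_zero).1
          (hb.dvd_of_squarefree_of_mul_dvd_mul_left (sq t ▸ c)), fun c => (pow_dvd_pow_of_dvd c 2).mul_right _⟩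
        rw [← if_congr i rfl rfl]
        refine ite_congr rfl (fun ⟨m, hm⟩ => ?_) fun _ => rfl
        rw [hm, Nat.mul_div_cancel_left _ (pow_pos (Nat.pos_of_ne_zero q.ne_zero) 2), w0m, ind, ← mul_assoc,
          if_congr (Nat.coprime_pow_left_iff two_pos t R) rfl rfl, mul_ite (t.Coprime R), mul_zero, w0.eq_1 (t ^ 2),
          Nat.cast_pow, ← Real.rpow_natCast, ← Real.rpow_mul t.cast_nonneg]
        norm_num
      · simp [moebius_eq_zero_of_not_squarefree q]) (by positivity) P3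
  have P1 := step 3 (fun t => if t.Coprime R then 1 else 0) _
    (fun n => if n.Coprime R then mm n else 0) _ hs hK (by positivity)
    (if_neg R1) (fun n => by split_ifs <;> simp [abs_of_nonneg (w00 n), w00]) su (fun t ht => by
      have := pw t 3 0 (-(3 / 5)) (-(9 / 5)) ht (by norm_num)
      split_ifs
      · simpa using this.le
      · simp only [abs_zero, zero_mul]
        positivity) (by positivity) (fun n => by
      by_cases n0 : n = 0
      · simp [n0, R1]
      unfold mm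
      by_cases h : ∃ p : ℕ × ℕ, Squarefree p.1 ∧ n = p.1 * p.2 ^ 3
      · rw [dif_pos h]
        obtain ⟨h1, h2⟩ := h.choose_spec
        generalize h.choose = p at h1 h2
        obtain ⟨b, u⟩ := p
        simp only at h1 h2 ⊢
        have u0 : u ≠ 0 := fun e => n0 (by simp [h2, e])
        rw [tsum_eq_single u fun t ht => ?_]
        · rw [h2, if_pos (dvd_mul_left _ _), Nat.mul_div_cancel _ (pow_pos (Nat.pos_of_ne_zero u0) 3)]
          rw [mul_comm b, ← one_mul ((b : ℝ) ^ _), ind, if_congr (Nat.coprime_pow_left_iff three_pos u R) rfl rfl,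
            if_congr (and_iff_right h1) rfl rfl, w0]
        · split_ifs with c1 c2 c3
          any_goals simp
          exact absurd (uniq h1 c3.1 u0 (h2.symm.trans (Nat.div_mul_cancel c1).symm)).symm ht
      · rw [dif_neg h, ite_self]
        refine (tsum_congr (fun t => ?_)).trans tsum_zero |>.symm
        split_ifs with c1 c2 c3
        any_goals simp
        exact absurd ⟨(_, t), c3.1, (Nat.div_mul_cancel c1).symm⟩ h) (by positivity) P2 A hA
  have s2 : Summable fun t : ℕ => (t : ℝ) ^ (-2 : ℝ) := Real.summable_nat_rpow.2 (by norm_num)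
  have one : (∑' t : ℕ, (if t.Coprime R then moebius t * (t : ℝ) ^ (-(2 / 3) : ℝ) else 0) *
      ((t : ℝ) ^ 2) ^ (-(2 / 3) : ℝ)) *
      ∑' t : ℕ, (if t.Coprime R then 1 else 0) * ((t : ℝ) ^ 3) ^ (-(2 / 3) : ℝ) = 1 := by
    obtain ⟨f, hf⟩ : ∃ f : ℕ → ℝ, f = fun t => if t.Coprime R then (t : ℝ) ^ (-2 : ℝ) else 0 := ⟨_, rfl⟩
    have f0 : f 0 = 0 := by rw [hf]; exact if_neg R1
    have fb : ∀ t, |f t| ≤ (t : ℝ) ^ (-2 : ℝ) := fun t => by
      rw [hf]
      dsimp only
      split_ifs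
      · exact (abs_of_nonneg (by positivity)).le
      · rw [abs_zero]
        positivity
    have sf : Summable fun t => |f t| := Summable.of_nonneg_of_le (fun _ => abs_nonneg _) fb s2
    have fm : ∀ a b, f (a * b) = f a * f b := fun a b => by
      simp only [hf, Nat.cast_mul, Real.mul_rpow a.cast_nonneg b.cast_nonneg, ind]
    have x := conv 1 (fun t c => moebius t * f t * f c) (by simp) (fun t => by
      simpa only [abs_mul] using sf.mul_left _) (by
      simp only [abs_mul, tsum_mul_left]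
      exact (Summable.of_nonneg_of_le (fun _ => by positivity)
        (fun t => mul_le_of_le_one_left (abs_nonneg _) (mu1 t)) sf).mul_right _)
    rw [tsum_eq_single 1 fun n n1 => ?_, mob one_ne_zero 1 _ fun t => ?_] at x
    · simp only [tsum_mul_left, tsum_mul_right, if_true] at x
      refine Eq.trans ?_ x.symm
      congr 1 <;> refine tsum_congr fun t => ?_ <;> rw [hf] <;> dsimp only <;> split_ifs with c
      any_goals simp only [zero_mul, mul_zero]
      · rw [mul_assoc, pw t 2 _ _ (-2) (fun e => R1 (e ▸ c)) (by norm_num)]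
      · simpa using pw t 3 0 (-(2 / 3)) (-2) (fun e => R1 (e ▸ c)) (by norm_num)
    · by_cases e : t = 1 <;> simp [e, hf]
    · by_cases n0 : n = 0
      · simp [n0, f0]
      rw [mob n0 (f n) _ fun t => ?_, if_neg n1]
      rw [pow_one]
      split_ifs with c
      · rw [mul_assoc, ← fm, Nat.mul_div_cancel' c]
      · rfl
  have sz : Summable fun a : ℤ => if IsCoprime a R then mm a.natAbs * gA A a else 0 :=
    Summable.of_norm_bounded (sg A hA) fun a => by
      split_ifs
      · rw [Real.norm_of_nonneg (mul_nonneg (mm1 _).1 (g0 _ _))]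
        exact mul_le_of_le_one_left (g0 _ _) (mm1 _).2
      · simpa using g0 _ _
  have ev := tsum_nat_add_neg sz
  rw [if_neg (c := IsCoprime (0 : ℤ) R) fun c => R1 (Nat.isCoprime_iff_coprime.1 c), add_zero] at ev
  have e2 : ∑' a : ℤ, (if IsCoprime a R then mm a.natAbs * gA A a else 0) =
      2 * S (fun n => if n.Coprime R then mm n else 0) A := by
    rw [← ev, S, ← tsum_mul_left]
    refine tsum_congr fun n => ?_
    simp only [IsCoprime.neg_left_iff, Nat.isCoprime_iff_coprime, Int.natAbs_neg, Int.natAbs_natCast, gA,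
      Int.cast_neg, neg_div, neg_sq]
    split_ifs <;> ring
  rw [mul_assoc (c2 / 2 * PR R), one, ← hU] at P1
  rw [e2, show ∀ x : ℝ, 2 * x - c2 * PR R * A ^ (2 / 3 : ℝ) = 2 * (x - c2 / 2 * PR R * 1 * A ^ (2 / 3 : ℝ)) from
    fun x => by ring, abs_mul, abs_two]
  have := mul_le_mul_of_nonneg_left (hD R hR).1 (show 0 ≤ C * U * U * A ^ (3 / 5 : ℝ) by positivity)
  linarith

end Vale.Agent.P006.K
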