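import Vale.Agent.P006.K.NC1

/-! P006 branch K, row NC. -/

noncomputable section
open Complex MeasureTheory Filter Topology
open scoped Classical ComplexConjugate

namespace Vale.Agent.P006.K
open Vale.Agent.P026

namespace NCM

abbrev JJ := (O × ℤ × O) × ℕ × ℤ

def Cd (j : JJ) : Prop := Tr j.1 ∧ j.2.1 ∈ (RR j.1).divisors ∧ ¬ IsCb (j.1.2.1 * j.2.1 * j.2.2 ^ 2)
def co (Y : ℝ) (j : JJ) : ℂ := if Cd j then
  (VV Y (N (kq j.1)) : ℂ) * (pref j.1 j.2.1 : ℂ) * cub ((j.1.2.1 * j.2.1 * j.2.2 ^ 2 : ℤ) : O) j.1.2.2 else 0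
def be (j : JJ) : ℝ := j.2.2 / (j.2.1 * N j.1.2.2)
def ff (A0 Y : ℝ) (j : JJ) (A : ℝ) : ℂ :=
  co Y j * ((VV A0 A * Real.exp (-(Real.pi * (be j * A) ^ 2)) : ℝ) : ℂ)
def gq (Y : ℝ) (j : JJ) : ℝ := ‖co Y j‖ / be j ^ 2

lemma h_ne {a h : ℤ} (hc : ¬ IsCb (a * h ^ 2)) : h ≠ 0 := fun h0 => hc ⟨0, by simp [h0]⟩

lemma one_le_abs {d : ℤ} (h : d ≠ 0) : (1 : ℝ) ≤ |(d : ℝ)| := by exact_mod_cast Int.one_le_abs h

lemma RR_eq (τ : O × ℤ × O) : (RR τ : ℝ) = 3 * |(τ.2.1 : ℝ)| * N τ.1 := by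
  simp [RR, N]

lemma facts (E : Env) {j : JJ} (h : Cd j) : 1 ≤ N j.1.1 ∧ (1 : ℝ) ≤ |(j.1.2.1 : ℝ)| ∧ 1 ≤ N j.1.2.2 ∧
    (1 : ℝ) ≤ j.2.1 ∧ (j.2.1 : ℝ) ≤ 3 * |(j.1.2.1 : ℝ)| * N j.1.1 ∧ (1 : ℝ) ≤ |(j.2.2 : ℝ)| := by
  refine ⟨E.hB.b1.N_one_le _ (E.hB.b2.ne _ h.1.1), one_le_abs h.1.2.1.ne_zero,
    E.hB.b1.N_one_le _ (E.hB.b2.ne _ h.1.2.2.2.1), ?_, ?_, one_le_abs (h_ne h.2.2)⟩
  · exact_mod_cast Nat.pos_of_mem_divisors h.2.1
  · rw [← RR_eq]
    exact_mod_cast Nat.divisor_le h.2.1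

lemma abs_mu (e : ℕ) : |((ArithmeticFunction.moebius e : ℤ) : ℝ)| ≤ 1 := by
  exact_mod_cast ArithmeticFunction.abs_moebius_le_one

lemma ff_le (E : Env) (A0 Y : ℝ) (j : JJ) {A : ℝ} (hA : 0 < A) :
    ‖ff A0 Y j A‖ ≤ gq Y j * (VV A0 A / A ^ 2) := by
  have v0 : 0 ≤ VV A0 A := (Real.exp_pos _).le
  by_cases h : Cd j
  · obtain ⟨-, -, a3, a4, -, a6⟩ := facts E h
    have b0 : be j ≠ 0 := div_ne_zero (abs_pos.1 (by linarith)) (by positivity)
    have x0 : 0 < (be j * A) ^ 2 := by positivity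
    have : Real.exp (-(Real.pi * (be j * A) ^ 2)) ≤ ((be j * A) ^ 2)⁻¹ := by
      rw [Real.exp_neg]
      refine inv_anti₀ x0 ?_
      nlinarith [Real.add_one_le_exp (Real.pi * (be j * A) ^ 2), Real.pi_gt_three]
    rw [ff, gq, norm_mul, norm_real, Real.norm_eq_abs, abs_of_nonneg (by positivity)]
    calc _ ≤ ‖co Y j‖ * (VV A0 A * ((be j * A) ^ 2)⁻¹) := by gcongr
      _ = _ := by field_simp
  · simp [ff, gq, co, h]

lemma sO (E : Env) : Summable fun u : O => (N u ^ 2)⁻¹ :=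
  (E.hB.b3.summ 2 one_lt_two).congr fun u => by
    rw [Real.rpow_neg (show 0 ≤ N u from Nat.cast_nonneg _), Real.rpow_two]

lemma sZ : Summable fun d : ℤ => ((d : ℝ) ^ 2)⁻¹ := by
  simpa using Real.summable_one_div_int_pow.2 one_lt_two

lemma gq_sum (E : Env) (h3 : DECStmt) {Y : ℝ} (hY : 0 < Y) : Summable (gq Y) := by
  have s1 := ((sO E).mul_of_nonneg (sZ.mul_of_nonneg (sO E) (fun _ => by positivity)
    (fun _ => by positivity)) (fun _ => by positivity) (fun _ => by positivity)).mul_of_nonneg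
    ((Real.summable_nat_pow_inv.2 one_lt_two).mul_of_nonneg sZ (fun _ => by positivity)
    (fun _ => by positivity)) (fun _ => by positivity) (fun _ => by positivity)
  refine .of_nonneg_of_le (fun j => by unfold gq; positivity) (fun j => ?_)
    (s1.mul_left (81 * Real.exp 4 * Y ^ 4))
  by_cases h : Cd j
  · obtain ⟨a1, a2, a3, a4, a5, a6⟩ := facts E h
    have k := (h3.1 _ h.1).2.2.1
    have d2 : (1 : ℝ) ≤ (j.1.2.1 : ℝ) ^ 2 := by rw [← sq_abs]; nlinarith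
    have h2 : (1 : ℝ) ≤ (j.2.2 : ℝ) ^ 2 := by rw [← sq_abs]; nlinarith
    have k0 : 0 < N (kq j.1) := by rw [k]; positivity
    have v := E.hL.le 4 Y _ hY k0
    rw [show (4 : ℝ) ^ 2 / 4 = 4 by norm_num, show (Y / N (kq j.1)) ^ (4 : ℝ) = (Y / N (kq j.1)) ^ 4 by
      rw [← Real.rpow_natCast]; norm_num, k] at v
    have p : |pref j.1 j.2.1| ≤ N j.1.1 := by
      have s1 : 1 ≤ Real.sqrt (N j.1.2.2) := Real.one_le_sqrt.2 a3
      have s2 : Real.sqrt (N j.1.1) ≤ N j.1.1 := Real.sqrt_le_self_iff.2 (Or.inr a1)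
      rw [pref, abs_div, abs_mul, abs_of_nonneg (Real.sqrt_nonneg _),
        abs_of_nonneg (show 0 ≤ (j.2.1 : ℝ) * Real.sqrt (N j.1.2.2) by positivity)]
      refine (div_le_self (by positivity) (by nlinarith)).trans ?_
      exact (mul_le_of_le_one_right (Real.sqrt_nonneg _) (abs_mu _)).trans s2
    have c := E.hB.b6.norm_le ((j.1.2.1 * j.2.1 * j.2.2 ^ 2 : ℤ) : O) j.1.2.2
    have e4 : (j.2.1 : ℝ) ^ 4 ≤ 81 * ((j.1.2.1 : ℝ) ^ 2) ^ 2 * N j.1.1 ^ 4 := by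
      calc _ ≤ (3 * |(j.1.2.1 : ℝ)| * N j.1.1) ^ 4 := by gcongr
        _ = _ := by rw [← sq_abs (j.1.2.1 : ℝ)]; ring
    rw [gq, co, if_pos h, norm_mul, norm_mul, norm_real, norm_real, Real.norm_eq_abs, Real.norm_eq_abs,
      abs_of_nonneg (show 0 ≤ VV Y _ from (Real.exp_pos _).le), be, k, div_pow, mul_pow]
    generalize (j.1.2.1 : ℝ) ^ 2 = D at *
    generalize (j.2.2 : ℝ) ^ 2 = H at *
    generalize N j.1.1 = u at *
    generalize N j.1.2.2 = n at *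
    generalize (j.2.1 : ℝ) = e at *
    calc _ ≤ Real.exp 4 * (Y / (D * n * u ^ 3)) ^ 4 * u * 1 / (H / (e ^ 2 * n ^ 2)) := by gcongr
      _ = Real.exp 4 * Y ^ 4 * ((u ^ 2)⁻¹ * (D⁻¹ * (n ^ 2)⁻¹) * ((e ^ 2)⁻¹ * H⁻¹)) *
          (e ^ 4 / (D ^ 3 * u ^ 9)) := by field_simp
      _ ≤ Real.exp 4 * Y ^ 4 * ((u ^ 2)⁻¹ * (D⁻¹ * (n ^ 2)⁻¹) * ((e ^ 2)⁻¹ * H⁻¹)) * 81 := by
        gcongr
        rw [div_le_iff₀ (by positivity)]
        refine e4.trans ?_
        rw [mul_assoc]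
        gcongr <;> norm_num
      _ = _ := by ring
  · simp only [gq, co, if_neg h, norm_zero, zero_div]
    positivity

lemma phi_int (E : Env) {A0 : ℝ} (hA : 0 < A0) :
    IntegrableOn (fun A => VV A0 A / A ^ 2) (Set.Ioi 0) := by
  have h := E.hL.fwd A0 1 hA
  have h1 : IntegrableOn (fun Y : ℝ => (VV Y A0 : ℂ) * (Y : ℂ) ^ (-1 - 1 : ℂ)) (Set.Ioi 0) := by
    refine Integrable.of_integral_ne_zero ?_
    rw [h]
    refine mul_ne_zero (mul_ne_zero (ofReal_ne_zero.2 (Real.sqrt_pos.2 Real.pi_pos).ne')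
      (Complex.exp_ne_zero _)) ?_
    rw [NC1M.cpw hA]
    exact Complex.exp_ne_zero _
  refine IntegrableOn.congr_fun h1.norm (fun A (hA' : 0 < A) => ?_) measurableSet_Ioi
  have : VV A A0 = VV A0 A := by
    unfold VV
    rw [Real.log_div hA.ne' hA'.ne', Real.log_div hA'.ne' hA.ne']
    ring_nf
  rw [norm_mul, norm_cpow_eq_rpow_re_of_pos hA', norm_real, Real.norm_eq_abs, this,
    abs_of_nonneg (show 0 ≤ VV A0 A from (Real.exp_pos _).le),
    show (-1 - 1 : ℂ).re = -2 by simp; norm_num, Real.rpow_neg hA'.le, Real.rpow_two, div_eq_mul_inv]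

lemma ff_sum (E : Env) (h3 : DECStmt) (A0 : ℝ) {Y A : ℝ} (hY : 0 < Y) (hA : 0 < A) :
    Summable fun j => ff A0 Y j A :=
  .of_norm_bounded ((gq_sum E h3 hY).mul_right _) fun j => ff_le E A0 Y j hA

lemma point (E : Env) (h3 : DECStmt) (A0 : ℝ) {Y A : ℝ} (hY : 0 < Y) (hA : 0 < A) :
    ((VV A0 A / A : ℝ) : ℂ) * NCs A Y = ∑' j, ff A0 Y j A := by
  have s := ff_sum E h3 A0 hY hA
  rw [s.tsum_prod, NCs, ← tsum_mul_left]
  refine tsum_congr fun τ => ?_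
  split_ifs with ht
  · rw [(s.prod_factor τ).tsum_prod, tsum_eq_sum (s := (RR τ).divisors), NP, Finset.mul_sum,
      Finset.mul_sum]
    · refine Finset.sum_congr rfl fun e he => ?_
      rw [← tsum_mul_left, ← tsum_mul_left, ← tsum_mul_left]
      refine tsum_congr fun h => ?_
      have A0' : (A : ℂ) ≠ 0 := ofReal_ne_zero.2 hA.ne'
      split_ifs with hc
      · simp [ff, co, Cd, hc]
      · simp only [ff, co, Cd, ht, he, hc, be, tm, not_false_eq_true, and_self, if_true,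
          div_mul_eq_mul_div, ofReal_mul, ofReal_div (VV A0 A)]
        field_simp
    · intro e he
      simp [ff, co, Cd, he]
  · simp [ff, co, Cd, ht]

lemma meas (A0 Y : ℝ) (j : JJ) : AEStronglyMeasurable (ff A0 Y j) (volume.restrict (Set.Ioi 0)) := by
  refine Measurable.aestronglyMeasurable ?_
  unfold ff VV
  fun_prop

lemma main1 (E : Env) (h3 : DECStmt) {A0 Y : ℝ} (hA : 0 < A0) (hY : 0 < Y) :
    IntegrableOn (fun A => ((VV A0 A / A : ℝ) : ℂ) * NCs A Y) (Set.Ioi 0) ∧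
    HasSum (fun j => co Y j * (Kv A0 (be j) : ℂ))
      (∫ A in Set.Ioi (0 : ℝ), ((VV A0 A / A : ℝ) : ℂ) * NCs A Y) := by
  have := NC1M.cO
  have g := gq_sum E h3 hY
  have φ := phi_int E hA
  have ae : ∀ {p : ℝ → Prop}, (∀ A, 0 < A → p A) → ∀ᵐ A ∂(volume.restrict (Set.Ioi (0 : ℝ))), p A :=
    fun h => (ae_restrict_mem measurableSet_Ioi).mono h
  have hi : ∀ j, Integrable (ff A0 Y j) (volume.restrict (Set.Ioi 0)) := fun j =>
    (φ.const_mul (gq Y j)).mono' (meas A0 Y j) (ae fun A hA => ff_le E A0 Y j hA)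
  constructor
  · refine Integrable.mono' (φ.const_mul (∑' j, gq Y j)) ?_ (ae fun A hA => ?_)
    · refine aestronglyMeasurable_of_tendsto_ae (atTop : Filter (Finset JJ))
        (f := fun s A => ∑ j ∈ s, ff A0 Y j A)
        (fun s => Finset.aestronglyMeasurable_fun_sum _ fun j _ => meas A0 Y j) (ae fun A hA => ?_)
      rw [point E h3 A0 hY hA]
      exact (ff_sum E h3 A0 hY hA).hasSum
    · rw [point E h3 A0 hY hA]
      exact tsum_of_norm_bounded (g.hasSum.mul_right _) fun j => ff_le E A0 Y j hA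
  · have h := hasSum_integral_of_summable_integral_norm hi (.of_nonneg_of_le
      (fun j => integral_nonneg fun _ => norm_nonneg _) (fun j => by
        rw [← integral_const_mul]
        exact integral_mono_ae (hi j).norm (φ.const_mul _) (ae fun A hA => ff_le E A0 Y j hA))
      (g.mul_right (∫ A in Set.Ioi (0 : ℝ), VV A0 A / A ^ 2)))
    rw [integral_congr_ae (ae fun A hA => point E h3 A0 hY hA)]
    have e : ∀ j, ∫ A in Set.Ioi (0 : ℝ), ff A0 Y j A = co Y j * (Kv A0 (be j) : ℂ) := fun j => by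
      unfold ff
      rw [integral_const_mul, integral_complex_ofReal, Kv]
    simpa only [e] using h

def sg' : ((O × ℤ) × ℕ × ℤ × O) ≃ JJ where
  toFun i := ((i.1.1, i.1.2, i.2.2.2), i.2.1, i.2.2.1)
  invFun j := ((j.1.1, j.1.2.1), j.2.1, j.2.2, j.1.2.2)
  left_inv _ := rfl
  right_inv _ := rfl

lemma inner (E : Env) (h3 : DECStmt) {A0 Y : ℝ} (hY : 0 < Y) (u : O) (d : ℤ) (e : ℕ) (h : ℤ) :
    ∑' n, co Y ((u, d, n), e, h) * (Kv A0 (be ((u, d, n), e, h)) : ℂ) =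
      if Cd ((u, d, 1), e, h) then
        ((Real.sqrt (N u) * (ArithmeticFunction.moebius e : ℤ) / e : ℝ) : ℂ) *
        ∑' n, if Prim n ∧ Squarefree (Nn n) then cub ((d * e * h ^ 2 : ℤ) : O) n *
          ((VV (Y / (d ^ 2 * N u ^ 3)) (N n) / Real.sqrt (N n) * Kv A0 (h / (e * N n)) : ℝ) : ℂ) else 0
      else 0 := by
  have n1 : Squarefree (Nn 1) := by
    rw [(E.hB.b1.unit_iff 1).1 isUnit_one]; exact squarefree_one
  split_ifs with hc
  · rw [← tsum_mul_left]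
    refine tsum_congr fun n => ?_
    obtain ⟨a1, a2, -⟩ := facts E hc
    split_ifs with hn
    · by_cases cp : IsCoprime (d : O) n
      · have c : Cd ((u, d, n), e, h) := ⟨⟨hc.1.1, hc.1.2.1, hc.1.2.2.1, hn.1, hn.2, cp⟩, hc.2⟩
        have k := (h3.1 _ c.1).2.2.1
        have d2 : (0 : ℝ) < (d : ℝ) ^ 2 := by rw [← sq_abs]; positivity
        have n0 : 0 < N n := lt_of_lt_of_le one_pos (facts E c).2.2.1
        simp only at k a1
        rw [← E.hL.scale Y _ _ hY n0 (by positivity)]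
        simp only [co, if_pos c, pref, be, k]
        rw [show (d : ℝ) ^ 2 * N n * N u ^ 3 = d ^ 2 * N u ^ 3 * N n by ring]
        push_cast
        ring
      · rw [E.hB.b6.zero _ n (E.hB.b2.ne n hn.1) fun h' => cp (by
          push_cast at h'
          exact h'.of_mul_left_left.of_mul_left_left)]
        simp [co, Cd, Tr, cp]
    · have : ¬ Cd ((u, d, n), e, h) := fun c => hn ⟨c.1.2.2.2.1, c.1.2.2.2.2.1⟩
      simp [co, this]
  · have : ∀ n, ¬ Cd ((u, d, n), e, h) := fun n c =>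
      hc ⟨⟨c.1.1, c.1.2.1, c.1.2.2.1, E.hB.b2.one, n1, isCoprime_one_right⟩, c.2⟩
    simp [co, this]

lemma num1 {e a h ε : ℝ} (R : ℝ) (he : 1 ≤ e) (hR : e ≤ R) (ha : 1 ≤ a) (hh : 1 ≤ h) (e0 : 0 < ε)
    (e1 : ε ≤ 1 / 36) : e⁻¹ * (h / e) ^ (-14 / 9 : ℝ) * (a * e * h) ^ (1 / 2 + ε) ≤
      a ^ (1 / 2 + ε) * R ^ (19 / 18 + ε) * h ^ (-(37 / 36) : ℝ) := by
  have l1 := Real.log_nonneg he
  have l2 := Real.log_le_log (by positivity) hR
  have l3 := Real.log_nonneg hh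
  rw [← Real.exp_log (show 0 < e⁻¹ by positivity), Real.log_inv,
    Real.rpow_def_of_pos (show 0 < h / e by positivity), Real.rpow_def_of_pos (show 0 < a * e * h by positivity),
    Real.rpow_def_of_pos (show 0 < a by positivity), Real.rpow_def_of_pos (show 0 < R by linarith),
    Real.rpow_def_of_pos (show 0 < h by positivity), Real.log_div (by positivity) (by positivity),
    Real.log_mul (by positivity) (by positivity), Real.log_mul (by positivity) (by positivity)]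
  simp only [← Real.exp_add]
  refine Real.exp_le_exp.2 ?_
  nlinarith

lemma num2 {a b Y ε : ℝ} (ha : 1 ≤ a) (hb : 1 ≤ b) (hY : 0 < Y) (e0 : 0 < ε) (e1 : ε ≤ 1 / 36) :
    Real.sqrt b * (Y / (a ^ 2 * b ^ 3)) ^ (14 / 9 + ε) * a ^ (1 / 2 + ε) * (3 * a * b) ^ (19 / 18 + ε) *
      (3 * a * b) ^ ε ≤ 9 * Y ^ (14 / 9 + ε) * ((b ^ 2)⁻¹ * a ^ (-(37 / 36) : ℝ)) := by
  have l1 := Real.log_nonneg ha
  have l2 := Real.log_nonneg hb
  have l3 := Real.log_nonneg (show (1 : ℝ) ≤ 3 by norm_num)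
  rw [Real.sqrt_eq_rpow, ← Real.exp_log (show 0 < (b ^ 2)⁻¹ by positivity), Real.log_inv, Real.log_pow,
    show (9 : ℝ) * Y ^ (14 / 9 + ε) = Real.exp (2 * Real.log 3) * Y ^ (14 / 9 + ε) by
      rw [two_mul, Real.exp_add, Real.exp_log (by norm_num)]; norm_num]
  simp only [Real.rpow_def_of_pos (show 0 < Y / (a ^ 2 * b ^ 3) by positivity),
    Real.rpow_def_of_pos (show 0 < 3 * a * b by positivity),
    Real.rpow_def_of_pos (show 0 < a by positivity), Real.rpow_def_of_pos hY,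
    Real.rpow_def_of_pos (show 0 < b by positivity)]
  rw [Real.log_div (by positivity) (by positivity), Real.log_mul (by positivity) (by positivity),
    Real.log_mul (by positivity) (by positivity), Real.log_mul (by positivity) (by positivity),
    Real.log_pow, Real.log_pow]
  simp only [← Real.exp_add]
  refine Real.exp_le_exp.2 ?_
  push_cast
  nlinarith

end NCM

open NCM

theorem ncS (E : Env) (h1 : NC1Stmt) (h2 : EMStmt) (h3 : DECStmt) : NCStmt := by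
  intro ε0 e00
  obtain ⟨ε, e0, e1, e2⟩ : ∃ ε : ℝ, 0 < ε ∧ ε ≤ 1 / 36 ∧ ε ≤ ε0 :=
    ⟨min ε0 (1 / 36), by positivity, min_le_right _ _, min_le_left _ _⟩
  obtain ⟨C, C0, hC⟩ := h1 ε e0 (by linarith)
  obtain ⟨D, D0, hD⟩ := h2.2.2.2.2.2.2 ε e0
  have sh := Real.summable_abs_int_rpow (show (1 : ℝ) < 37 / 36 by norm_num)
  set H := ∑' n : ℤ, |(n : ℝ)| ^ (-(37 / 36) : ℝ) with hH
  have H0 : 0 ≤ H := tsum_nonneg fun _ => by positivity
  have s2 := (sO E).mul_of_nonneg sh (fun _ => by positivity) (fun _ => by positivity)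
  set S := ∑' x : O × ℤ, (N x.1 ^ 2)⁻¹ * |(x.2 : ℝ)| ^ (-(37 / 36) : ℝ) with hS
  have S0 : 0 ≤ S := tsum_nonneg fun _ => by positivity
  refine ⟨C * D * H * 9 * S, fun A0 Y hA hY => ?_⟩
  have Y0 : 0 < Y := by linarith
  obtain ⟨m1, m2⟩ := main1 E h3 hA Y0
  refine ⟨m1, ?_⟩
  have s := sg'.summable_iff.2 m2.summable
  rw [← m2.tsum_eq, ← sg'.tsum_eq]
  refine le_trans ?_ (mul_le_mul_of_nonneg_left (Real.rpow_le_rpow_of_exponent_le hY
    (show 14 / 9 + ε ≤ 14 / 9 + ε0 by linarith)) (by positivity))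
  erw [s.tsum_prod]
  refine (tsum_of_norm_bounded (s2.hasSum.mul_left
    (C * D * H * 9 * A0 ^ (-5 / 9 : ℝ) * Y ^ (14 / 9 + ε))) ?_).trans (le_of_eq (by ring))
  rintro ⟨u, d⟩
  have s3 := s.prod_factor (u, d)
  set R := RR (u, d, 1) with hR
  set M := C * A0 ^ (-5 / 9 : ℝ) * (Real.sqrt (N u) * (Y / (|(d : ℝ)| ^ 2 * N u ^ 3)) ^ (14 / 9 + ε) *
    |(d : ℝ)| ^ (1 / 2 + ε) * (R : ℝ) ^ (19 / 18 + ε)) with hM
  have u0 : 0 ≤ N u := Nat.cast_nonneg _
  have M0 : 0 ≤ M := by positivity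
  have key : ∀ e : ℕ, ‖∑' x : ℤ × O, co Y (sg' ((u, d), e, x)) * (Kv A0 (be (sg' ((u, d), e, x))) : ℂ)‖ ≤
      if Tr (u, d, 1) ∧ e ∈ R.divisors then M * H else 0 := by
    intro e
    erw [(s3.prod_factor e).tsum_prod]
    refine (tsum_of_norm_bounded (sh.hasSum.mul_left
      (if Tr (u, d, 1) ∧ e ∈ R.divisors then M else 0)) fun h => ?_).trans
      (le_of_eq (by split_ifs <;> simp [hH]))
    erw [inner E h3 Y0 u d e h]
    by_cases hc : Cd ((u, d, 1), e, h)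
    · obtain ⟨a1, a2, -, a4, a5, a6⟩ := facts E hc
      simp only at a1 a2 a4 a5 a6
      have d2 : (0 : ℝ) < (d : ℝ) ^ 2 := by rw [← sq_abs]; positivity
      have b1 := hC (d * e) h e A0 (Y / (d ^ 2 * N u ^ 3)) hc.2.2
        (Nat.pos_of_mem_divisors hc.2.1).ne' hA (by positivity)
      have b2 : ‖((Real.sqrt (N u) * (ArithmeticFunction.moebius e : ℤ) / e : ℝ) : ℂ)‖ ≤
          Real.sqrt (N u) * (e : ℝ)⁻¹ := by
        rw [norm_real, Real.norm_eq_abs, abs_div, abs_mul, abs_of_nonneg (Real.sqrt_nonneg _),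
          Nat.abs_cast, div_eq_mul_inv]
        gcongr
        exact mul_le_of_le_one_right (Real.sqrt_nonneg _) (abs_mu _)
      have b3 := num1 (R : ℝ) a4 (by rw [hR, RR_eq]; exact a5) a2 a6 e0 e1
      rw [if_pos hc, if_pos ⟨hc.1, hc.2.1⟩, norm_mul]
      refine (mul_le_mul b2 b1 (norm_nonneg _) (by positivity)).trans ?_
      rw [hM, sq_abs]
      push_cast
      rw [abs_mul, abs_mul, Nat.abs_cast]
      calc _ = C * A0 ^ (-5 / 9 : ℝ) * Real.sqrt (N u) * (Y / (d ^ 2 * N u ^ 3)) ^ (14 / 9 + ε) *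
            ((e : ℝ)⁻¹ * (|(h : ℝ)| / e) ^ (-14 / 9 : ℝ) * (|(d : ℝ)| * e * |(h : ℝ)|) ^ (1 / 2 + ε)) := by
            ring
        _ ≤ C * A0 ^ (-5 / 9 : ℝ) * Real.sqrt (N u) * (Y / (d ^ 2 * N u ^ 3)) ^ (14 / 9 + ε) * _ :=
            mul_le_mul_of_nonneg_left b3 (by positivity)
        _ = _ := by ring
    · rw [if_neg hc, norm_zero]
      split_ifs <;> positivity
  erw [s3.tsum_prod]
  by_cases ht : Tr (u, d, 1)
  · have a1 := E.hB.b1.N_one_le _ (E.hB.b2.ne _ ht.1)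
    have a2 := one_le_abs ht.2.1.ne_zero
    simp only at a1 a2
    have eR : (R : ℝ) = 3 * |(d : ℝ)| * N u := RR_eq _
    have R0 : R ≠ 0 := by
      have : (0 : ℝ) < R := by rw [eR]; positivity
      exact_mod_cast this.ne'
    refine (tsum_of_norm_bounded (hasSum_sum_of_ne_finset_zero (s := R.divisors)
      fun e he => by simp [he]) key).trans ?_
    rw [Finset.sum_congr rfl (g := fun _ => M * H) fun e he => by simp [ht, he], Finset.sum_const,
      nsmul_eq_mul]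
    have b1 := (hD R R0).1
    have b2 := num2 a2 a1 Y0 e0 e1
    calc _ ≤ D * (R : ℝ) ^ ε * (M * H) := by gcongr
      _ = C * D * H * A0 ^ (-5 / 9 : ℝ) * (Real.sqrt (N u) *
          (Y / (|(d : ℝ)| ^ 2 * N u ^ 3)) ^ (14 / 9 + ε) * |(d : ℝ)| ^ (1 / 2 + ε) *
          (3 * |(d : ℝ)| * N u) ^ (19 / 18 + ε) * (3 * |(d : ℝ)| * N u) ^ ε) := by
        rw [hM, eR]; ring
      _ ≤ C * D * H * A0 ^ (-5 / 9 : ℝ) * _ := mul_le_mul_of_nonneg_left b2 (by positivity)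
      _ = _ := by ring
  · refine (tsum_of_norm_bounded hasSum_zero fun e => (key e).trans (by simp [ht])).trans ?_
    positivity

end Vale.Agent.P006.K
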