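import Vale.Agent.P006.K0

/-! P006 branch K, row NC1. -/

noncomputable section
open Complex MeasureTheory Filter Topology
open scoped Classical ComplexConjugate

namespace Vale.Agent.P006.K
open Vale.Agent.P026

namespace NC1M

lemma cO : Countable O :=
  (show Function.Injective fun a : O => (a.re, a.im) from fun a b h => by
    ext
    · exact congrArg Prod.fst h
    · exact congrArg Prod.snd h).countable

lemma ig (c : ℝ) (hc : 0 < c) : Integrable fun u : ℝ => Real.exp (-c * u ^ 2) :=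
  integrable_exp_neg_mul_sq hc

lemma swap {G : ℝ → ℂ} {c : O → ℝ → ℂ} {b : O → ℝ} {K B : ℝ} (hG : Continuous G)
    (hc : ∀ n, Continuous (c n)) (hK : 0 ≤ K) (hB : 0 ≤ B)
    (hGb : ∀ u, ‖G u‖ ≤ K * Real.exp (-1 * u ^ 2)) (hb : ∀ n u, ‖c n u‖ ≤ b n) (hs : Summable b)
    (hS : ∀ u, ‖∑' n, c n u‖ ≤ B * Real.exp (8 * |u|)) :
    ‖∑' n, ∫ u, G u * c n u‖ ≤ K * B * (Real.exp 32 * ∫ u : ℝ, Real.exp (-(1 / 2) * u ^ 2)) := by
  have := cO
  have i1 := (ig 1 one_pos).const_mul K
  have bd : ∀ n u, ‖G u * c n u‖ ≤ K * Real.exp (-1 * u ^ 2) * b n := fun n u => by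
    rw [norm_mul]
    exact mul_le_mul (hGb u) (hb n u) (norm_nonneg _) (by positivity)
  have hi : ∀ n, Integrable fun u => G u * c n u := fun n =>
    (i1.mul_const (b n)).mono' (hG.mul (hc n)).aestronglyMeasurable (Eventually.of_forall (bd n))
  rw [integral_tsum_of_summable_integral_norm hi]
  · rw [← integral_const_mul, ← integral_const_mul]
    refine norm_integral_le_of_norm_le (((ig _ (by norm_num)).const_mul _).const_mul _)
      (Eventually.of_forall fun u => ?_)
    rw [tsum_mul_left, norm_mul]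
    refine (mul_le_mul (hGb u) (hS u) (norm_nonneg _) (by positivity)).trans ?_
    rw [mul_mul_mul_comm, ← Real.exp_add, ← Real.exp_add]
    refine mul_le_mul_of_nonneg_left (Real.exp_le_exp.2 ?_) (by positivity)
    nlinarith [sq_nonneg (|u| - 8), sq_abs u]
  · refine .of_nonneg_of_le (fun n => integral_nonneg fun _ => norm_nonneg _) (fun n => ?_)
      (hs.mul_left (∫ u : ℝ, K * Real.exp (-1 * u ^ 2)))
    rw [← integral_mul_const]
    exact integral_mono (hi n).norm (i1.mul_const _) (bd n)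

lemma cG : Continuous fun u : ℝ => Gamma (7 / 9 + u * I) := by
  refine continuous_iff_continuousAt.2 fun u => ?_
  refine ContinuousAt.comp (f := fun u : ℝ => (7 / 9 + u * I : ℂ))
    (differentiableAt_Gamma _ fun m hm => ?_).continuousAt (by fun_prop)
  have := congrArg re hm
  simp at this
  have : (0 : ℝ) ≤ m := m.cast_nonneg
  linarith

lemma cpw {x : ℝ} (hx : 0 < x) (z : ℂ) : (x : ℂ) ^ z = cexp (Real.log x * z) := by
  rw [cpow_def_of_ne_zero (ofReal_ne_zero.2 hx.ne'), ofReal_log hx.le]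

end NC1M

open NC1M

theorem nc1S (E : Env) (hK : KERStmt) (hQ : SQStmt) : NC1Stmt := by
  intro ε e0 e1
  obtain ⟨C, C0, hC⟩ := hQ ε e0 e1
  obtain ⟨D, hD⟩ := E.hΓ.dec (7 / 9) 0 (by norm_num)
  simp only [pow_zero, mul_one] at hD
  have D0 : 0 ≤ D := (norm_nonneg _).trans (hD 0)
  set J := Real.exp 32 * ∫ u : ℝ, Real.exp (-(1 / 2) * u ^ 2) with hJ
  have J0 : 0 ≤ J := mul_nonneg (Real.exp_pos _).le (integral_nonneg fun _ => (Real.exp_pos _).le)
  refine ⟨D * Real.pi ^ (-7 / 9 : ℝ) * Real.sqrt Real.pi * Real.exp 1 * C * J, by positivity,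
    fun m h e A0 X hc he hA hX => ?_⟩
  have h0 : (h : ℝ) ≠ 0 := fun h0 => hc ⟨0, by rw [Int.cast_eq_zero.1 h0]; simp⟩
  have e0' : (0 : ℝ) < e := by positivity
  set q : ℝ := |(h : ℝ)| / e with hq
  have q0 : 0 < q := div_pos (abs_pos.2 h0) e0'
  obtain ⟨_, hs⟩ := E.hL.sum (19 / 18)
  set G : ℝ → ℂ := fun u => (2 * Real.pi : ℝ)⁻¹ * (Gamma (7 / 9 + u * I) *
    ((Real.pi * q ^ 2 : ℝ) : ℂ) ^ (-(7 / 9 + u * I)) * (Real.sqrt Real.pi : ℂ) *
    cexp ((1 - 2 * (7 / 9 + u * I)) ^ 2 / 4) * (A0 : ℂ) ^ (1 - 2 * (7 / 9 + u * I))) with hG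
  set c : O → ℝ → ℂ := fun n u => if Prim n ∧ Squarefree (Nn n) then
    cub ((m * h ^ 2 : ℤ) : O) n * (N n : ℂ) ^ (19 / 18 + 2 * u * I) * VV X (N n) else 0 with hc'
  have pq : 0 < Real.pi * q ^ 2 := by positivity
  have key := swap (G := G) (c := c) (b := fun k => if k = 0 then 0 else N k ^ (19 / 18 : ℝ) * VV X (N k))
    (K := D * (Real.pi * q ^ 2) ^ (-7 / 9 : ℝ) * Real.sqrt Real.pi * Real.exp 1 * A0 ^ (-5 / 9 : ℝ))
    (B := C * X ^ (14 / 9 + ε) * |((m * h : ℤ) : ℝ)| ^ (1 / 2 + ε)) ?_ ?_ (by positivity)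
    (by positivity) ?_ ?_ (hs X hX).1 ?_
  · rw [tsum_congr (g := fun n => ∫ u, G u * c n u)]
    · refine key.trans (le_of_eq ?_)
      rw [← hJ, Real.mul_rpow Real.pi_pos.le (by positivity), ← Real.rpow_natCast q 2, ← Real.rpow_mul q0.le]
      norm_num
      ring
    · intro n
      simp only [hc', hG]
      split_ifs with hn
      · have n0 : 0 < N n := lt_of_lt_of_le one_pos (E.hB.b1.N_one_le n (E.hB.b2.ne n hn.1))
        have s0 := Real.sqrt_pos.2 n0
        rw [ofReal_mul, hK A0 _ hA (by positivity), ← integral_const_mul, ← integral_const_mul,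
          ← integral_const_mul]
        refine integral_congr_ae (Eventually.of_forall fun u => ?_)
        have a1 : ((Real.pi * (h / (e * N n)) ^ 2 : ℝ) : ℂ) ^ (-(7 / 9 + u * I)) =
            ((Real.pi * q ^ 2 : ℝ) : ℂ) ^ (-(7 / 9 + u * I)) * (N n : ℂ) ^ (19 / 18 + 2 * u * I) *
              (Real.sqrt (N n) : ℂ) := by
          have b1 : Real.pi * (h / (e * N n)) ^ 2 = Real.pi * q ^ 2 / N n ^ 2 := by
            rw [hq, div_pow |(h : ℝ)|, sq_abs]; field_simp
          have b2 : (Real.sqrt (N n) : ℂ) = cexp (Real.log (N n) / 2) := by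
            rw [← Real.exp_log s0, Real.log_sqrt n0.le]; push_cast; rfl
          rw [b1, cpw (by positivity), cpw pq, cpw n0, b2, ← Complex.exp_add, ← Complex.exp_add,
            Real.log_div pq.ne' (by positivity), Real.log_pow]
          congr 1
          push_cast
          ring
        have a2 : (Real.sqrt (N n) : ℂ) ≠ 0 := ofReal_ne_zero.2 s0.ne'
        simp only
        rw [a1, ofReal_div]
        field_simp
      · simp
  · simp only [hG, cpw pq, cpw hA]
    have := cG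
    fun_prop
  · intro n
    simp only [hc']
    split_ifs with hn
    · have n0 : 0 < N n := lt_of_lt_of_le one_pos (E.hB.b1.N_one_le n (E.hB.b2.ne n hn.1))
      simp only [cpw n0]
      fun_prop
    · exact continuous_const
  · intro u
    have a1 : ‖((2 * Real.pi : ℝ) : ℂ)⁻¹‖ ≤ 1 := by
      rw [norm_inv, norm_real, Real.norm_eq_abs, abs_of_pos (by positivity)]
      exact inv_le_one_of_one_le₀ (by linarith [Real.pi_gt_three])
    have a2 : ‖cexp ((1 - 2 * (7 / 9 + u * I)) ^ 2 / 4)‖ ≤ Real.exp 1 * Real.exp (-1 * u ^ 2) := by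
      rw [norm_exp, ← Real.exp_add]
      gcongr
      have : ((1 - 2 * (7 / 9 + u * I)) ^ 2 / 4 : ℂ) = ((25 / 324 - u ^ 2 : ℝ) : ℂ) +
          ((5 / 9 * u : ℝ) : ℂ) * I := by
        push_cast
        linear_combination (u : ℂ) ^ 2 * I_sq
      rw [this]
      simp only [add_re, ofReal_re, mul_re, I_re, mul_zero, ofReal_im, I_im, zero_mul, sub_zero]
      linarith
    simp only [hG, norm_mul, norm_cpow_eq_rpow_re_of_pos pq, norm_cpow_eq_rpow_re_of_pos hA]
    have r1 : (-(7 / 9 + u * I) : ℂ).re = -7 / 9 := by simp; norm_num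
    have r2 : (1 - 2 * (7 / 9 + u * I) : ℂ).re = -5 / 9 := by simp; norm_num
    rw [r1, r2, ofReal_inv, norm_real (Real.sqrt _), Real.norm_eq_abs, abs_of_nonneg (Real.sqrt_nonneg _)]
    have := hD u
    push_cast at this
    calc _ ≤ 1 * (D * (Real.pi * q ^ 2) ^ (-7 / 9 : ℝ) * Real.sqrt Real.pi *
          (Real.exp 1 * Real.exp (-1 * u ^ 2)) * A0 ^ (-5 / 9 : ℝ)) := by gcongr
      _ = _ := by ring
  · intro n u
    simp only [hc']
    have v0 : 0 ≤ VV X (N n) := (Real.exp_pos _).le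
    have n0 : 0 ≤ N n := Nat.cast_nonneg _
    split_ifs with hn h1 h1
    · exact absurd h1 (E.hB.b2.ne n hn.1)
    · have n0 : 0 < N n := lt_of_lt_of_le one_pos (E.hB.b1.N_one_le n h1)
      rw [norm_mul, norm_mul, norm_cpow_eq_rpow_re_of_pos n0, norm_real, Real.norm_eq_abs,
        abs_of_nonneg v0]
      have r : (19 / 18 + 2 * u * I : ℂ).re = 19 / 18 := by simp
      rw [r]
      have := E.hB.b6.norm_le ((m * h ^ 2 : ℤ) : O) n
      calc _ ≤ 1 * N n ^ (19 / 18 : ℝ) * VV X (N n) := by gcongr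
        _ = _ := by ring
    · simp
    · rw [norm_zero]; positivity
  · intro u
    have := hC m h X (19 / 18 + 2 * u * I) hc hX (by simp)
    refine this.trans (le_of_eq ?_)
    have r : (19 / 18 + 2 * u * I : ℂ).im = 2 * u := by simp
    rw [r, abs_mul, abs_two]
    ring_nf

end Vale.Agent.P006.K
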