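import Vale.Agent.P006.K0

noncomputable section
open Complex MeasureTheory Filter Topology
open scoped Classical ComplexConjugate

namespace Vale.Agent.P006.K
open Vale.Agent.P026

namespace P1M

lemma summ (a : ℝ) (ha : 0 < a) (z : ℂ) :
    Summable fun n : ℤ => cexp (2 * Real.pi * I * n * z + Real.pi * I * n ^ 2 * (I * a)) := by
  have := (summable_jacobiTheta₂_term_iff z (I * a)).2 (by simpa using ha)
  simpa only [jacobiTheta₂_term] using this

lemma summG (A : ℝ) (hA : 0 < A) : Summable fun a : ℤ => (gA A a : ℂ) := by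
  refine (summ (1 / A ^ 2) (by positivity) 0).congr fun n => ?_
  unfold gA
  rw [Complex.ofReal_exp]
  congr 1
  have : (A : ℂ) ≠ 0 := by exact_mod_cast hA.ne'
  push_cast
  field_simp
  ring_nf
  simp

lemma term (q : ℕ) (A : ℝ) (r h : ℤ) :
    cexp (2 * Real.pi * I * (r * h / q)) *
      ((A / q * Real.exp (-(Real.pi * (h * A / q) ^ 2)) : ℝ) : ℂ) =
    (A / q : ℂ) * cexp (-Real.pi * ((A / q) ^ 2 : ℝ) * h ^ 2 + 2 * Real.pi * (I * r / q) * h) := by
  rw [Complex.exp_add]
  push_cast
  have e1 : cexp (-(Real.pi : ℂ) * ((A : ℂ) / q) ^ 2 * h ^ 2) =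
      cexp (-(Real.pi * (h * A / q) ^ 2)) := by congr 1; ring
  have e2 : cexp (2 * (Real.pi : ℂ) * (I * r / q) * h) = cexp (2 * Real.pi * I * (r * h / q)) := by
    congr 1; ring
  rw [e1, e2]; ring

lemma summT (q : ℕ) (hq : q ≠ 0) (A : ℝ) (hA : 0 < A) (r : ℤ) :
    Summable fun h : ℤ => cexp (2 * Real.pi * I * (r * h / q)) *
      ((A / q * Real.exp (-(Real.pi * (h * A / q) ^ 2)) : ℝ) : ℂ) := by
  have hq' : (0 : ℝ) < q := by positivity
  simp only [term]
  refine Summable.mul_left _ ((summ ((A / q) ^ 2) (by positivity) (r / q)).congr fun n => ?_)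
  congr 1
  ring_nf
  simp
  ring

lemma poi (q : ℕ) (hq : q ≠ 0) (A : ℝ) (hA : 0 < A) (r : ℤ) :
    ∑' h : ℤ, cexp (2 * Real.pi * I * (r * h / q)) *
      ((A / q * Real.exp (-(Real.pi * (h * A / q) ^ 2)) : ℝ) : ℂ) =
    ∑' j : ℤ, (gA A (r - q * j) : ℂ) := by
  have hq' : (0 : ℝ) < q := by positivity
  have hp : (0 : ℝ) < A / q := by positivity
  simp only [term]
  rw [tsum_mul_left, Complex.tsum_exp_neg_quadratic (by
    rw [Complex.ofReal_re]; positivity)]
  have e1 : (((A / q) ^ 2 : ℝ) : ℂ) ^ (1 / 2 : ℂ) = (A / q : ℂ) := by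
    have : (1 / 2 : ℂ) = ((1 / 2 : ℝ) : ℂ) := by push_cast; ring
    rw [this, ← Complex.ofReal_cpow (by positivity), ← Real.sqrt_eq_rpow, Real.sqrt_sq hp.le]
    push_cast; ring
  have hA' : (A : ℂ) ≠ 0 := by exact_mod_cast hA.ne'
  have hq2 : (q : ℂ) ≠ 0 := by exact_mod_cast hq
  rw [e1, ← mul_assoc, mul_one_div_cancel (div_ne_zero hA' hq2), one_mul]
  refine tsum_congr fun j => ?_
  unfold gA
  rw [Complex.ofReal_exp]
  congr 1
  push_cast
  have : I * (I * r / q) = -(r / q : ℂ) := by
    rw [mul_div_assoc, ← mul_assoc, I_mul_I]; ring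
  rw [this]
  field_simp
  ring

lemma per (P : ℤ → ℂ) (q : ℕ) (hP : ∀ a, P (a + q) = P a) (a j : ℤ) : P (a + j * q) = P a := by
  have : Function.Periodic P (q : ℤ) := hP
  simpa using (this.int_mul j) a

end P1M

open P1M in
theorem p1S (_E : Env) : P1Stmt := by
  intro P q A hq hA hP
  have hq0 : (0 : ℤ) < q := by positivity
  have e1 : ∀ a : ℤ, P a * gA A a =
      ∑ r ∈ Finset.range q, if a % q = r then P r * gA A a else 0 := by
    intro a
    have h0 : 0 ≤ a % q := Int.emod_nonneg a hq0.ne'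
    have h1 : a % q < q := Int.emod_lt_of_pos a hq0
    rw [Finset.sum_eq_single (a % q).toNat]
    · rw [Int.toNat_of_nonneg h0, if_pos rfl]
      congr 1
      rw [← per P q hP (a % q) (a / q)]
      congr 1
      have := Int.emod_add_mul_ediv a q
      linarith
    · intro b _ hb
      rw [if_neg]
      intro h
      apply hb
      rw [h]; simp
    · intro h
      exfalso; apply h
      rw [Finset.mem_range]; omega
  simp only [e1, Finset.sum_mul]
  have s1 : ∀ r ∈ Finset.range q, Summable fun a : ℤ =>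
      if a % q = (r : ℕ) then P r * gA A a else 0 := by
    intro r _
    refine Summable.of_norm_bounded ((summG A hA).mul_left (P r)).norm fun a => ?_
    split_ifs
    · exact le_rfl
    · simp only [norm_zero]; positivity
  have s2 : ∀ r ∈ Finset.range q, Summable fun h : ℤ =>
      P r * cexp (2 * Real.pi * I * ((r : ℕ) * h / q)) *
        ((A / q * Real.exp (-(Real.pi * (h * A / q) ^ 2)) : ℝ) : ℂ) := by
    intro r _
    have := (summT q hq A hA r).mul_left (P r)
    simpa only [mul_assoc, Int.cast_natCast] using this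
  rw [Summable.tsum_finsetSum s1, Summable.tsum_finsetSum s2]
  refine Finset.sum_congr rfl fun r hr => ?_
  have hr' : r < q := Finset.mem_range.1 hr
  have e2 := poi q hq A hA r
  simp only [Int.cast_natCast] at e2
  simp only [mul_assoc (P r)]
  rw [tsum_mul_left, e2, ← tsum_mul_left]
  have hinj : Function.Injective fun j : ℤ => (r : ℤ) - q * j := by
    intro j j' h
    simp only [sub_right_inj] at h
    exact mul_left_cancel₀ hq0.ne' h
  rw [← hinj.tsum_eq (f := fun a : ℤ => if a % q = (r : ℕ) then P r * (gA A a : ℂ) else 0)]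
  · refine tsum_congr fun j => ?_
    rw [if_pos]
    rw [Int.sub_mul_emod_self_left]
    exact Int.emod_eq_of_lt (by positivity) (by exact_mod_cast hr')
  · intro a ha
    have : a % q = (r : ℕ) := by
      by_contra h
      exact ha (if_neg h)
    refine ⟨-(a / q), ?_⟩
    have h2 := Int.emod_add_mul_ediv a q
    simp only
    rw [← this]; linarith

end Vale.Agent.P006.K
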