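import Vale.Agent.P006.K.POIa

/-! P006 branch K: Poisson summation in the rational variable. -/

noncomputable section
open Complex
open scoped Classical ComplexConjugate

namespace Vale.Agent.P006.K
open Vale.Agent.P026
namespace POIM

lemma mm_sqf (n : ℕ) (hn : Squarefree n) : mm n = (n : ℝ) ^ (-1 / 3 : ℝ) := by
  have h : ∃ p : ℕ × ℕ, Squarefree p.1 ∧ n = p.1 * p.2 ^ 3 := ⟨(n, 1), hn, by simp⟩
  unfold mm
  rw [dif_pos h]
  obtain ⟨-, h2⟩ := h.choose_spec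
  generalize h.choose = p at h2 ⊢
  have h3 : IsUnit p.2 := hn _ ⟨p.1 * p.2, by rw [h2]; ring⟩
  rw [Nat.isUnit_iff.1 h3] at h2
  rw [one_pow, mul_one] at h2
  rw [← h2]

lemma Nn_ne (hB : Bas) (u : O) (hu : u ≠ 0) : Nn u ≠ 0 := by
  have := hB.b1.N_one_le u hu
  unfold N at this
  intro h
  rw [h] at this
  norm_num at this

lemma lam_cop (hB : Bas) (u : O) (hu : Prim u) : IsCoprime lam u :=
  (hB.b1.prime_lam.irreducible.coprime_iff_not_dvd).2 ((hB.b2.cop_iff u).1 (hB.b2.cop u hu))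

lemma gs_rat (E : Env) (hR : RATStmt) (d : ℤ) (hd : Squarefree d) (hs : Squarefree (d : O))
    (hp : Prim (d : O)) : cub lam d * gs d = ((|(d : ℝ)| : ℝ) : ℂ) := by
  have hB := E.hB
  have h1 := hR.2 d hp
  have hd0 : (0 : ℝ) < |(d : ℝ)| := abs_pos.2 (Int.cast_ne_zero.2 hd.ne_zero)
  have e1 : N (d : O) ^ (-1 / 6 : ℝ) = |(d : ℝ)| ^ (-1 / 3 : ℝ) := by
    rw [hB.b1.N_int, ← sq_abs, ← Real.rpow_natCast, ← Real.rpow_mul hd0.le]
    norm_num
  rw [mm_sqf _ (Int.squarefree_natAbs.2 hd), e1, Nat.cast_natAbs, Int.cast_abs] at h1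
  have h0 : ((|(d : ℝ)| ^ (-1 / 3 : ℝ) : ℝ) : ℂ) ≠ 0 :=
    ofReal_ne_zero.2 (Real.rpow_pos_of_pos hd0 _).ne'
  have h2 : conj (cc d) = 1 := mul_right_cancel₀ h0 (by rw [h1, one_mul])
  have h3 : cc d = 1 := by
    have := congrArg conj h2
    simpa using this
  have h4 : bb (d : O) = gs d := by
    have := E.hb.eq d 1 hp hB.b2.one hs
    have e : N 1 = 1 := by simp [N, Nn, nz, QuadraticAlgebra.re_one, QuadraticAlgebra.im_one]
    simpa [e] using this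
  unfold cc at h3
  rw [h4, hB.b1.N_int, Real.sqrt_sq_eq_abs, div_eq_one_iff_eq (ofReal_ne_zero.2 hd0.ne')] at h3
  exact h3

lemma cc_kq (E : Env) (hD : DECStmt) (hR : RATStmt) (τ : O × ℤ × O) (h : Tr τ) :
    cc (kq τ) = (Real.sqrt (N τ.1) : ℂ) * (cub lam τ.2.2 * gs τ.2.2) * cub τ.2.1 τ.2.2 /
      (Real.sqrt (N τ.2.2) : ℂ) := by
  have hB := E.hB
  obtain ⟨-, hsq, hN, -⟩ := hD.1 τ h
  obtain ⟨u, d, n⟩ := τ
  obtain ⟨hu, hd, hpd, hn, hsn, hc⟩ := h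
  simp only at hu hd hpd hn hsn hc hsq hN ⊢
  have u0 := hB.b2.ne u hu
  have d0 := hB.b2.ne _ hpd
  have n0 := hB.b2.ne n hn
  have g := gs_rat E hR d hd hsq.of_mul_left hpd
  have hu1 := hB.b1.N_one_le u u0
  have hn1 := hB.b1.N_one_le n n0
  have hd0 : (0 : ℝ) < |(d : ℝ)| := abs_pos.2 (Int.cast_ne_zero.2 hd.ne_zero)
  have e : Real.sqrt ((d : ℝ) ^ 2 * N n * N u ^ 3) =
      |(d : ℝ)| * Real.sqrt (N n) * (N u * Real.sqrt (N u)) := by
    rw [Real.sqrt_mul (by positivity), Real.sqrt_mul (by positivity), Real.sqrt_sq_eq_abs,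
      pow_succ, Real.sqrt_mul (by positivity), Real.sqrt_sq (by positivity)]
  have s2 : ((N u : ℝ) : ℂ) = (Real.sqrt (N u) : ℂ) ^ 2 := by
    rw [← ofReal_pow, Real.sq_sqrt (by positivity)]
  unfold cc
  rw [hN, e]
  unfold kq
  simp only
  rw [E.hb.eq _ u (hB.b2.mul _ _ hpd hn) hu hsq, E.hH.mul3 _ _ hpd hn hc,
    hB.b6.mul_r _ _ _ (mul_ne_zero d0 n0) (pow_ne_zero _ u0), hB.b6.mul_r _ _ _ d0 n0,
    hB.b6.pow_r _ _ _ u0, hB.b6.cube _ _ (lam_cop hB u hu)]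
  have a1 : ((|(d : ℝ)| : ℝ) : ℂ) ≠ 0 := ofReal_ne_zero.2 hd0.ne'
  have a2 : (Real.sqrt (N n) : ℂ) ≠ 0 := ofReal_ne_zero.2 (Real.sqrt_pos.2 (by linarith)).ne'
  have a3 : (Real.sqrt (N u) : ℂ) ≠ 0 := ofReal_ne_zero.2 (Real.sqrt_pos.2 (by linarith)).ne'
  rw [ofReal_mul, ofReal_mul, ofReal_mul, s2]
  field_simp
  linear_combination (cub lam n * gs n * cub (d : O) n) * g

lemma cub_kq (hB : Bas) (τ : O × ℤ × O) (h : Tr τ) (A : ℝ) (a : ℤ) :
    (if IsCoprime a 3 then (gA A a : ℂ) * cub (a : O) (kq τ) else 0) =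
      if IsCoprime a (RR τ) then cub (a : O) τ.2.2 * (gA A a : ℂ) else 0 := by
  obtain ⟨u, d, n⟩ := τ
  obtain ⟨hu, hd, hpd, hn, hsn, hc⟩ := h
  simp only at hu hd hpd hn hsn hc ⊢
  have u0 := hB.b2.ne u hu
  have d0 := hB.b2.ne _ hpd
  have n0 := hB.b2.ne n hn
  have e : IsCoprime a (RR (u, d, n)) ↔ (IsCoprime a 3 ∧ IsCoprime a d) ∧ IsCoprime (a : O) u := by
    unfold RR
    push_cast
    rw [IsCoprime.mul_right_iff, IsCoprime.mul_right_iff, copN hB, IsCoprime.abs_right_iff]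
  unfold kq
  simp only
  rw [hB.b6.mul_r _ _ _ (mul_ne_zero d0 n0) (pow_ne_zero _ u0), hB.b6.mul_r _ _ _ d0 n0,
    hB.b6.pow_r _ _ _ u0, cub_cube hB _ _ u0, cub_rat hB a d (hB.b2.cop _ hpd)]
  by_cases h1 : IsCoprime a 3 <;> by_cases h2 : IsCoprime a d <;> by_cases h3 : IsCoprime (a : O) u <;>
    simp [e, h1, h2, h3, mul_comm]

lemma tm_sum (hB : Bas) (τ : O × ℤ × O) (h : Tr τ) (A : ℝ) (hA : 0 < A) (e : ℕ) (he : e ≠ 0) :
    Summable (tm τ A e) := by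
  have hn1 := hB.b1.N_one_le _ (hB.b2.ne _ h.2.2.2.1)
  have he' : (0 : ℝ) < e := Nat.cast_pos.2 (Nat.pos_of_ne_zero he)
  refine Summable.of_norm_bounded ((gsum (A / (e * N τ.2.2)) (by positivity)).mul_left A) fun a => ?_
  unfold tm
  rw [norm_mul, norm_real, Real.norm_of_nonneg (by positivity), mul_div_assoc]
  exact mul_le_of_le_one_left (by positivity) (hB.b6.norm_le _ _)

end POIM

open POIM in
theorem poiS (E : Env) (hD : DECStmt) (hR : RATStmt) (hZ : GZStmt) (hP : P1Stmt) : POIStmt := by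
  intro τ A h hA
  have hB := E.hB
  have hn := h.2.2.2.1
  have n0 := hB.b2.ne _ hn
  have hn1 := hB.b1.N_one_le _ n0
  have n3 := hB.b2.cop _ hn
  have hRR : RR τ ≠ 0 := by
    unfold RR
    exact mul_ne_zero (mul_ne_zero (by norm_num) (Int.natAbs_ne_zero.2 h.2.1.ne_zero))
      (Nn_ne hB _ (hB.b2.ne _ h.1))
  have hsq : Squarefree τ.2.2 := (hD.1 τ h).2.1.of_mul_right
  have hF : Summable fun a : ℤ => cub (a : O) τ.2.2 * (gA A a : ℂ) := by
    refine Summable.of_norm_bounded (gsum A⁻¹ (by positivity)) fun a => ?_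
    unfold gA
    rw [norm_mul, norm_real, Real.norm_of_nonneg (by positivity), div_eq_mul_inv]
    exact mul_le_of_le_one_left (by positivity) (hB.b6.norm_le _ _)
  simp_rw [cub_kq hB τ h A]
  rw [sieve _ hRR _ hF, cc_kq E hD hR τ h, Finset.mul_sum]
  unfold CP NP
  rw [← Finset.sum_add_distrib]
  refine Finset.sum_congr rfl fun e he => ?_
  have he0 : e ≠ 0 := (Nat.pos_of_mem_divisors he).ne'
  have he' : (0 : ℝ) < e := Nat.cast_pos.2 (Nat.pos_of_ne_zero he0)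
  have hs := tm_sum hB τ h A hA e he0
  have s1 : Summable fun x : ℤ => if IsCb (τ.2.1 * e * x ^ 2) then tm τ A e x else 0 :=
    Summable.of_norm_bounded hs.norm fun a => by split_ifs <;> simp
  have s2 : Summable fun x : ℤ => if IsCb (τ.2.1 * e * x ^ 2) then 0 else tm τ A e x :=
    Summable.of_norm_bounded hs.norm fun a => by split_ifs <;> simp
  rw [← mul_add, ← s1.tsum_add s2]
  have e1 : ∀ x : ℤ, (if IsCb (τ.2.1 * e * x ^ 2) then tm τ A e x else 0) +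
      (if IsCb (τ.2.1 * e * x ^ 2) then 0 else tm τ A e x) = tm τ A e x := by
    intro x
    split_ifs <;> simp
  simp_rw [e1]
  have e2 : ∀ a : ℤ, cub (((e : ℤ) * a : ℤ) : O) τ.2.2 * (gA A (e * a) : ℂ) =
      cub ((e : ℤ) : O) τ.2.2 * (cub (a : O) τ.2.2 * (gA (A / e) a : ℂ)) := by
    intro a
    have : gA A (e * a) = gA (A / e) a := by
      unfold gA
      congr 3
      push_cast
      field_simp
    rw [this, Int.cast_mul, hB.b6.mul_l _ _ _ n3, mul_assoc]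
  simp_rw [e2]
  have per : ∀ a : ℤ, cub ((a + (Nn τ.2.2 : ℕ) : ℤ) : O) τ.2.2 = cub (a : O) τ.2.2 := by
    intro a
    rw [Int.cast_add, Int.cast_natCast, ← hB.b1.cj_mul]
    exact hB.b6.pe _ _ _
  rw [tsum_mul_left, hP (fun a => cub (a : O) τ.2.2) (Nn τ.2.2) (A / e) (Nn_ne hB _ n0)
    (by positivity) per]
  simp_rw [Int.cast_natCast, hZ _ hn h.2.2.2.2.1]
  rw [← tsum_mul_left, ← tsum_mul_left, ← tsum_mul_left, ← tsum_mul_left]
  refine tsum_congr fun x => ?_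
  have nn : (cub lam τ.2.2 * gs τ.2.2) * conj (cub lam τ.2.2 * gs τ.2.2) = (N τ.2.2 : ℂ) := by
    rw [mul_conj, Complex.normSq_eq_norm_sq, norm_mul, hB.b6.norm _ _ (lam_cop hB _ hn), one_mul,
      E.hH.n3 _ n3 hsq]
  have a0 : ((N τ.2.2 : ℝ) : ℂ) ≠ 0 := ofReal_ne_zero.2 (by linarith)
  have a1 : (e : ℂ) ≠ 0 := Nat.cast_ne_zero.2 he0
  have a2 : (Real.sqrt (N τ.2.2) : ℂ) ≠ 0 := ofReal_ne_zero.2 (Real.sqrt_pos.2 (by linarith)).ne'
  have e3 : (x : ℝ) * (A / e) / (Nn τ.2.2 : ℕ) = x * A / (e * N τ.2.2) := by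
    unfold N
    field_simp
  have e4 : ((Nn τ.2.2 : ℕ) : ℝ) = N τ.2.2 := rfl
  unfold tm pref
  rw [e3, e4, Int.cast_mul, Int.cast_mul, hB.b6.mul_l _ _ _ n3, hB.b6.mul_l _ _ _ n3, Int.cast_natCast]
  generalize Real.exp _ = y
  generalize cub lam τ.2.2 * gs τ.2.2 = G at nn ⊢
  push_cast
  field_simp
  rw [← nn]
  ring

end Vale.Agent.P006.K
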