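import Vale.Agent.P006.K0
import Vale.Agent.P026.M.ZK

noncomputable section
open Complex
open scoped Classical ComplexConjugate

namespace Vale.Agent.P006.K
open Vale.Agent.P026

namespace RATM

lemma cj_int (a : ℤ) : cj (a : O) = a := by
  ext <;> simp [cj, QuadraticAlgebra.re_intCast, QuadraticAlgebra.im_intCast]

lemma cj_lam : cj lam = -lam := by
  ext <;> simp [cj, lam]

lemma prim_int (a : ℤ) : Prim (a : O) ↔ (3 : ℤ) ∣ a - 1 := by
  constructor
  · rintro ⟨z, hz⟩
    have := congrArg QuadraticAlgebra.re hz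
    have e : (3 : O) = ((3 : ℤ) : O) := by simp
    rw [e] at this
    simp [QuadraticAlgebra.re_intCast, QuadraticAlgebra.im_intCast, QuadraticAlgebra.re_one,
      QuadraticAlgebra.re_ofNat, QuadraticAlgebra.im_ofNat] at this
    exact ⟨z.re, this⟩
  · intro h
    have := map_dvd (Int.castRingHom O) h
    simpa [Prim] using this

lemma eq_int {n : O} (h : cj n = n) : n = ((n.re : ℤ) : O) := by
  have := congrArg QuadraticAlgebra.im h
  simp only [cj] at this
  ext
  · simp [QuadraticAlgebra.re_intCast]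
  · simp only [QuadraticAlgebra.im_intCast]; omega

lemma psi_conj (hB : Bas) (z : ℂ) : psi (conj z) = conj (psi z) := by
  rw [← hB.b1.psi_neg]
  simp [psi]

lemma gs_cj (hB : Bas) {c : O} (h0 : c ≠ 0) (hc : IsCoprime c 3) : gs (cj c) = conj (gs c) := by
  have c0 : cj c ≠ 0 := fun h => h0 (by rw [← CRM.cj_cj c, h]; rfl)
  have hd : ∀ a, c ∣ a → cj c ∣ cj a := fun a h => map_dvd CRM.cjE h
  have hd' : ∀ a, cj c ∣ cj a → c ∣ a := fun a h => by
    have := map_dvd CRM.cjE h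
    change cj (cj c) ∣ cj (cj a) at this
    rwa [CRM.cj_cj, CRM.cj_cj] at this
  have hs : ∀ a b, cj (a - b) = cj a - cj b := fun a b => map_sub CRM.cjE a b
  have := hB.b4.sum_eq (cj c) (fun r => conj (cub r (cj c)) * eQ r (cj c)) (Rs c) cj c0
    (fun a m => by
      have := hB.b6.pe (cj c) a m
      simp only at this ⊢
      rw [this, hB.b1.eQ_add, hB.b1.eQ_dvd _ _ (dvd_mul_right _ _), mul_one])
    (fun a => by
      obtain ⟨r, hr, h⟩ := hB.b4.ex c (cj a) h0
      refine ⟨r, hr, ?_⟩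
      have := hd _ h
      rwa [hs, CRM.cj_cj] at this)
    (fun i hi j hj h => hB.b4.uniq c i j h0 hi hj (hd' _ (by rwa [hs])))
  rw [gs, ← this, gs, map_sum]
  refine Finset.sum_congr rfl fun r _ => ?_
  rw [hB.b6.cj_cj r c hc, map_mul, eQ, eQ, hB.b1.toC_cj, hB.b1.toC_cj, ← map_div₀, psi_conj hB]

lemma one_of_real (hB : Bas) {x a : O} (h : IsCoprime x a) (e : conj (cub x a) = cub x a) :
    cub x a = 1 := by
  have h3 := hB.b6.cube x a h
  rw [hB.b6.conj_eq] at e
  linear_combination h3 - (cub x a + 1) * e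

lemma cub_int (hB : Bas) {x : O} {a : ℤ} (hx : cj x = x ∨ cj x = -x) (h3 : IsCoprime (a : O) 3)
    (h : IsCoprime x a) : cub x a = 1 := by
  refine one_of_real hB h ?_
  rw [← hB.b6.cj_cj x a h3, cj_int]
  rcases hx with hx | hx
  · rw [hx]
  · rw [hx, hB.b6.neg_l _ _ h3]

lemma cop_lam (hB : Bas) {p : O} (h : Prim p) : IsCoprime lam p :=
  (hB.b1.prime_lam.irreducible.coprime_iff_not_dvd).2 ((hB.b2.cop_iff p).1 (hB.b2.cop p h))

lemma prime_case (E : Env) (l : ℕ) (hl : l.Prime) (h3 : l ≠ 3) :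
    ∃ P : ℤ, P.natAbs = l ∧ Prim (P : O) ∧ Squarefree (P : O) ∧ gs (P : O) = l := by
  have hB := E.hB
  rcases ZKM.cls hB l hl h3 with ⟨_, p, _, hp, hp', _, _, _, hN, _, _⟩ | ⟨hm, p, hp, hp', hN, hd⟩
  · have nd : ¬ p ∣ cj p := fun hd => by
      have e := hB.b2.uniq _ _ hp' (CRM.cj_prim hp') (hp.associated_of_dvd (CRM.cj_prime hp) hd)
      have e1 : p.im = 0 := by
        have := congrArg QuadraticAlgebra.im e
        simp only [cj] at this
        omega
      have : Nn p = p.re.natAbs ^ 2 := by simp [Nn, nz, e1, Int.natAbs_pow]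
      rw [← hN, this] at hl
      exact Nat.Prime.not_prime_pow (le_refl 2) hl
    have hc : IsCoprime p (cj p) := hp.irreducible.coprime_iff_not_dvd.2 nd
    have e : (((l : ℕ) : ℤ) : O) = p * cj p := by rw [hB.b1.cj_mul, hN]; simp
    refine ⟨l, by simp, ?_, ?_, ?_⟩
    · rw [e]; exact hB.b2.mul _ _ hp' (CRM.cj_prim hp')
    · rw [e, squarefree_mul_iff]
      exact ⟨hc.isRelPrime, hp.irreducible.squarefree, (CRM.cj_prime hp).irreducible.squarefree⟩
    · have c1 : cub p (cj p) = 1 := by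
        refine one_of_real hB hc ?_
        rw [← hB.b6.cj_cj p (cj p) (hB.b2.cop _ (CRM.cj_prim hp')), CRM.cj_cj]
        exact E.hC _ _ (CRM.cj_prim hp') hp'
      rw [e, E.hH.mul3 _ _ hp' (CRM.cj_prim hp') hc, c1, gs_cj hB hp.ne_zero (hB.b2.cop _ hp'),
        (E.hJ p hp hp').2.2, N, hN]
      simp
  · have pl : Prim (((-(l : ℤ) : ℤ)) : O) := (prim_int _).2 (by omega)
    obtain ⟨t, ht⟩ : p ∣ (l : O) := (hd _).1 (by rw [ZKM.Nn_nat]; exact dvd_pow_self _ two_ne_zero)
    have ht1 : Nn t = 1 := by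
      have := hB.b1.Nn_mul p t
      rw [← ht, ZKM.Nn_nat, hN] at this
      have h2 : 0 < l ^ 2 := pow_pos hl.pos 2
      nlinarith
    have hu : IsUnit (-t) := ((hB.b1.unit_iff t).2 ht1).neg
    have e : p = (((-(l : ℤ) : ℤ)) : O) := by
      refine hB.b2.uniq _ _ hp' pl ⟨hu.unit, ?_⟩
      simp [ht]
    refine ⟨-(l : ℤ), by simp, pl, e ▸ hp.irreducible.squarefree, ?_⟩
    have r : conj (gs p) = gs p := by
      rw [← gs_cj hB hp.ne_zero (hB.b2.cop _ hp'), e, cj_int]
    obtain ⟨_, j1, j2⟩ := E.hJ p hp hp'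
    rw [r] at j1 j2
    have tp : toC p = -(l : ℂ) := by rw [e]; simp
    rw [tp] at j1
    rw [N, hN] at j2
    have l0 : (l : ℂ) ≠ 0 := by exact_mod_cast hl.ne_zero
    rw [← e]
    refine mul_left_cancel₀ l0 ?_
    push_cast at j2
    linear_combination j2 - j1

lemma cop_int {a b : ℤ} (h : Nat.Coprime a.natAbs b.natAbs) : IsCoprime (a : O) (b : O) :=
  (Int.isCoprime_iff_gcd_eq_one.2 h).intCast

lemma sqf_case (E : Env) (n : ℕ) : Squarefree n → ¬ 3 ∣ n →
    ∃ P : ℤ, P.natAbs = n ∧ Prim (P : O) ∧ Squarefree (P : O) ∧ gs (P : O) = n := by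
  have hB := E.hB
  induction n using induction_on_primes with
  | zero => intro h; exact absurd h not_squarefree_zero
  | one =>
    intro _ _
    refine ⟨1, rfl, by simpa using hB.b2.one, by simp, ?_⟩
    have := E.hb.eq 1 1 hB.b2.one hB.b2.one squarefree_one
    rw [one_pow, one_mul, E.hb.one, N, ZKM.Nn_one] at this
    simpa using this.symm
  | prime_mul p m hp ih =>
    intro hs h3
    rw [Nat.squarefree_mul_iff] at hs
    obtain ⟨P, a1, a2, a3, a4⟩ := prime_case E p hp (by rintro rfl; exact h3 (dvd_mul_right _ _))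
    obtain ⟨Q, b1, b2, b3, b4⟩ := ih hs.2.2 fun h => h3 (h.mul_left _)
    have hc : IsCoprime (P : O) (Q : O) := cop_int (by rw [a1, b1]; exact hs.1)
    refine ⟨P * Q, by rw [Int.natAbs_mul, a1, b1], ?_, ?_, ?_⟩
    · push_cast; exact hB.b2.mul _ _ a2 b2
    · push_cast; rw [squarefree_mul_iff]; exact ⟨hc.isRelPrime, a3, b3⟩
    · push_cast
      rw [E.hH.mul3 _ _ a2 b2 hc, a4, b4, cub_int hB (Or.inl (cj_int P)) (hB.b2.cop _ b2) hc,
        mul_one]

lemma ex_prim (u : ℕ) (h : ¬ 3 ∣ u) : ∃ U : ℤ, U.natAbs = u ∧ Prim (U : O) := by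
  by_cases h1 : u % 3 = 1
  · exact ⟨u, by simp, (prim_int _).2 (by omega)⟩
  · exact ⟨-(u : ℤ), by simp, (prim_int _).2 (by omega)⟩

lemma eq_of_natAbs {a b : ℤ} (ha : Prim (a : O)) (hb : Prim (b : O)) (h : a.natAbs = b.natAbs) :
    a = b := by
  rw [prim_int] at ha hb
  omega

lemma sqf_int {a : ℤ} (h : Squarefree (a : O)) (hB : Bas) : Squarefree a.natAbs := by
  rw [Int.squarefree_natAbs]
  intro x hx
  have h1 : (x : O) * x ∣ a := by exact_mod_cast map_dvd (Int.castRingHom O) hx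
  have h2 := (hB.b1.unit_iff _).1 (h _ h1)
  have h3 := hB.b1.N_int x
  rw [N, h2] at h3
  have h4 : x ^ 2 = 1 := by exact_mod_cast h3.symm
  exact IsUnit.of_mul_eq_one x (by rw [← pow_two, h4])

lemma mm_bd (n : ℕ) : 0 ≤ mm n ∧ mm n ≤ 1 := by
  unfold mm
  split_ifs with h
  · refine ⟨by positivity, Real.rpow_le_one_of_one_le_of_nonpos ?_ (by norm_num)⟩
    exact_mod_cast Nat.one_le_iff_ne_zero.2 h.choose_spec.1.ne_zero
  · simp

lemma calc1 {b u : ℝ} (hb : 0 < b) (hu : 0 < u) :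
    b * (u ^ 2) ^ 2 / Real.sqrt ((b * u ^ 3) ^ 2) * ((b * u ^ 3) ^ 2) ^ (-1 / 6 : ℝ) =
      b ^ (-1 / 3 : ℝ) := by
  have h1 : 0 < b * u ^ 3 := by positivity
  have h2 : ((b * u ^ 3) ^ 2) ^ (-1 / 6 : ℝ) = b ^ (-1 / 3 : ℝ) * u⁻¹ := by
    rw [← Real.rpow_natCast, ← Real.rpow_mul h1.le, Real.mul_rpow hb.le (by positivity),
      ← Real.rpow_natCast u 3, ← Real.rpow_mul hu.le, ← Real.rpow_neg_one]
    norm_num
  rw [Real.sqrt_sq h1.le, h2]
  field_simp

end RATM

open RATM in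
theorem ratS (E : Env) : RATStmt := by
  have hB := E.hB
  refine ⟨mm_bd, fun a ha => ?_⟩
  have a3 : ¬ 3 ∣ a.natAbs := by
    have := (prim_int a).1 ha
    omega
  have c1 : cub lam a = 1 := cub_int hB (Or.inr cj_lam) (hB.b2.cop _ ha) (cop_lam hB ha)
  unfold mm
  split_ifs with h
  · obtain ⟨hs, he⟩ := h.choose_spec
    generalize h.choose.1 = b at *
    generalize h.choose.2 = u at *
    obtain ⟨B, b1, b2, b3, b4⟩ := sqf_case E b hs fun h => a3 (he ▸ h.mul_right _)
    obtain ⟨U, u1, u2⟩ := ex_prim u fun h => a3 (he ▸ (dvd_pow h (by norm_num)).mul_left _)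
    have e : a = B * U ^ 3 := eq_of_natAbs ha
      (by push_cast; exact hB.b2.mul _ _ b2 (hB.b2.pow _ _ u2))
      (by rw [Int.natAbs_mul, Int.natAbs_pow, b1, u1, he])
    have e' : (a : O) = B * (U : O) ^ 3 := by rw [e]; push_cast; rfl
    have nU : N (U : O) = (u : ℝ) ^ 2 := by
      rw [hB.b1.N_int, ← u1, Nat.cast_natAbs, Int.cast_abs, sq_abs]
    have nA : N (a : O) = ((b : ℝ) * (u : ℝ) ^ 3) ^ 2 := by
      have : ((a.natAbs : ℕ) : ℝ) = (b : ℝ) * (u : ℝ) ^ 3 := by exact_mod_cast he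
      rw [hB.b1.N_int, ← this, Nat.cast_natAbs, Int.cast_abs, sq_abs]
    have b0 : (0 : ℝ) < b := by exact_mod_cast Nat.pos_of_ne_zero hs.ne_zero
    have u0 : (0 : ℝ) < u := by
      refine Nat.cast_pos.2 (Nat.pos_of_ne_zero ?_)
      rintro rfl
      exact a3 (by rw [he]; simp)
    have hbb : bb (a : O) = b * (((u : ℝ) ^ 2 : ℝ) : ℂ) ^ 2 := by
      rw [e', E.hb.eq _ _ b2 u2 b3, b4, nU]
    rw [← calc1 b0 u0, cc, c1, hbb, nA]
    simp only [map_div₀, map_mul, map_pow, conj_ofReal, map_natCast, one_mul]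
    push_cast
    ring
  · rcases E.hb.cases a with h0 | ⟨n, u, hn, hu, hs, e⟩
    · simp [cc, h0]
    · exfalso
      have e2 : (a : O) = cj n * cj u ^ 3 := by
        rw [← cj_int a, e]
        exact (map_mul CRM.cjE _ _).trans (congrArg _ (map_pow CRM.cjE _ _))
      have s2 : Squarefree (cj n) := by
        intro x hx
        have h1 := map_dvd CRM.cjE hx
        change cj (x * x) ∣ cj (cj n) at h1
        rw [CRM.cj_cj, CRM.cj_mul] at h1
        have h2 := (hs _ h1).map CRM.cjE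
        change IsUnit (cj (cj x)) at h2
        rwa [CRM.cj_cj] at h2
      obtain ⟨f1, f2⟩ := E.hb.uniq n u (cj n) (cj u) hn hu hs (CRM.cj_prim hn) (CRM.cj_prim hu) s2
        (e.symm.trans e2)
      have g1 := eq_int f1.symm
      have g2 := eq_int f2.symm
      refine h ⟨(n.re.natAbs, u.re.natAbs), sqf_int (g1 ▸ hs) hB, ?_⟩
      have : a = n.re * u.re ^ 3 := by
        have h5 : ((a : ℤ) : O) = ((n.re * u.re ^ 3 : ℤ) : O) := by
          push_cast; rw [← g1, ← g2, e]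
        have := congrArg QuadraticAlgebra.re h5
        simpa only [QuadraticAlgebra.re_intCast, Int.cast_id] using this
      rw [this, Int.natAbs_mul, Int.natAbs_pow]

end Vale.Agent.P006.K
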