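import Vale.Agent.P006.K.DEC
import Vale.Agent.P006.Poi3

/-! Character sums over primary elements of squarefree norm. -/

noncomputable section
open Complex MeasureTheory Filter Topology
open scoped Classical ComplexConjugate

namespace Vale.Agent.P006.K
open Vale.Agent.P026

namespace SQM

lemma gen {ι : Type} (a : ι → O → ℂ) (b : O → ℂ) (β γ : ι → ℝ) (h1 : ∀ n, ∑' i, a i n = b n)
    (h2 : ∀ i, Summable fun n => ‖a i n‖) (h3 : ∀ i, ∑' n, ‖a i n‖ ≤ γ i) (hγ : Summable γ)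
    (h4 : ∀ i, ‖∑' n, a i n‖ ≤ β i) (hβ : Summable β) : ‖∑' n, b n‖ ≤ ∑' i, β i := by
  have hs : Summable fun p : ι × O => ‖a p.1 p.2‖ :=
    (summable_prod_of_nonneg fun _ => norm_nonneg _).2
      ⟨h2, hγ.of_nonneg_of_le (fun _ => tsum_nonneg fun _ => norm_nonneg _) h3⟩
  have hc := Summable.tsum_comm (f := a) hs.of_norm
  simp only [h1] at hc
  rw [hc]
  exact tsum_of_norm_bounded hβ.hasSum h4

lemma reix {R : Type} [AddCommMonoid R] [TopologicalSpace R] {k : O} (hk : k ≠ 0) (g : O → R) :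
    ∑' n, (if k ∣ n then g n else 0) = ∑' l, g (k * l) := by
  rw [← (mul_right_injective₀ hk).tsum_eq (f := fun n => if k ∣ n then g n else 0) fun n hn => by
    obtain ⟨l, rfl⟩ : k ∣ n := by_contra fun h => hn (if_neg h)
    exact ⟨l, rfl⟩]
  simp

def V (X : ℝ) (w : ℂ) (n : O) : ℂ := (N n : ℂ) ^ w * VV X (N n)
def U (X : ℝ) (n : O) : ℝ := if n = 0 then 0 else N n ^ (19 / 18 : ℝ) * VV X (N n)

lemma Np (E : Env) {n : O} (h : n ≠ 0) : 0 < N n := zero_lt_one.trans_le (E.hB.b1.N_one_le n h)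

lemma U0 (X : ℝ) (n : O) : 0 ≤ U X n := by
  unfold U
  split_ifs
  · rfl
  · exact mul_nonneg (Real.rpow_nonneg (Nat.cast_nonneg _) _) (Real.exp_pos _).le

lemma nV (E : Env) {X : ℝ} {w : ℂ} (hw : w.re = 19 / 18) {n : O} (h : n ≠ 0) :
    ‖V X w n‖ = U X n := by
  rw [V, U, if_neg h, norm_mul, norm_cpow_eq_rpow_re_of_pos (Np E h), hw, norm_real,
    Real.norm_of_nonneg (show 0 ≤ VV X (N n) from (Real.exp_pos _).le)]

lemma V_mul (E : Env) {X : ℝ} (hX : 0 < X) (w : ℂ) {k l : O} (hk : k ≠ 0) (hl : l ≠ 0) :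
    V X w (k * l) = (N k : ℂ) ^ w * V (X / N k) w l := by
  rw [V, V, E.hB.b1.N_mul, E.hL.scale X _ _ hX (Np E hl) (Np E hk), ofReal_mul,
    mul_cpow_ofReal_nonneg (Np E hk).le (Np E hl).le, mul_assoc]

lemma Usum (E : Env) : ∃ C : ℝ, 0 ≤ C ∧ ∀ X : ℝ, 0 < X → Summable (U X) ∧
    ∀ k : O, k ≠ 0 → ∑' n, (if k ∣ n then U X n else 0) ≤ C * X ^ (37 / 18 : ℝ) * (N k)⁻¹ := by
  obtain ⟨C, hC⟩ := E.hL.sum (19 / 18)
  have h1 : ∀ X : ℝ, 0 < X → ∑' n, U X n ≤ |C| * X ^ (37 / 18 : ℝ) := fun X hX => by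
    have := (hC X hX).2
    rw [if_pos (by norm_num), show (19 / 18 + 1 : ℝ) = 37 / 18 by norm_num] at this
    refine this.trans ?_
    have p := Real.rpow_nonneg hX.le (37 / 18)
    calc _ ≤ |C| * X ^ (37 / 18 : ℝ) * min 1 X :=
          mul_le_mul_of_nonneg_right (mul_le_mul_of_nonneg_right (le_abs_self C) p) (by positivity)
      _ ≤ _ := mul_le_of_le_one_right (by positivity) (min_le_left _ _)
  refine ⟨|C|, abs_nonneg C, fun X hX => ⟨(hC X hX).1, fun k hk => ?_⟩⟩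
  have k0 := Np E hk
  have e : ∀ l, U X (k * l) = N k ^ (19 / 18 : ℝ) * U (X / N k) l := fun l => by
    by_cases hl : l = 0
    · simp [U, hl]
    · rw [U, U, if_neg hl, if_neg (mul_ne_zero hk hl), E.hB.b1.N_mul,
        E.hL.scale X _ _ hX (Np E hl) k0, Real.mul_rpow k0.le (Np E hl).le, mul_assoc]
  rw [reix hk]
  simp only [e, tsum_mul_left]
  refine (mul_le_mul_of_nonneg_left (h1 _ (by positivity)) (by positivity)).trans_eq ?_
  rw [Real.div_rpow hX.le k0.le, show (37 / 18 : ℝ) = 19 / 18 + 1 by norm_num,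
    Real.rpow_add_one k0.ne']
  field_simp

lemma dom (E : Env) {X : ℝ} {w : ℂ} (hw : w.re = 19 / 18) (M k n : O) {c : ℂ} (hc : ‖c‖ ≤ 1)
    (R : Prop) [Decidable R] : ‖if k ∣ n then (if Prim n ∧ R then c * (cub M n * V X w n) else 0) else 0‖ ≤
      if k ∣ n then U X n else 0 := by
  split_ifs with h1 h2
  · rw [norm_mul, norm_mul, nV E hw (E.hB.b2.ne n h2.1), ← mul_assoc]
    exact mul_le_of_le_one_left (U0 X n) (mul_le_one₀ hc (norm_nonneg _) (E.hB.b6.norm_le _ _))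
  · simpa using U0 X n
  · simp

lemma sumU {X : ℝ} (h : Summable (U X)) (k : O) : Summable fun n => if k ∣ n then U X n else 0 :=
  h.of_nonneg_of_le (fun n => by split_ifs; exacts [U0 X n, le_rfl])
    fun n => by split_ifs; exacts [le_rfl, U0 X n]

lemma reidx (E : Env) {X : ℝ} (hX : 0 < X) {w : ℂ} (hw : w.re = 19 / 18) (M : O) {k : O}
    (hk : Prim k) {c : ℂ} (hc : ‖c‖ ≤ 1) (R : O → Prop) [DecidablePred R] :
    ‖∑' n, if k ∣ n then (if Prim n ∧ R n then c * (cub M n * V X w n) else 0) else 0‖ ≤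
      N k ^ (19 / 18 : ℝ) *
        ‖∑' l, if Prim l ∧ R (k * l) then cub M l * V (X / N k) w l else 0‖ := by
  have k0 := E.hB.b2.ne k hk
  have e : ∀ l, (if Prim (k * l) ∧ R (k * l) then c * (cub M (k * l) * V X w (k * l)) else 0) =
      c * cub M k * (N k : ℂ) ^ w *
        if Prim l ∧ R (k * l) then cub M l * V (X / N k) w l else 0 := fun l => by
    have i : Prim (k * l) ↔ Prim l := ⟨E.hB.b2.cancel k l hk, E.hB.b2.mul k l hk⟩
    simp only [i]
    split_ifs with h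
    · have l0 := E.hB.b2.ne l h.1
      rw [V_mul E hX w k0 l0, E.hB.b6.mul_r M k l k0 l0]
      ring
    · simp
  rw [reix k0]
  simp only [e, tsum_mul_left]
  rw [norm_mul, norm_mul, norm_mul, norm_cpow_eq_rpow_re_of_pos (Np E k0), hw]
  refine mul_le_mul_of_nonneg_right (mul_le_of_le_one_left (Real.rpow_nonneg (Np E k0).le _)
    (mul_le_one₀ hc (norm_nonneg _) (E.hB.b6.norm_le _ _))) (norm_nonneg _)

lemma base (E : Env) (hT : TRStmt) (hG : GBStmt) {ε : ℝ} (h0 : 0 < ε) (h1 : ε ≤ 1 / 2) :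
    ∃ C : ℝ, 0 ≤ C ∧ ∀ (m1 m2 f : ℤ) (X : ℝ) (w : ℂ), f ≠ 0 → ¬ IsCb (m1 * m2 ^ 2) → 0 < X →
    w.re = 19 / 18 →
    ‖∑' l, if Prim l ∧ True then cub ((m1 * m2 ^ 2 * f ^ 3 : ℤ) : O) l * V X w l else 0‖ ≤
      C * Real.exp (4 * |w.im|) * X ^ (14 / 9 + ε) * |((m1 * m2 : ℤ) : ℝ)| ^ (1 / 2 + ε) *
        |(f : ℝ)| ^ ε := by
  obtain ⟨C1, c1, hC1⟩ := hT ε h0 (by linarith)
  obtain ⟨C2, c2, hC2⟩ := hG ε h0
  obtain ⟨C3, c3, hC3⟩ := Usum E
  refine ⟨C1 * C2 + C3, by positivity, fun m1 m2 f X w hf hm hX hw => ?_⟩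
  have q0 : m1 * m2 ≠ 0 := fun h => hm ⟨0, by linear_combination m2 * h⟩
  set Q := |((m1 * m2 : ℤ) : ℝ)| with hQ
  have q1 : 1 ≤ Q := by rw [hQ]; exact_mod_cast Int.one_le_abs q0
  have f1 : 1 ≤ |(f : ℝ)| := by exact_mod_cast Int.one_le_abs hf
  have e1 : 1 ≤ Real.exp (4 * |w.im|) := Real.one_le_exp (by positivity)
  have f2 : 1 ≤ |(f : ℝ)| ^ ε := Real.one_le_rpow f1 h0.le
  have pX : 0 < X ^ (14 / 9 + ε) := Real.rpow_pos_of_pos hX _
  have pQ : 0 < Q ^ (1 / 2 + ε) := Real.rpow_pos_of_pos (by linarith) _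
  rcases le_total X Q with h | h
  · have t1 := tsum_of_norm_bounded (sumU (hC3 X hX).1 1).hasSum fun n =>
      dom E (X := X) hw ((m1 * m2 ^ 2 * f ^ 3 : ℤ) : O) 1 n (c := 1) (by simp) True
    have t2 := (hC3 X hX).2 1 one_ne_zero
    have n1 : N 1 = 1 := by simpa using E.hB.b1.N_int 1
    simp only [one_dvd, if_true, one_mul, n1, inv_one, mul_one] at t1 t2
    have t3 : X ^ (37 / 18 : ℝ) ≤ X ^ (14 / 9 + ε) * Q ^ (1 / 2 + ε) := by
      rw [show (37 / 18 : ℝ) = (14 / 9 + ε) + (1 / 2 - ε) by ring, Real.rpow_add hX]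
      refine mul_le_mul_of_nonneg_left ((Real.rpow_le_rpow hX.le h (by linarith)).trans
        (Real.rpow_le_rpow_of_exponent_le q1 (by linarith))) pX.le
    calc _ ≤ C3 * X ^ (37 / 18 : ℝ) := t1.trans t2
      _ ≤ C3 * (X ^ (14 / 9 + ε) * Q ^ (1 / 2 + ε)) := by gcongr
      _ = C3 * 1 * X ^ (14 / 9 + ε) * Q ^ (1 / 2 + ε) * 1 := by ring
      _ ≤ _ := by gcongr; linarith [mul_nonneg c1 c2]
  · have t1 := hC1 (fun l => if Prim l then cub ((m1 * m2 ^ 2 * f ^ 3 : ℤ) : O) l else 0) 0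
      (C2 * Q * |((m1 * m2 * f : ℤ) : ℝ)| ^ ε) X w (if_neg fun h => E.hB.b2.ne 0 h rfl)
      (fun l => by split_ifs; exacts [E.hB.b6.norm_le _ _, by simp]) hX
      (by rw [hw, abs_of_pos] <;> norm_num) fun y hy => by
        rw [zero_div, sub_zero]; exact hC2 m1 m2 f y hf hm hy
    have e : ∀ l, (if Prim l then cub ((m1 * m2 ^ 2 * f ^ 3 : ℤ) : O) l else 0) * (N l : ℂ) ^ w *
        VV X (N l) = if Prim l ∧ True then cub ((m1 * m2 ^ 2 * f ^ 3 : ℤ) : O) l * V X w l else 0 :=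
      fun l => by by_cases h : Prim l <;> simp [h, V, mul_assoc]
    simp only [e, zero_mul, sub_zero] at t1
    have t2 : |((m1 * m2 * f : ℤ) : ℝ)| ^ ε = Q ^ ε * |(f : ℝ)| ^ ε := by
      rw [Int.cast_mul, abs_mul, Real.mul_rpow (abs_nonneg _) (abs_nonneg _)]
    have t3 : Q * Q ^ ε * X ^ (ε + 19 / 18) ≤ X ^ (14 / 9 + ε) * Q ^ (1 / 2 + ε) := by
      have q : 0 < Q := by linarith
      have a1 : Q * Q ^ ε = Q ^ (1 / 2 : ℝ) * Q ^ (1 / 2 + ε) := by
        rw [← Real.rpow_add q, show (1 / 2 + (1 / 2 + ε) : ℝ) = 1 + ε by ring, Real.rpow_add q,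
          Real.rpow_one]
      have a2 : X ^ (14 / 9 + ε) = X ^ (1 / 2 : ℝ) * X ^ (ε + 19 / 18) := by
        rw [← Real.rpow_add hX]; congr 1; ring
      have a3 : Q ^ (1 / 2 : ℝ) ≤ X ^ (1 / 2 : ℝ) := Real.rpow_le_rpow q.le h (by norm_num)
      rw [a1, a2]
      calc _ = Q ^ (1 / 2 : ℝ) * (X ^ (ε + 19 / 18) * Q ^ (1 / 2 + ε)) := by ring
        _ ≤ X ^ (1 / 2 : ℝ) * (X ^ (ε + 19 / 18) * Q ^ (1 / 2 + ε)) := by gcongr
        _ = _ := by ring
    rw [t2, hw] at t1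
    calc _ ≤ _ := t1
      _ = C1 * C2 * Real.exp (4 * |w.im|) * (Q * Q ^ ε * X ^ (ε + 19 / 18)) * |(f : ℝ)| ^ ε := by
          ring
      _ ≤ (C1 * C2 + C3) * Real.exp (4 * |w.im|) * (X ^ (14 / 9 + ε) * Q ^ (1 / 2 + ε)) *
          |(f : ℝ)| ^ ε := by gcongr; linarith
      _ = _ := by ring

lemma sqdec (hB : Bas) {n : O} (hn : Prim n) : ∃ a r, Squarefree a ∧ Prim r ∧ n = a * (r * r) := by
  refine hB.b2.ind1 (fun n => ∃ a r, Squarefree a ∧ Prim r ∧ n = a * (r * r))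
    ⟨1, 1, squarefree_one, hB.b2.one, by ring⟩ ?_ n hn
  rintro p _ hp h1 - ⟨a, r, ha, hr, rfl⟩
  by_cases h : p ∣ a
  · obtain ⟨b, rfl⟩ := h
    exact ⟨b, p * r, ha.of_mul_right, hB.b2.mul _ _ h1 hr, by ring⟩
  · exact ⟨p * a, r, squarefree_mul_iff.2 ⟨hp.irreducible.isRelPrime_iff_not_dvd.2 h,
      hp.irreducible.squarefree, ha⟩, hr, by ring⟩

lemma mob1 (hB : Bas) {n : O} (hn : Prim n) (z : ℂ) :
    ∑' t, (if t * t ∣ n then (if Prim t then mu t else 0) * z else 0) =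
      if Squarefree n then z else 0 := by
  obtain ⟨a, r, ha, hr, rfl⟩ := sqdec hB hn
  have r0 := hB.b2.ne r hr
  set D := (hB.b3.fin (N r)).toFinset.filter Prim with hD
  have hD' : ∀ d, Prim d → d ∣ r → d ∈ D := fun d hd h => by
    simp only [hD, Finset.mem_filter, Set.Finite.mem_toFinset, Set.mem_ofPred_eq]
    obtain ⟨e, rfl⟩ := h
    refine ⟨?_, hd⟩
    rw [hB.b1.N_mul]
    exact le_mul_of_one_le_right (Nat.cast_nonneg _) (hB.b1.N_one_le e (right_ne_zero_of_mul r0))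
  have e : ∀ t, (if t * t ∣ a * (r * r) then (if Prim t then mu t else 0) * z else 0) =
      if Prim t then (if t ∣ r then mu t else 0) * z else 0 := fun t => by
    by_cases ht : Prim t
    · by_cases hs : Squarefree t
      · have i : t * t ∣ a * (r * r) ↔ t ∣ r := ⟨fun h => (hs.dvd_pow_iff_dvd two_ne_zero).1 (by
          rw [sq]; exact ha.dvd_of_squarefree_of_mul_dvd_mul_right h),
          fun h => (mul_dvd_mul h h).mul_left a⟩
        simp [i, ht]
      · simp [mu, hs]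
    · simp [ht]
  simp only [e]
  rw [tsum_eq_sum (s := D) fun t ht => by
    by_cases h : Prim t
    · rw [if_pos h, if_neg fun h' => ht (hD' t h h'), zero_mul]
    · exact if_neg h,
    Finset.sum_congr rfl fun t ht => if_pos (Finset.mem_filter.1 ht).2, ← Finset.sum_mul,
    Poi3.mob hB hr D (fun d hd => (Finset.mem_filter.1 hd).2) hD']
  by_cases h : r = 1
  · simp [h, ha]
  · rw [if_neg h, if_neg, zero_mul]
    exact fun hs => h (Poi3.eq_one_of_dvd hB hr (hs r (dvd_mul_left _ _)).dvd)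

lemma step1 (E : Env) (hT : TRStmt) (hG : GBStmt) {ε : ℝ} (h0 : 0 < ε) (h1 : ε ≤ 1 / 2) :
    ∃ C : ℝ, 0 ≤ C ∧ ∀ (m1 m2 f : ℤ) (X : ℝ) (w : ℂ), f ≠ 0 → ¬ IsCb (m1 * m2 ^ 2) → 0 < X →
    w.re = 19 / 18 →
    ‖∑' l, if Prim l ∧ Squarefree l then cub ((m1 * m2 ^ 2 * f ^ 3 : ℤ) : O) l * V X w l else 0‖ ≤
      C * Real.exp (4 * |w.im|) * X ^ (14 / 9 + ε) * |((m1 * m2 : ℤ) : ℝ)| ^ (1 / 2 + ε) *
        |(f : ℝ)| ^ ε := by
  obtain ⟨C, c0, hC⟩ := base E hT hG h0 h1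
  obtain ⟨C3, c3, hC3⟩ := Usum E
  have s1 := E.hB.b3.summ (1 + 2 * ε) (by linarith)
  have p1 : ∀ (t : O) (s : ℝ), 0 ≤ N t ^ s := fun t s => Real.rpow_nonneg (Nat.cast_nonneg _) _
  refine ⟨C * ∑' t : O, N t ^ (-(1 + 2 * ε)), mul_nonneg c0 (tsum_nonneg fun t => p1 t _),
    fun m1 m2 f X w hf hm hX hw => ?_⟩
  set M := ((m1 * m2 ^ 2 * f ^ 3 : ℤ) : O)
  set K := C * Real.exp (4 * |w.im|) * X ^ (14 / 9 + ε) * |((m1 * m2 : ℤ) : ℝ)| ^ (1 / 2 + ε) *
    |(f : ℝ)| ^ ε with hK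
  have K0 : 0 ≤ K := by positivity
  have cm : ∀ t, ‖if Prim t then mu t else 0‖ ≤ 1 := fun t => by
    split_ifs; exacts [E.h8.mu_le t, by simp]
  refine (gen (fun t n => if t * t ∣ n then (if Prim n ∧ True then
      (if Prim t then mu t else 0) * (cub M n * V X w n) else 0) else 0) _
    (fun t => K * N t ^ (-(1 + 2 * ε))) (fun t => C3 * X ^ (37 / 18 : ℝ) * N t ^ (-2 : ℝ))
    (fun n => ?_) (fun t => ?_) (fun t => ?_) ((E.hB.b3.summ 2 one_lt_two).mul_left _)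
    (fun t => ?_) (s1.mul_left K)).trans_eq ?_
  · by_cases hn : Prim n
    · simp only [hn, true_and, if_true]
      exact mob1 E.hB hn _
    · simp [hn]
  · exact (sumU (hC3 X hX).1 (t * t)).of_nonneg_of_le (fun _ => norm_nonneg _)
      fun n => dom E hw M _ n (cm t) True
  · by_cases ht : Prim t
    · have t0 := E.hB.b2.ne t ht
      refine (Summable.tsum_le_tsum (fun n => dom E hw M _ n (cm t) True)
        ((sumU (hC3 X hX).1 (t * t)).of_nonneg_of_le (fun _ => norm_nonneg _)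
          fun n => dom E hw M _ n (cm t) True) (sumU (hC3 X hX).1 (t * t))).trans
        (((hC3 X hX).2 _ (mul_ne_zero t0 t0)).trans_eq ?_)
      rw [E.hB.b1.N_mul, Real.rpow_neg (Np E t0).le, Real.rpow_two, sq]
    · have := p1 t (-2)
      simp only [ht, if_false, zero_mul, ite_self, norm_zero, tsum_zero]
      positivity
  · by_cases ht : Prim t
    · have t0 := Np E (E.hB.b2.ne t ht)
      refine (reidx E hX hw M (E.hB.b2.mul t t ht ht) (cm t) fun _ => True).trans ?_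
      have := hC m1 m2 f (X / N (t * t)) w hf hm (by rw [E.hB.b1.N_mul]; positivity) hw
      refine (mul_le_mul_of_nonneg_left this (p1 _ _)).trans_eq ?_
      have a1 : N t ^ (-(1 + 2 * ε)) = (N t * N t) ^ (19 / 18 : ℝ) / (N t * N t) ^ (14 / 9 + ε) := by
        rw [← Real.rpow_sub (by positivity), ← sq, ← Real.rpow_two, ← Real.rpow_mul t0.le]
        congr 1
        ring
      rw [E.hB.b1.N_mul, Real.div_rpow hX.le (by positivity), hK, a1]
      ring
    · have := p1 t (-(1 + 2 * ε))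
      simp only [ht, if_false, zero_mul, ite_self, norm_zero, tsum_zero]
      positivity
  · rw [tsum_mul_left, hK]
    ring

lemma mob2 (hB : Bas) (s : ℕ → ℤ) (hs : ∀ d, (s d).natAbs = d) {n : O} (hn : Prim n)
    (h : Squarefree n) (z : ℂ) :
    ∑' d : ℕ, (if (s d : O) ∣ n then ((ArithmeticFunction.moebius d : ℤ) : ℂ) * z else 0) =
      if Squarefree (Nn n) then z else 0 := by
  set g := Int.gcd n.re n.im with hg
  have i : ∀ m : ℤ, (m : O) ∣ n ↔ m.natAbs ∣ g := fun m => by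
    rw [DECM.idvd, ← Int.natCast_dvd_natCast, Int.natAbs_dvd, hg, Int.dvd_coe_gcd_iff]
  have g0 : g ≠ 0 := fun h0 => by
    have := (i 0).2 (by simp [h0])
    exact hB.b2.ne n hn (by simpa using this)
  simp only [i, hs]
  rw [tsum_eq_sum (s := g.divisors) fun d hd => if_neg fun h' => hd (Nat.mem_divisors.2 ⟨h', g0⟩),
    Finset.sum_congr rfl fun d hd => if_pos (Nat.dvd_of_mem_divisors hd), ← Finset.sum_mul]
  have e := congrArg (fun f : ArithmeticFunction ℤ => f g) ArithmeticFunction.moebius_mul_coe_zeta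
  simp only [ArithmeticFunction.coe_mul_zeta_apply, ArithmeticFunction.one_apply] at e
  rw [← Int.cast_sum, e]
  by_cases h1 : g = 1
  · rw [if_pos h1, if_pos (DECM.Nn_sqf hB (hB.b2.cop n hn) h fun l hl hd => hl.ne_one (by
      have := (i l).1 (by exact_mod_cast hd)
      simpa [h1] using this))]
    simp
  · rw [if_neg h1, if_neg]
    · simp
    · intro hq
      have := DECM.Nn_dvd hB ((i g).2 (by simp))
      rw [DECM.Nn_int, Int.natAbs_natCast, sq] at this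
      exact h1 (Nat.isUnit_iff.1 (hq g this))

end SQM

open SQM

theorem sqS (E : Env) (hT : TRStmt) (hG : GBStmt) : SQStmt := by
  intro ε h0 h1
  obtain ⟨C, c0, hC⟩ := step1 E hT hG h0 h1
  obtain ⟨C3, c3, hC3⟩ := Usum E
  have s1 : Summable fun d : ℕ => (d : ℝ) ^ (-(1 + ε)) := Real.summable_nat_rpow.2 (by linarith)
  have s2 : Summable fun d : ℕ => (d : ℝ) ^ (-2 : ℝ) := Real.summable_nat_rpow.2 (by norm_num)
  have p1 : ∀ (d : ℕ) (s : ℝ), 0 ≤ (d : ℝ) ^ s := fun d s => Real.rpow_nonneg (Nat.cast_nonneg _) _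
  have hs : ∀ d : ℕ, ∃ f : ℤ, f.natAbs = d ∧ (IsCoprime (f : O) 3 → Prim (f : O)) := fun d => by
    by_cases h : IsCoprime ((d : ℤ) : O) 3
    · rcases DECM.sign E.hB d h with h | h
      · exact ⟨d, by simp, fun _ => h⟩
      · exact ⟨-d, by simp, fun _ => h⟩
    · exact ⟨d, by simp, fun h' => absurd h' h⟩
  choose s hs1 hs2 using hs
  refine ⟨C * ∑' d : ℕ, (d : ℝ) ^ (-(1 + ε)), mul_nonneg c0 (tsum_nonneg fun d => p1 d _),
    fun m1 m2 X w hm hX hw => ?_⟩
  set M := ((m1 * m2 ^ 2 : ℤ) : O) with hM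
  set K := C * Real.exp (4 * |w.im|) * X ^ (14 / 9 + ε) * |((m1 * m2 : ℤ) : ℝ)| ^ (1 / 2 + ε) with hK
  have K0 : 0 ≤ K := by positivity
  have cm : ∀ d : ℕ, ‖((ArithmeticFunction.moebius d : ℤ) : ℂ)‖ ≤ 1 := fun d => by
    rw [Complex.norm_intCast]
    exact_mod_cast ArithmeticFunction.abs_moebius_le_one
  have ab : ∀ d, |(s d : ℝ)| = d := fun d => by
    rw [← Int.cast_abs, Int.abs_eq_natAbs, hs1, Int.cast_natCast]
  have Ns : ∀ d, N (s d : O) = (d : ℝ) * d := fun d => by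
    rw [E.hB.b1.N_int, ← sq_abs, ab, sq]
  refine (gen (fun (d : ℕ) n => if (s d : O) ∣ n then (if Prim n ∧ Squarefree n then
      ((ArithmeticFunction.moebius d : ℤ) : ℂ) * (cub M n * V X w n) else 0) else 0) _
    (fun d => K * (d : ℝ) ^ (-(1 + ε))) (fun d => C3 * X ^ (37 / 18 : ℝ) * (d : ℝ) ^ (-2 : ℝ))
    (fun n => ?_) (fun d => ?_) (fun d => ?_) (s2.mul_left _)
    (fun d => ?_) (s1.mul_left K)).trans_eq ?_
  · by_cases hn : Prim n ∧ Squarefree n
    · simp only [hn, true_and, if_true]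
      rw [mob2 E.hB s hs1 hn.1 hn.2, V, mul_assoc]
    · rw [if_neg fun h => hn ⟨h.1, DECM.sqf_of_Nn E.hB h.2⟩]
      simp [hn]
  · exact (sumU (hC3 X hX).1 _).of_nonneg_of_le (fun _ => norm_nonneg _)
      fun n => dom E hw M _ n (cm d) _
  · rcases Nat.eq_zero_or_pos d with rfl | hd
    · simp
    · have d0 : (0 : ℝ) < d := by exact_mod_cast hd
      have t0 : (s d : O) ≠ 0 := fun h => by
        have := Ns d
        rw [h, E.hB.b1.N_zero] at this
        nlinarith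
      refine (Summable.tsum_le_tsum (fun n => dom E hw M _ n (cm d) _)
        ((sumU (hC3 X hX).1 _).of_nonneg_of_le (fun _ => norm_nonneg _)
          fun n => dom E hw M _ n (cm d) _) (sumU (hC3 X hX).1 _)).trans
        (((hC3 X hX).2 _ t0).trans_eq ?_)
      rw [Ns, Real.rpow_neg d0.le, Real.rpow_two, sq]
  · by_cases hd : Squarefree d ∧ IsCoprime (s d : O) 3
    · have d0 : (0 : ℝ) < d := by exact_mod_cast Nat.pos_of_ne_zero hd.1.ne_zero
      have f0 : s d ≠ 0 := fun h => by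
        have := ab d
        rw [h] at this
        simp only [Int.cast_zero, abs_zero] at this
        linarith
      have sf : Squarefree (s d : O) :=
        DECM.sqf_int E.hB (Int.squarefree_natAbs.1 (by rw [hs1]; exact hd.1)) hd.2
      refine (reidx E hX hw M (hs2 d hd.2) (cm d) Squarefree).trans ?_
      have := hC m1 m2 (s d) (X / N (s d : O)) w f0 hm (by rw [Ns]; positivity) hw
      have e : ∀ l, (if Prim l ∧ Squarefree ((s d : O) * l) then
          cub M l * V (X / N (s d : O)) w l else 0) = if Prim l ∧ Squarefree l then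
          cub ((m1 * m2 ^ 2 * s d ^ 3 : ℤ) : O) l * V (X / N (s d : O)) w l else 0 := fun l => by
        by_cases hl : Prim l
        · have c3 := E.hB.b2.cop l hl
          have e1 : ((m1 * m2 ^ 2 * s d ^ 3 : ℤ) : O) = M * (s d : O) ^ 3 := by
            rw [hM]; push_cast; ring
          rw [e1, E.hB.b6.mul_l _ _ _ c3, E.hB.b6.pow_l _ _ _ c3, squarefree_mul_iff,
            isRelPrime_iff_isCoprime]
          by_cases hc : IsCoprime (s d : O) l
          · simp [hc, sf, E.hB.b6.cube _ _ hc]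
          · simp [hc, E.hB.b6.zero _ _ (E.hB.b2.ne l hl) hc]
        · simp [hl]
      simp only [e]
      refine (mul_le_mul_of_nonneg_left this (Real.rpow_nonneg
        (show 0 ≤ N (s d : O) from Nat.cast_nonneg _) (19 / 18))).trans_eq ?_
      have a1 : (d : ℝ) ^ (-(1 + ε)) =
          ((d : ℝ) * d) ^ (19 / 18 : ℝ) / ((d : ℝ) * d) ^ (14 / 9 + ε) * (d : ℝ) ^ ε := by
        rw [← Real.rpow_sub (by positivity), ← sq, ← Real.rpow_two, ← Real.rpow_mul d0.le,
          ← Real.rpow_add d0]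
        congr 1
        ring
      rw [Ns, ab, Real.div_rpow hX.le (by positivity), hK, a1]
      ring
    · have := p1 d (-(1 + ε))
      have z : ∀ n, (if (s d : O) ∣ n then (if Prim n ∧ Squarefree n then
          ((ArithmeticFunction.moebius d : ℤ) : ℂ) * (cub M n * V X w n) else 0) else 0) = 0 := by
        intro n
        split_ifs with a b
        · have : ¬ Squarefree d := fun h =>
            hd ⟨h, (E.hB.b2.cop n b.1).of_isCoprime_of_dvd_left a⟩
          simp [ArithmeticFunction.moebius_eq_zero_of_not_squarefree this]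
        · rfl
        · rfl
      simp only [z, tsum_zero, norm_zero]
      positivity
  · rw [tsum_mul_left, hK]
    ring

end Vale.Agent.P006.K
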