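import Vale.Agent.P006.K0

/-! Transfer from Gaussian weights to log-normal weights. -/

noncomputable section
open Complex MeasureTheory Filter Topology Set
open scoped Classical ComplexConjugate

namespace Vale.Agent.P006.K
open Vale.Agent.P026

namespace TRM

def HH (X : ℝ) (w s : ℂ) : ℂ :=
  (Real.sqrt Real.pi : ℂ) * cexp ((s + w) ^ 2 / 4) * (X : ℂ) ^ (s + w) * (Gamma s)⁻¹

def ph (X : ℝ) (w : ℂ) (σ y : ℝ) : ℂ :=
  ((2 * Real.pi : ℝ) : ℂ)⁻¹ * ∫ u : ℝ, HH X w (σ + u * I) * (y : ℂ) ^ (σ + u * I - 1)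

lemma HH_diff {X : ℝ} (hX : 0 < X) (w : ℂ) : Differentiable ℂ (HH X w) := by
  unfold HH
  refine Differentiable.mul (Differentiable.mul (by fun_prop) ?_) differentiable_one_div_Gamma
  exact fun s => DifferentiableAt.const_cpow (by fun_prop) (Or.inl (by exact_mod_cast hX.ne'))

lemma ie : Integrable fun u : ℝ => Real.exp (-(1 / 2 * |u|)) := by
  refine (integrable_inv_one_add_sq.const_mul 8).mono' (by fun_prop) (ae_of_all _ fun u => ?_)
  rw [Real.norm_of_nonneg (Real.exp_pos _).le, Real.exp_neg]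
  have h := Real.quadratic_le_exp_of_nonneg (x := 1 / 2 * |u|) (by positivity)
  have h2 : |u| ^ 2 = u ^ 2 := sq_abs u
  rw [← div_eq_mul_inv, inv_eq_one_div, div_le_div_iff₀ (Real.exp_pos _) (by positivity)]
  nlinarith [abs_nonneg u]

lemma HB (hΓ : GAM) : ∃ C : ℝ, 0 ≤ C ∧ ∀ (X : ℝ) (w s : ℂ), 0 < X → |w.re| ≤ 2 → 0 ≤ s.re →
    s.re ≤ 2 → ‖HH X w s‖ ≤
      C * X ^ (s.re + w.re) * Real.exp (4 * |w.im|) * Real.exp (-(1 / 2 * |s.im|)) := by
  obtain ⟨C, hC⟩ := hΓ.inv 0 2
  have C0 : 0 ≤ C := by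
    have := (norm_nonneg _).trans (hC 0 (by simp) (by simp))
    simpa using this
  refine ⟨Real.sqrt Real.pi * Real.exp 20 * C, by positivity, fun X w s hX hw h0 h2 => ?_⟩
  have e1 : ((s + w) ^ 2 / 4).re = ((s.re + w.re) ^ 2 - (s.im + w.im) ^ 2) / 4 := by
    simp [sq]
  have hw' := abs_le.1 hw
  have h3 : |s.im| ≤ |s.im + w.im| + |w.im| := by
    simpa using abs_sub (s.im + w.im) w.im
  have h4 : ((s.re + w.re) ^ 2 - (s.im + w.im) ^ 2) / 4 + 7 / 2 * |s.im| ≤
      20 + 4 * |w.im| + -(1 / 2 * |s.im|) := by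
    rw [← sq_abs (s.im + w.im)]
    nlinarith [sq_nonneg (|s.im + w.im| - 8)]
  have h5 := Real.exp_le_exp.2 h4
  rw [Real.exp_add, Real.exp_add, Real.exp_add] at h5
  unfold HH
  rw [norm_mul, norm_mul, norm_mul, norm_exp, e1, norm_cpow_eq_rpow_re_of_pos hX, add_re,
    norm_real, Real.norm_of_nonneg (Real.sqrt_nonneg _)]
  have hp : 0 ≤ X ^ (s.re + w.re) := Real.rpow_nonneg hX.le _
  calc _ ≤ Real.sqrt Real.pi * Real.exp (((s.re + w.re) ^ 2 - (s.im + w.im) ^ 2) / 4) *
        X ^ (s.re + w.re) * (C * Real.exp (7 / 2 * |s.im|)) := by gcongr; exact hC s h0 h2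
    _ = Real.sqrt Real.pi * C * X ^ (s.re + w.re) *
        (Real.exp (((s.re + w.re) ^ 2 - (s.im + w.im) ^ 2) / 4) * Real.exp (7 / 2 * |s.im|)) := by
        ring
    _ ≤ Real.sqrt Real.pi * C * X ^ (s.re + w.re) *
        (Real.exp 20 * Real.exp (4 * |w.im|) * Real.exp (-(1 / 2 * |s.im|))) := by gcongr
    _ = _ := by ring

lemma meas {X : ℝ} (hX : 0 < X) (w : ℂ) (σ : ℝ) : Measurable fun q : ℝ × ℝ =>
    HH X w (σ + q.2 * I) * (q.1 : ℂ) ^ (σ + q.2 * I - 1) := by
  have := (HH_diff hX w).continuous.measurable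
  fun_prop

lemma ph_meas {X : ℝ} (hX : 0 < X) (w : ℂ) (σ : ℝ) : Measurable (ph X w σ) :=
  ((meas hX w σ).stronglyMeasurable.integral_prod_right'.measurable).const_mul _

section
variable {X K : ℝ} {w : ℂ} {σ : ℝ}

lemma ph_bd (h : ∀ u : ℝ, ‖HH X w (σ + u * I)‖ ≤ K * Real.exp (-(1 / 2 * |u|))) {y : ℝ}
    (hy : 0 < y) : ‖ph X w σ y‖ ≤ K * (∫ u : ℝ, Real.exp (-(1 / 2 * |u|))) * y ^ (σ - 1) := by
  have h1 : ‖∫ u : ℝ, HH X w (σ + u * I) * (y : ℂ) ^ (σ + u * I - 1)‖ ≤
      ∫ u : ℝ, K * y ^ (σ - 1) * Real.exp (-(1 / 2 * |u|)) := by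
    refine norm_integral_le_of_norm_le (ie.const_mul _) (ae_of_all _ fun u => ?_)
    rw [norm_mul, norm_cpow_eq_rpow_re_of_pos hy]
    have := mul_le_mul_of_nonneg_right (h u) (Real.rpow_nonneg hy.le (σ - 1))
    simp only [sub_re, add_re, ofReal_re, mul_re, I_re, mul_zero, ofReal_im, I_im, mul_one,
      sub_self, add_zero, one_re]
    linarith
  rw [integral_const_mul] at h1
  unfold ph
  rw [norm_mul, norm_inv, norm_real, Real.norm_of_nonneg (by positivity)]
  have h2 : (2 * Real.pi)⁻¹ ≤ 1 := inv_le_one_of_one_le₀ (by linarith [Real.pi_gt_three])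
  calc _ ≤ 1 * (K * y ^ (σ - 1) * ∫ u : ℝ, Real.exp (-(1 / 2 * |u|))) :=
        mul_le_mul h2 h1 (norm_nonneg _) zero_le_one
    _ = _ := by ring

lemma iy {x : ℝ} (hx : 0 < x) : IntegrableOn (fun y : ℝ => y ^ ((2 : ℝ) - 1) * Real.exp (-(x * y)))
    (Ioi 0) :=
  .of_integral_ne_zero (by
    rw [Real.integral_rpow_mul_exp_neg_mul_Ioi two_pos hx]
    have := Real.Gamma_pos_of_pos two_pos
    positivity)

lemma lap (hL : LN) (hX : 0 < X)
    (h : ∀ u : ℝ, ‖HH X w ((2 : ℝ) + u * I)‖ ≤ K * Real.exp (-(1 / 2 * |u|))) {x : ℝ} (hx : 0 < x) :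
    ∫ y in Ioi (0 : ℝ), ph X w 2 y * cexp (-(y * x : ℝ)) = (x : ℂ) ^ w * VV X x := by
  have hi : Integrable (Function.uncurry fun (y u : ℝ) => HH X w ((2 : ℝ) + u * I) *
      (y : ℂ) ^ (((2 : ℝ) : ℂ) + u * I - 1) * cexp (-(y * x : ℝ)))
      ((volume.restrict (Ioi 0)).prod volume) := by
    refine ((iy hx).mul_prod (ie.const_mul K)).mono' ?_ ?_
    · refine Measurable.aestronglyMeasurable ((meas hX w 2).mul ?_)
      fun_prop
    · rw [Measure.restrict_prod_eq_prod_univ]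
      filter_upwards [ae_restrict_mem (measurableSet_Ioi.prod MeasurableSet.univ)] with q hq
      have hy : 0 < q.1 := hq.1
      simp only [Function.uncurry]
      rw [norm_mul, norm_mul, norm_cpow_eq_rpow_re_of_pos hy, ← ofReal_neg, norm_exp_ofReal]
      have := mul_le_mul_of_nonneg_right (h q.2)
        (mul_pos (Real.rpow_pos_of_pos hy (2 - 1)) (Real.exp_pos (-(x * q.1)))).le
      simp only [sub_re, add_re, ofReal_re, mul_re, I_re, mul_zero, ofReal_im, I_im, mul_one,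
        sub_self, add_zero, one_re]
      rw [mul_comm q.1 x]
      linarith
  have h1 := integral_integral_swap hi
  have h2 := hL.mel X x (-w) 2 hX hx
  rw [neg_neg] at h2
  rw [h2]
  simp only [ph, mul_assoc]
  rw [integral_const_mul]
  simp only [← integral_mul_const]
  rw [h1]
  have hp : Real.sqrt Real.pi ≠ 0 := (Real.sqrt_pos.2 Real.pi_pos).ne'
  have e : ((2 * Real.sqrt Real.pi : ℝ)⁻¹ : ℝ) = (2 * Real.pi)⁻¹ * Real.sqrt Real.pi := by
    field_simp
    rw [Real.sq_sqrt Real.pi_pos.le]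
  rw [e, ofReal_mul (2 * Real.pi)⁻¹, ofReal_inv, mul_assoc, ← integral_const_mul (Real.sqrt Real.pi : ℂ)]
  congr 1
  refine integral_congr_ae (ae_of_all _ fun u => ?_)
  have hs : 0 < (((2 : ℝ) : ℂ) + u * I).re := by simp
  have h3 := integral_cpow_mul_exp_neg_mul_Ioi hs hx
  have h4 : ∫ y in Ioi (0 : ℝ), HH X w ((2 : ℝ) + u * I) * (y : ℂ) ^ (((2 : ℝ) : ℂ) + u * I - 1) *
      cexp (-(y * x : ℝ)) = HH X w ((2 : ℝ) + u * I) * ∫ y in Ioi (0 : ℝ),
        (y : ℂ) ^ (((2 : ℝ) : ℂ) + u * I - 1) * cexp (-(x * y)) := by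
    rw [← integral_const_mul]
    refine setIntegral_congr_fun measurableSet_Ioi fun y _ => ?_
    push_cast
    rw [mul_comm (y : ℂ) x]
    ring
  simp only
  rw [h4, h3, one_div, inv_cpow _ _ (by rw [arg_ofReal_of_nonneg hx.le]; exact Real.pi_ne_zero.symm),
    ← cpow_neg, sub_neg_eq_add]
  have hG := Gamma_ne_zero_of_re_pos hs
  unfold HH
  field_simp

end

def mq (σ y : ℝ) : ℝ := y ^ (σ - 1) * min 1 y⁻¹

lemma im {σ : ℝ} (h0 : 0 < σ) (h1 : σ < 1) : IntegrableOn (mq σ) (Ioi 0) := by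
  have hm : Measurable (mq σ) := by
    unfold mq
    fun_prop
  rw [← Ioc_union_Ioi_eq_Ioi zero_le_one]
  refine IntegrableOn.union ?_ ?_
  · have := (intervalIntegrable_iff_integrableOn_Ioc_of_le zero_le_one).1
      (intervalIntegral.intervalIntegrable_rpow' (a := 0) (b := 1) (r := σ - 1) (by linarith))
    refine this.congr_fun (fun y hy => ?_) measurableSet_Ioc
    simp only [mq]
    rw [min_eq_left ((one_le_inv₀ hy.1).2 hy.2), mul_one]
  · refine (integrableOn_Ioi_rpow_of_lt (a := σ - 1 - 1) (by linarith) one_pos).congr_fun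
      (fun y hy => ?_) measurableSet_Ioi
    have hy' : 1 < y := hy
    simp only [mq]
    rw [min_eq_right (inv_le_one_of_one_le₀ hy'.le), Real.rpow_sub_one (by linarith), div_eq_mul_inv]

lemma shift (hS : SHStmt) {X K σ : ℝ} {w : ℂ} (hX : 0 < X) (hσ : σ ≤ 2)
    (h : ∀ s : ℂ, σ ≤ s.re → s.re ≤ 2 → ‖HH X w s‖ ≤ K * Real.exp (-(1 / 2 * |s.im|))) {y : ℝ}
    (hy : 0 < y) : ph X w σ y = ph X w 2 y := by
  unfold ph
  congr 1
  refine hS (fun s => HH X w s * (y : ℂ) ^ (s - 1)) σ 2 (K * (y ^ (σ - 1) + y ^ ((2 : ℝ) - 1))) (1 / 2) hσ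
    (by norm_num) (Differentiable.differentiableOn ((HH_diff hX w).mul fun s =>
      DifferentiableAt.const_cpow (by fun_prop) (Or.inl (by exact_mod_cast hy.ne')))) fun s a b => ?_
  rw [norm_mul, norm_cpow_eq_rpow_re_of_pos hy, sub_re, one_re]
  have p1 := Real.rpow_nonneg hy.le (σ - 1)
  have p2 := Real.rpow_nonneg hy.le ((2 : ℝ) - 1)
  have h1 : y ^ (s.re - 1) ≤ y ^ (σ - 1) + y ^ ((2 : ℝ) - 1) := by
    rcases le_total y 1 with h2 | h2
    · linarith [Real.rpow_le_rpow_of_exponent_ge hy h2 (show σ - 1 ≤ s.re - 1 by linarith)]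
    · linarith [Real.rpow_le_rpow_of_exponent_le h2 (show s.re - 1 ≤ 2 - 1 by linarith)]
  calc _ ≤ K * Real.exp (-(1 / 2 * |s.im|)) * (y ^ (σ - 1) + y ^ ((2 : ℝ) - 1)) :=
        mul_le_mul (h s a b) h1 (Real.rpow_nonneg hy.le _) ((norm_nonneg _).trans (h s a b))
    _ = _ := by ring

lemma mom (hL : LN) {X : ℝ} {w : ℂ} (hX : 0 < X) {φ : ℝ → ℂ} (hm : Measurable φ)
    (hi : IntegrableOn (fun y : ℝ => φ y / y) (Ioi 0))
    (h : ∀ x : ℝ, 0 < x → ∫ y in Ioi (0 : ℝ), φ y * cexp (-(y * x : ℝ)) = (x : ℂ) ^ w * VV X x) :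
    ∫ y in Ioi (0 : ℝ), φ y / y =
      (Real.sqrt Real.pi : ℂ) * cexp ((1 + w) ^ 2 / 4) * (X : ℂ) ^ (1 + w) := by
  have ix : ∀ y : ℝ, 0 < y → IntegrableOn (fun x : ℝ => cexp (-(y : ℂ) * x)) (Ioi 0) := fun y hy =>
    integrableOn_exp_mul_complex_Ioi (by simpa using hy) 0
  have hI : Integrable (Function.uncurry fun (x y : ℝ) => φ y * cexp (-(y * x : ℝ)))
      ((volume.restrict (Ioi 0)).prod (volume.restrict (Ioi 0))) := by
    rw [integrable_prod_iff' (Measurable.aestronglyMeasurable (by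
      unfold Function.uncurry
      fun_prop))]
    constructor
    · filter_upwards [ae_restrict_mem measurableSet_Ioi] with y hy
      refine ((ix y hy).const_mul (φ y)).congr (ae_of_all _ fun x => ?_)
      simp [Function.uncurry]
    · refine hi.norm.congr ?_
      filter_upwards [ae_restrict_mem measurableSet_Ioi] with y hy
      have hy' : 0 < y := hy
      simp only [Function.uncurry, norm_mul, ← ofReal_neg, norm_exp_ofReal]
      rw [integral_const_mul]
      have := integral_exp_mul_Ioi (a := -y) (by linarith) 0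
      simp only [neg_mul, mul_zero, Real.exp_zero, neg_div_neg_eq] at this
      rw [this, norm_div, norm_real, Real.norm_of_nonneg hy'.le]
      ring
  have h1 := integral_integral_swap hI
  have h2 := hL.fwd X (-w - 1) hX
  have e1 : -(-w - 1) = 1 + w := by ring
  have e2 : (-w - 1) ^ 2 = (1 + w) ^ 2 := by ring
  rw [e1, e2] at h2
  rw [← h2]
  calc _ = _ := by
        refine setIntegral_congr_fun measurableSet_Ioi fun y hy => ?_
        have hy' : 0 < y := hy
        have := integral_exp_mul_complex_Ioi (a := -(y : ℂ)) (by simpa using hy') 0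
        change φ y / y = ∫ x in Ioi (0 : ℝ), φ y * cexp (-(y * x : ℝ))
        rw [integral_const_mul]
        simp only [neg_mul, ofReal_zero, mul_zero, Complex.exp_zero, neg_div_neg_eq] at this
        push_cast
        rw [this]
        ring
    _ = _ := h1.symm
    _ = _ := by
        refine setIntegral_congr_fun measurableSet_Ioi fun x hx => ?_
        have hx' : 0 < x := hx
        have e : VV X x = VV x X := by
          unfold VV
          rw [Real.log_div hx'.ne' hX.ne', Real.log_div hX.ne' hx'.ne']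
          congr 1
          ring
        change ∫ y in Ioi (0 : ℝ), φ y * cexp (-(y * x : ℝ)) = _
        rw [h x hx', e, add_sub_cancel_left, mul_comm]

end TRM

open TRM

theorem trS (E : Env) : TRStmt := by
  intro σ h0 h1
  obtain ⟨C, C0, hC⟩ := HB E.hΓ
  set J := ∫ u : ℝ, Real.exp (-(1 / 2 * |u|)) with hJ
  have J0 : 0 ≤ J := integral_nonneg fun _ => (Real.exp_pos _).le
  have m0 : ∀ y ∈ Ioi (0 : ℝ), 0 ≤ mq σ y := fun y hy => by
    have hy' : 0 < y := hy
    unfold mq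
    positivity
  refine ⟨C * J * ∫ y in Ioi (0 : ℝ), mq σ y, mul_nonneg (by positivity)
    (setIntegral_nonneg measurableSet_Ioi m0), fun P α B X w P0 P1 hX hw hE => ?_⟩
  have : Countable O := (QuadraticAlgebra.equivProd (-1 : ℤ) (-1)).injective.countable
  have line : ∀ τ : ℝ, 0 ≤ τ → τ ≤ 2 → ∀ u : ℝ, ‖HH X w (τ + u * I)‖ ≤
      C * X ^ (τ + w.re) * Real.exp (4 * |w.im|) * Real.exp (-(1 / 2 * |u|)) := fun τ a b u => by
    simpa using hC X w (τ + u * I) hX hw (by simpa using a) (by simpa using b)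
  set K1 := C * X ^ (σ + w.re) * Real.exp (4 * |w.im|) with hK1
  set K2 := C * X ^ (2 + w.re) * Real.exp (4 * |w.im|) with hK2
  have K10 : 0 ≤ K1 := by positivity
  have K20 : 0 ≤ K2 := by positivity
  have sh : ∀ y : ℝ, 0 < y → ph X w σ y = ph X w 2 y := fun y hy => by
    refine shift E.hS (K := K1 + K2) hX (by linarith) (fun s a b => ?_) hy
    refine (hC X w s hX hw (by linarith) b).trans (mul_le_mul_of_nonneg_right ?_ (Real.exp_pos _).le)
    have p1 := Real.rpow_nonneg hX.le (σ + w.re)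
    have p2 := Real.rpow_nonneg hX.le (2 + w.re)
    have h3 : X ^ (s.re + w.re) ≤ X ^ (σ + w.re) + X ^ (2 + w.re) := by
      rcases le_total X 1 with h2 | h2
      · linarith [Real.rpow_le_rpow_of_exponent_ge hX h2 (show σ + w.re ≤ s.re + w.re by linarith)]
      · linarith [Real.rpow_le_rpow_of_exponent_le h2 (show s.re + w.re ≤ 2 + w.re by linarith)]
    calc _ ≤ C * (X ^ (σ + w.re) + X ^ (2 + w.re)) * Real.exp (4 * |w.im|) := by gcongr
      _ = _ := by rw [hK1, hK2]; ring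
  have b2 : ∀ y : ℝ, 0 < y → ‖ph X w 2 y‖ ≤ K2 * J * y ^ ((2 : ℝ) - 1) := fun y hy =>
    ph_bd (line 2 zero_le_two le_rfl) hy
  have b1 : ∀ y : ℝ, 0 < y → ‖ph X w 2 y‖ ≤ K1 * J * y ^ (σ - 1) := fun y hy =>
    sh y hy ▸ ph_bd (line σ h0.le (by linarith)) hy
  have hm := ph_meas hX w 2
  have hl := fun x hx => lap (w := w) (x := x) E.hL hX (line 2 zero_le_two le_rfl) hx
  set φ := ph X w 2 with hφ
  have i1 : IntegrableOn (fun y : ℝ => φ y / y) (Ioi 0) := by
    refine ((im h0 h1).const_mul ((K1 + K2) * J)).mono' (Measurable.aestronglyMeasurable (by fun_prop)) ?_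
    filter_upwards [ae_restrict_mem measurableSet_Ioi] with y hy
    have hy' : 0 < y := hy
    have hq := m0 y hy
    rw [norm_div, norm_real, Real.norm_of_nonneg hy'.le, div_le_iff₀ hy']
    rcases le_total y 1 with h2 | h2
    · have e : mq σ y = y ^ (σ - 1) := by
        rw [mq, min_eq_left ((one_le_inv₀ hy').2 h2), mul_one]
      have h3 : 1 ≤ mq σ y := e ▸ Real.one_le_rpow_of_pos_of_le_one_of_nonpos hy' h2 (by linarith)
      have h4 := b2 y hy'
      rw [show (2 : ℝ) - 1 = 1 by norm_num, Real.rpow_one] at h4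
      calc _ ≤ K2 * J * 1 * y := by linarith
        _ ≤ _ := by gcongr; linarith
    · have e : mq σ y * y = y ^ (σ - 1) := by
        rw [mq, min_eq_right (inv_le_one_of_one_le₀ h2)]
        field_simp
      rw [mul_assoc, e]
      refine (b1 y hy').trans ?_
      gcongr
      linarith
  have hmom := mom E.hL hX hm i1 hl
  have fb : ∀ l, l ≠ 0 → ∀ y ∈ Ioi (0 : ℝ), ‖φ y * (P l * cexp (-(y * N l : ℝ)))‖ ≤
      K2 * J * (y ^ ((2 : ℝ) - 1) * Real.exp (-(N l * y))) := fun l _ y hy => by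
    rw [norm_mul, norm_mul, ← ofReal_neg, norm_exp_ofReal, mul_comm y, ← mul_assoc (K2 * J)]
    refine mul_le_mul (b2 y hy) ?_ (by positivity) ((norm_nonneg _).trans (b2 y hy))
    exact mul_le_of_le_one_left (Real.exp_pos _).le (P1 l)
  have Np : ∀ l : O, l ≠ 0 → 0 < N l := fun l hl => zero_lt_one.trans_le (E.hB.b1.N_one_le l hl)
  have fi : ∀ l, Integrable (fun y : ℝ => φ y * (P l * cexp (-(y * N l : ℝ))))
      (volume.restrict (Ioi 0)) := fun l => by
    by_cases hl : l = 0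
    · simp [hl, P0]
    refine ((iy (Np l hl)).const_mul (K2 * J)).mono' (Measurable.aestronglyMeasurable (by fun_prop)) ?_
    filter_upwards [ae_restrict_mem measurableSet_Ioi] with y hy using fb l hl y hy
  have fs : Summable fun l => ∫ y in Ioi (0 : ℝ), ‖φ y * (P l * cexp (-(y * N l : ℝ)))‖ := by
    refine Summable.of_nonneg_of_le (fun l => integral_nonneg fun _ => norm_nonneg _) (fun l => ?_)
      ((E.hB.b3.summ 2 one_lt_two).mul_left (K2 * J))
    by_cases hl : l = 0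
    · have : 0 ≤ N l ^ (-2 : ℝ) := Real.rpow_nonneg (Nat.cast_nonneg _) _
      simp only [hl, P0, zero_mul, mul_zero, norm_zero, integral_zero] at this ⊢
      positivity
    refine (setIntegral_mono_on (fi l).norm ((iy (Np l hl)).const_mul (K2 * J)) measurableSet_Ioi
      (fb l hl)).trans_eq ?_
    rw [integral_const_mul, Real.integral_rpow_mul_exp_neg_mul_Ioi two_pos (Np l hl), Real.Gamma_two,
      mul_one, one_div, Real.inv_rpow (Np l hl).le, Real.rpow_neg (Np l hl).le]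
  have hsum := integral_tsum_of_summable_integral_norm fi fs
  have e1 : ∑' l, P l * (N l : ℂ) ^ w * VV X (N l) =
      ∫ y in Ioi (0 : ℝ), φ y * ∑' l, P l * cexp (-(y * N l : ℝ)) := by
    simp only [tsum_mul_left] at hsum
    rw [← hsum]
    refine tsum_congr fun l => ?_
    by_cases h : l = 0
    · simp [h, P0]
    rw [mul_assoc, ← hl _ (Np l h), ← integral_const_mul]
    exact setIntegral_congr_fun measurableSet_Ioi fun y _ => by ring
  have B0 : 0 ≤ B := by simpa using (norm_nonneg _).trans (hE 1 one_pos)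
  have eb : ∀ y ∈ Ioi (0 : ℝ), ‖φ y * (∑' l, P l * cexp (-(y * N l : ℝ)) - α / y)‖ ≤
      K1 * J * B * mq σ y := fun y hy => by
    rw [norm_mul]
    calc _ ≤ K1 * J * y ^ (σ - 1) * (B * min 1 y⁻¹) :=
          mul_le_mul (b1 y hy) (hE y hy) (norm_nonneg _) ((norm_nonneg _).trans (b1 y hy))
      _ = _ := by rw [mq]; ring
  have mS : Measurable fun y : ℝ => ∑' l, P l * cexp (-(y * N l : ℝ)) :=
    Measurable.tsum fun l => by fun_prop
  have i2 : IntegrableOn (fun y : ℝ => φ y * (∑' l, P l * cexp (-(y * N l : ℝ)) - α / y)) (Ioi 0) := by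
    refine ((im h0 h1).const_mul (K1 * J * B)).mono' (Measurable.aestronglyMeasurable (by fun_prop)) ?_
    filter_upwards [ae_restrict_mem measurableSet_Ioi] with y hy using eb y hy
  have e2 : ∫ y in Ioi (0 : ℝ), φ y * ∑' l, P l * cexp (-(y * N l : ℝ)) =
      (∫ y in Ioi (0 : ℝ), φ y * (∑' l, P l * cexp (-(y * N l : ℝ)) - α / y)) +
        α * ∫ y in Ioi (0 : ℝ), φ y / y := by
    rw [← integral_const_mul, ← integral_add i2 (i1.const_mul α)]
    exact setIntegral_congr_fun measurableSet_Ioi fun y _ => by ring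
  rw [e1, e2, hmom, ← mul_assoc, ← mul_assoc, add_sub_cancel_right]
  refine (norm_integral_le_of_norm_le ((im h0 h1).const_mul (K1 * J * B)) ?_).trans_eq ?_
  · filter_upwards [ae_restrict_mem measurableSet_Ioi] with y hy using eb y hy
  · rw [integral_const_mul, hK1]
    ring

end Vale.Agent.P006.K
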