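import Vale.Agent.P006.K0

/-! P006 branch K: the weighted count of primary elements. -/

noncomputable section
open Complex MeasureTheory Filter Topology
open scoped Classical ComplexConjugate

namespace Vale.Agent.P006.K
open Vale.Agent.P026

namespace W0M

def P1 (l : O) : ℂ := if Prim l then 1 else 0

lemma pe : Pe 3 P1 := by
  intro a m
  have : Prim (a + 3 * m) ↔ Prim a := by
    unfold Prim
    rw [show a + 3 * m - 1 = (a - 1) + 3 * m by ring]
    exact dvd_add_left (dvd_mul_right 3 m)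
  simp only [P1, this]

lemma P1_le (l : O) : ‖P1 l‖ ≤ 1 := by
  unfold P1; split_ifs <;> simp

lemma N3 (hB : Bas) : N (3 : O) = 9 := by
  have := hB.b1.N_int 3
  push_cast at this
  rw [this]; norm_num

lemma ft (hB : Bas) (b : O) : ∑ r ∈ Rs 3, P1 r * eQ (r * b) 3 = eQ b 3 := by
  have h3 : (3 : O) ≠ 0 := by
    intro h
    have := N3 hB
    rw [h, hB.b1.N_zero] at this
    norm_num at this
  obtain ⟨r, hr, hd⟩ := hB.b4.ex 3 1 h3
  have pr : Prim r := by
    unfold Prim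
    rw [← neg_sub]; exact hd.neg_right
  rw [Finset.sum_eq_single r]
  · rw [P1, if_pos pr, one_mul]
    obtain ⟨c, hc⟩ := pr
    rw [show r * b = b + 3 * (c * b) by linear_combination b * hc, hB.b1.eQ_add,
      hB.b1.eQ_dvd _ _ (dvd_mul_right _ _), mul_one]
  · intro r' hr' hne
    rw [P1, if_neg, zero_mul]
    intro h
    refine hne (hB.b4.uniq 3 r' r h3 hr' hr ?_)
    have := dvd_sub h pr
    rwa [show r' - 1 - (r - 1) = r' - r by ring] at this
  · exact fun h => absurd hr h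

lemma ex_le (x : ℝ) (hx : 0 < x) : Real.exp (-x) ≤ 2 * x ^ (-2 : ℝ) := by
  have h := Real.quadratic_le_exp_of_nonneg hx.le
  rw [Real.exp_neg, Real.rpow_neg hx.le, Real.rpow_two, inv_le_comm₀ (Real.exp_pos x) (by positivity),
    mul_inv, inv_inv]
  nlinarith

/-- sums of Gaussians over nonzero elements -/
lemma tail (hB : Bas) : ∃ D : ℝ, 0 ≤ D ∧ ∀ (c : ℝ) (z : O → ℂ), 0 < c → z 0 = 0 → (∀ b, ‖z b‖ ≤ 1) →
    ‖∑' b, z b * cexp (-(c * N b : ℝ))‖ ≤ D * c ^ (-2 : ℝ) := by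
  have hs := hB.b3.summ 2 one_lt_two
  refine ⟨2 * ∑' a : O, N a ^ (-2 : ℝ), ?_, fun c z hc h0 h1 => ?_⟩
  · exact mul_nonneg zero_le_two (tsum_nonneg fun a => Real.rpow_nonneg (Nat.cast_nonneg _) _)
  · have h := (hs.hasSum.mul_left 2).mul_right (c ^ (-2 : ℝ))
    refine tsum_of_norm_bounded h fun b => ?_
    by_cases hb : b = 0
    · rw [hb, h0, zero_mul, norm_zero]
      have : 0 ≤ N (0 : O) := Nat.cast_nonneg _
      positivity
    · have hN : 0 < N b := lt_of_lt_of_le one_pos (hB.b1.N_one_le b hb)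
      rw [norm_mul, ← ofReal_neg, ← ofReal_exp, norm_real, Real.norm_eq_abs,
        abs_of_pos (Real.exp_pos _)]
      have := ex_le (c * N b) (by positivity)
      rw [Real.mul_rpow hc.le hN.le] at this
      calc _ ≤ 1 * Real.exp (-(c * N b)) := mul_le_mul_of_nonneg_right (h1 b) (Real.exp_pos _).le
        _ ≤ _ := by linarith

def al : ℝ := 2 * Real.pi / (9 * Real.sqrt 3)

lemma al_pos : 0 < al := by unfold al; positivity

lemma gauss (E : Env) : ∃ B : ℝ, 0 ≤ B ∧ ∀ y : ℝ, 0 < y →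
    ‖∑' l, P1 l * cexp (-(y * N l : ℝ)) - (al : ℂ) / y‖ ≤ B * min 1 y⁻¹ := by
  have hB := E.hB
  obtain ⟨D, hD, hT⟩ := tail hB
  have hs : 0 < sg := by unfold sg; positivity
  have p0 : P1 0 = 0 := by
    rw [P1, if_neg]; exact fun h => hB.b2.ne 0 h rfl
  have ha := al_pos
  refine ⟨D + al + al * D * (sg / 9) ^ (-2 : ℝ), by positivity, fun y hy => ?_⟩
  rcases le_total 1 y with h | h
  · have h1 := hT y P1 hy p0 P1_le
    have h2 : y ^ (-2 : ℝ) ≤ y⁻¹ := by
      rw [← Real.rpow_neg_one]; exact Real.rpow_le_rpow_of_exponent_le h (by norm_num)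
    rw [min_eq_right (inv_le_one_of_one_le₀ h)]
    refine (norm_sub_le _ _).trans ?_
    rw [norm_div, norm_real, norm_real, Real.norm_eq_abs, Real.norm_eq_abs, abs_of_pos ha,
      abs_of_pos hy, div_eq_mul_inv]
    have h3 : 0 ≤ al * D * (sg / 9) ^ (-2 : ℝ) * y⁻¹ := by positivity
    nlinarith [mul_le_mul_of_nonneg_left h2 hD]
  · have h3 : (3 : O) ≠ 0 := by
      intro h
      have := N3 hB
      rw [h, hB.b1.N_zero] at this
      norm_num at this
    have h1 := E.hG P1 3 y⁻¹ h3 pe (inv_pos.2 hy)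
    simp only [ft hB, N3 hB, div_inv_eq_mul] at h1
    simp only [mul_comm y]
    rw [h1]
    have e1 : ((Real.pi * y⁻¹ : ℝ) : ℂ) / (kap * ((9 : ℝ) : ℂ)) = (al : ℂ) / y := by
      have : (Real.sqrt 3 : ℂ) ≠ 0 := by exact_mod_cast (by positivity : Real.sqrt 3 ≠ 0)
      have : (y : ℂ) ≠ 0 := by exact_mod_cast hy.ne'
      unfold kap al; push_cast; field_simp
    have hq : ∀ b, ‖eQ b 3‖ = 1 := fun b => hB.b1.norm_psi _
    have e2 : ∀ b : O, sg * y⁻¹ * N b / 9 = sg / 9 * y⁻¹ * N b := fun b => by ring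
    have hc : 0 < sg / 9 * y⁻¹ := by positivity
    have hsum : Summable fun b : O => eQ b 3 * cexp (-(sg / 9 * y⁻¹ * N b : ℝ)) := by
      refine Summable.of_norm_bounded_eventually
        (((hB.b3.summ 2 one_lt_two).mul_left 2).mul_right ((sg / 9 * y⁻¹) ^ (-2 : ℝ))) ?_
      refine (Set.finite_singleton (0 : O)).subset fun b hb => ?_
      by_contra hb0
      apply hb
      have hN : 0 < N b := lt_of_lt_of_le one_pos (hB.b1.N_one_le b hb0)
      show ‖eQ b 3 * cexp (-(sg / 9 * y⁻¹ * N b : ℝ))‖ ≤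
        2 * N b ^ (-2 : ℝ) * (sg / 9 * y⁻¹) ^ (-2 : ℝ)
      rw [norm_mul, hq, one_mul, ← ofReal_neg, ← ofReal_exp, norm_real, Real.norm_eq_abs,
        abs_of_pos (Real.exp_pos _)]
      have := ex_le (sg / 9 * y⁻¹ * N b) (by positivity)
      rw [Real.mul_rpow hc.le hN.le] at this
      linarith
    simp only [e2]
    rw [e1, hsum.tsum_eq_add_tsum_ite 0, hB.b1.eQ_dvd 0 3 (dvd_zero _), hB.b1.N_zero]
    have h4 := hT _ (fun b => if b = 0 then 0 else eQ b 3) hc (by simp) (fun b => by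
      split_ifs <;> simp [hq])
    simp only [ite_mul, zero_mul] at h4
    simp only [mul_zero, ofReal_zero, neg_zero, Complex.exp_zero, mul_one, mul_add,
      add_sub_cancel_left]
    rw [min_eq_left (one_le_inv₀ hy |>.2 h), norm_mul, norm_div, norm_real, norm_real,
      Real.norm_eq_abs, Real.norm_eq_abs, abs_of_pos ha, abs_of_pos hy]
    rw [Real.mul_rpow (by positivity) (by positivity), Real.inv_rpow hy.le, Real.rpow_neg hy.le,
      inv_inv, Real.rpow_two] at h4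
    have h5 : al / y * (D * ((sg / 9) ^ (-2 : ℝ) * y ^ 2)) = al * D * (sg / 9) ^ (-2 : ℝ) * y := by
      field_simp
    have h6 : 0 ≤ al * D * (sg / 9) ^ (-2 : ℝ) := by positivity
    calc _ ≤ al / y * (D * ((sg / 9) ^ (-2 : ℝ) * y ^ 2)) :=
          mul_le_mul_of_nonneg_left h4 (by positivity)
      _ ≤ _ := by rw [h5]; nlinarith

end W0M

theorem w0S (E : Env) (h1 : TRStmt) : W0Stmt := by
  obtain ⟨C, hC, hT⟩ := h1 (43 / 60) (by norm_num) (by norm_num)
  obtain ⟨B, hB, hG⟩ := W0M.gauss E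
  refine ⟨C * B, by positivity, fun X hX => ?_⟩
  have p0 : W0M.P1 0 = 0 := by
    rw [W0M.P1, if_neg]; exact fun h => E.hB.b2.ne 0 h rfl
  have h := hT W0M.P1 W0M.al B X ((-1 / 6 : ℝ) : ℂ) p0 W0M.P1_le hX
    (by rw [ofReal_re, abs_le]; norm_num) hG
  simp only [ofReal_im, abs_zero, mul_zero, Real.exp_zero, mul_one, ofReal_re] at h
  rw [show (43 / 60 + -1 / 6 : ℝ) = 11 / 20 by norm_num] at h
  refine le_trans (le_of_eq ?_) h
  rw [← Real.norm_eq_abs, ← norm_real, ofReal_sub, ofReal_tsum]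
  congr 2
  · refine tsum_congr fun l => ?_
    unfold W0M.P1
    split_ifs
    · rw [one_mul, ofReal_mul, ofReal_cpow (show 0 ≤ N l from Nat.cast_nonneg _)]
    · simp
  · rw [show (1 : ℂ) + ((-1 / 6 : ℝ) : ℂ) = ((5 / 6 : ℝ) : ℂ) by push_cast; ring,
      ← ofReal_cpow hX.le, show ((5 / 6 : ℝ) : ℂ) ^ 2 / 4 = ((25 / 144 : ℝ) : ℂ) by push_cast; ring,
      ← ofReal_exp]
    unfold rho0 W0M.al
    push_cast; ring

end Vale.Agent.P006.K
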