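import Vale.Agent.P006.K0
import Vale.Agent.P006.Vau

/-! P006 branch K: the mean value of `ww` over elements coprime to `s`. -/

noncomputable section
open Complex MeasureTheory Filter Topology
open scoped Classical ComplexConjugate

namespace Vale.Agent.P006.K
open Vale.Agent.P026

namespace W8M

def ph (X : ℝ) (l : O) : ℂ := ((N l ^ (-1 / 6 : ℝ) * VV X (N l) : ℝ) : ℂ)
def AA (s : O) (X : ℝ) : ℂ := ∑' l, if Prim l ∧ IsCoprime l s then ph X l else 0
def BS (s : O) (X : ℝ) : ℂ := ∑' l, if Prim l ∧ IsCoprime l s ∧ Squarefree l then ph X l else 0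
def cM (s t : O) : ℂ := if Prim t ∧ IsCoprime t s then mu t * ((N t ^ (-1 / 3 : ℝ) : ℝ) : ℂ) else 0
def cZ (s u : O) : ℂ := if Prim u ∧ IsCoprime u s then ((N u ^ (1 / 2 : ℝ) : ℝ) : ℂ) else 0

theorem N0 (n : O) : 0 ≤ N n := Nat.cast_nonneg _

theorem VV0 (X x : ℝ) : 0 ≤ VV X x := (Real.exp_pos _).le

theorem ph_mul (E : Env) {X : ℝ} (hX : 0 < X) {c l : O} (hc : c ≠ 0) (hl : l ≠ 0) :
    ph X (c * l) = ((N c ^ (-1 / 6 : ℝ) : ℝ) : ℂ) * ph (X / N c) l := by
  have a1 := E.hB.b1.N_one_le c hc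
  have a2 := E.hB.b1.N_one_le l hl
  rw [ph, ph, E.hB.b1.N_mul, E.hL.scale X _ _ hX (by linarith) (by linarith),
    Real.mul_rpow (N0 c) (N0 l)]
  push_cast; ring

theorem ph_le (E : Env) {X : ℝ} (hX : 0 < X) (A : ℝ) {l : O} (hl : l ≠ 0) :
    ‖ph X l‖ ≤ Real.exp (A ^ 2 / 4) * X ^ A * N l ^ (-A) := by
  have a2 := E.hB.b1.N_one_le l hl
  have a3 : N l ^ (-1 / 6 : ℝ) ≤ 1 := Real.rpow_le_one_of_one_le_of_nonpos a2 (by norm_num)
  have a4 := E.hL.le A X (N l) hX (by linarith)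
  rw [ph, norm_real, Real.norm_of_nonneg (mul_nonneg (Real.rpow_nonneg (N0 l) _) (VV0 _ _))]
  rw [Real.div_rpow hX.le (N0 l), div_eq_mul_inv (X ^ A), ← Real.rpow_neg (N0 l), ← mul_assoc] at a4
  exact (mul_le_of_le_one_left (VV0 _ _) a3).trans a4

theorem ph_summ (E : Env) {X : ℝ} (hX : 0 < X) (S : O → Prop) [DecidablePred S]
    (hS : ∀ l, S l → l ≠ 0) : Summable fun l => if S l then ph X l else 0 := by
  refine ((E.hB.b3.summ 2 (by norm_num)).mul_left
    (Real.exp (2 ^ 2 / 4) * X ^ (2 : ℝ))).of_norm_bounded fun l => ?_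
  split_ifs with h
  · exact ph_le E hX 2 (hS l h)
  · rw [norm_zero]; have := N0 l; positivity

theorem cop_iff {p a n : O} (hp : Prime p) : IsCoprime n (p * a) ↔ IsCoprime n a ∧ ¬ p ∣ n := by
  rw [IsCoprime.mul_right_iff, isCoprime_comm (x := n) (y := p),
    hp.irreducible.coprime_iff_not_dvd, and_comm]

theorem cop_iff' {p a n : O} (hp : Prime p) (h : p ∣ a) : IsCoprime n (p * a) ↔ IsCoprime n a := by
  rw [cop_iff hp]
  exact ⟨fun x => x.1, fun x => ⟨x, fun y => hp.not_unit (x.isUnit_of_dvd' y h)⟩⟩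

theorem cop_mul {p a m : O} (hp : Prime p) (h : ¬ p ∣ a) : IsCoprime (p * m) a ↔ IsCoprime m a := by
  rw [IsCoprime.mul_left_iff]
  exact ⟨fun x => x.2, fun x => ⟨(hp.irreducible.coprime_iff_not_dvd).2 h, x⟩⟩

theorem AA_step (E : Env) {X : ℝ} (hX : 0 < X) {p a : O} (hp : Prime p) (hq : Prim p)
    (h : ¬ p ∣ a) : AA (p * a) X = AA a X - ((N p ^ (-1 / 6 : ℝ) : ℝ) : ℂ) * AA a (X / N p) := by
  have e := ZKM.tsum_split (ph_summ E hX (fun l => Prim l ∧ IsCoprime l a)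
    fun l hl => E.hB.b2.ne l hl.1) hp.ne_zero
  have e1 : (∑' n, if p ∣ n then 0 else if Prim n ∧ IsCoprime n a then ph X n else 0) =
      AA (p * a) X := tsum_congr fun n => by
    rw [cop_iff hp]
    by_cases c : p ∣ n <;> simp [c]
  have e2 : (∑' m, if Prim (p * m) ∧ IsCoprime (p * m) a then ph X (p * m) else 0) =
      ((N p ^ (-1 / 6 : ℝ) : ℝ) : ℂ) * AA a (X / N p) := by
    rw [AA, ← tsum_mul_left]
    refine tsum_congr fun n => ?_
    rw [ZKM.prim_iff E.hB hq, cop_mul hp h]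
    split_ifs with c
    · exact ph_mul E hX hp.ne_zero (E.hB.b2.ne n c.1)
    · simp
  rw [e1, e2] at e
  have e3 : AA a X = _ := e
  rw [e3]; ring

theorem pf_step (E : Env) {p a : O} (hp : Prime p) (hq : Prim p) (ha : Prim a) :
    pf (p * a) = insert p (pf a) := by
  rw [E.h8.pf_mul p a hp.ne_zero (E.hB.b2.ne a ha), Vau.pf_prime hp hq]
  rfl

theorem AA_est (E : Env) (h0 : W0Stmt) : ∃ C : ℝ, 0 ≤ C ∧ ∀ s, Prim s → ∀ X : ℝ, 0 < X →
    ‖AA s X - ((rho0 * EP s : ℝ) : ℂ) * ((X ^ (5 / 6 : ℝ) : ℝ) : ℂ)‖ ≤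
      C * 2 ^ (pf s).card * X ^ (11 / 20 : ℝ) := by
  obtain ⟨C, hC, h⟩ := h0
  refine ⟨C, hC, E.hB.b2.ind1 _ (fun X hX => ?_) fun p a hp hq ha ih X hX => ?_⟩
  · have e : AA 1 X = ((∑' l, if Prim l then N l ^ (-1 / 6 : ℝ) * VV X (N l) else 0 : ℝ) : ℂ) := by
      rw [ofReal_tsum]
      refine tsum_congr fun l => ?_
      by_cases c : Prim l <;> simp [c, ph, isCoprime_one_right]
    rw [e, EP, E.h8.pf_one, Finset.prod_empty, Finset.card_empty, mul_one, pow_zero, mul_one,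
      ← ofReal_mul, ← ofReal_sub, norm_real]
    exact h X hX
  · have a0 := E.hB.b2.ne a ha
    by_cases c : p ∣ a
    · have e1 : pf (p * a) = pf a := by
        rw [pf_step E hp hq ha, Finset.insert_eq_of_mem ((E.h8.mem a p a0).2 ⟨hp, hq, c⟩)]
      have e2 : AA (p * a) X = AA a X := tsum_congr fun n => by rw [cop_iff' hp c]
      rw [e2, EP, e1]
      exact ih X hX
    · have nm : p ∉ pf a := fun hm => c ((E.h8.mem a p a0).1 hm).2.2
      have a1 := E.hB.b1.N_one_le p hp.ne_zero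
      have a2 : 0 < N p := by linarith
      have e1 : EP (p * a) = (1 - (N p)⁻¹) * EP a := by
        rw [EP, pf_step E hp hq ha, Finset.prod_insert nm, EP]
      have e2 : N p ^ (-1 / 6 : ℝ) * (X / N p) ^ (5 / 6 : ℝ) = (N p)⁻¹ * X ^ (5 / 6 : ℝ) := by
        rw [Real.div_rpow hX.le a2.le, div_eq_mul_inv (X ^ (5 / 6 : ℝ)), ← Real.rpow_neg a2.le, mul_left_comm,
          ← Real.rpow_add a2, ← Real.rpow_neg_one, mul_comm]
        norm_num
      have e2' := congrArg (fun x : ℝ => (x : ℂ)) e2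
      have i1 := ih X hX
      have i2 := ih (X / N p) (by positivity)
      have a3 : N p ^ (-1 / 6 : ℝ) ≤ 1 := Real.rpow_le_one_of_one_le_of_nonpos a1 (by norm_num)
      have a4 : (X / N p) ^ (11 / 20 : ℝ) ≤ X ^ (11 / 20 : ℝ) :=
        Real.rpow_le_rpow (by positivity) (div_le_self hX.le a1) (by norm_num)
      rw [AA_step E hX hp hq c, e1, pf_step E hp hq ha, Finset.card_insert_of_notMem nm]
      have e3 : AA a X - ((N p ^ (-1 / 6 : ℝ) : ℝ) : ℂ) * AA a (X / N p) -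
          ((rho0 * ((1 - (N p)⁻¹) * EP a) : ℝ) : ℂ) * ((X ^ (5 / 6 : ℝ) : ℝ) : ℂ) =
          (AA a X - ((rho0 * EP a : ℝ) : ℂ) * ((X ^ (5 / 6 : ℝ) : ℝ) : ℂ)) -
          ((N p ^ (-1 / 6 : ℝ) : ℝ) : ℂ) * (AA a (X / N p) -
            ((rho0 * EP a : ℝ) : ℂ) * (((X / N p) ^ (5 / 6 : ℝ) : ℝ) : ℂ)) := by
        simp only [ofReal_mul, ofReal_sub, ofReal_one] at e2' ⊢
        linear_combination (-(rho0 : ℂ) * EP a) * e2'
      rw [e3]
      refine (norm_sub_le _ _).trans ?_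
      rw [norm_mul, norm_real, Real.norm_of_nonneg (Real.rpow_nonneg a2.le _), pow_succ]
      have b1 : 0 ≤ C * 2 ^ (pf a).card := by positivity
      have b2 := (mul_le_of_le_one_left (norm_nonneg _) a3).trans
        (i2.trans (mul_le_mul_of_nonneg_left a4 b1))
      linarith

theorem mob (E : Env) {n : O} (hn : Prim n) :
    (∑' t, if Prim t ∧ t ^ 2 ∣ n then mu t else 0) = if Squarefree n then 1 else 0 := by
  have hB := E.hB
  obtain ⟨a, b, -, hb, hs, rfl⟩ : ∃ a b, Prim a ∧ Prim b ∧ Squarefree a ∧ n = a * b ^ 2 := by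
    refine hB.b2.ind1 (fun n => ∃ a b, Prim a ∧ Prim b ∧ Squarefree a ∧ n = a * b ^ 2)
      ⟨1, 1, hB.b2.one, hB.b2.one, squarefree_one, by ring⟩ ?_ n hn
    rintro p _ hp hq - ⟨a, b, ha, hb, hs, rfl⟩
    by_cases c : p ∣ a
    · obtain ⟨a', rfl⟩ := c
      exact ⟨a', p * b, hB.b2.cancel _ _ hq ha, hB.b2.mul _ _ hq hb, hs.of_mul_right, by ring⟩
    · exact ⟨p * a, b, hB.b2.mul _ _ hq ha, hb, squarefree_mul_iff.2
        ⟨((hp.irreducible.coprime_iff_not_dvd).2 c).isRelPrime, hp.squarefree, hs⟩, by ring⟩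
  have b0 := hB.b2.ne b hb
  rw [tsum_eq_sum (s := Vau.dv b) fun t ht => ?_]
  · rw [Finset.sum_congr rfl fun t ht => if_pos ⟨((Vau.mem_dv b0).1 ht).1,
      (pow_dvd_pow_of_dvd ((Vau.mem_dv b0).1 ht).2 2).mul_left _⟩, Vau.sum_mu hb]
    refine if_congr ⟨?_, fun h => ?_⟩ rfl rfl
    · rintro rfl; simpa using hs
    · exact hB.b2.uniq _ _ hb hB.b2.one
        (associated_one_iff_isUnit.2 (h b (by rw [← sq]; exact dvd_mul_left _ _)))
  · split_ifs with c
    · rw [mu, if_neg]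
      intro hq
      have d1 : t ∣ b ^ 2 := hs.dvd_of_squarefree_of_mul_dvd_mul_right (by rw [← sq]; exact c.2)
      exact ht ((Vau.mem_dv b0).2 ⟨c.1, (hq.dvd_pow_iff_dvd two_ne_zero).1 d1⟩)
    · rfl

theorem BS_eq (E : Env) (s : O) {X : ℝ} (hX : 0 < X) :
    BS s X = ∑' t, cM s t * AA s (X / N t ^ 2) := by
  have hB := E.hB
  set H : O → O → ℂ := fun t n =>
    if (Prim t ∧ t ^ 2 ∣ n) ∧ Prim n ∧ IsCoprime n s then mu t * ph X n else 0 with hH
  have s2 := hB.b3.summ 2 (by norm_num)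
  have hs : Summable (Function.uncurry H) := by
    refine ((s2.mul_of_nonneg s2 (fun a => Real.rpow_nonneg (N0 a) _)
      (fun a => Real.rpow_nonneg (N0 a) _)).mul_left
      (Real.exp (4 ^ 2 / 4) * X ^ (4 : ℝ))).of_norm_bounded fun x => ?_
    have := N0 x.1
    have := N0 x.2
    simp only [Function.uncurry, hH]
    split_ifs with c
    · have n0 := hB.b2.ne _ c.2.1
      have a1 := hB.b1.N_one_le _ n0
      have a2 := hB.b1.N_one_le _ (hB.b2.ne _ c.1.1)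
      have a3 : N x.1 ≤ N x.2 := Vau.N_dvd n0 ((dvd_pow_self _ two_ne_zero).trans c.1.2)
      have a4 : N x.2 ^ (-4 : ℝ) ≤ N x.1 ^ (-2 : ℝ) * N x.2 ^ (-2 : ℝ) := by
        have : N x.2 ^ (-4 : ℝ) = N x.2 ^ (-2 : ℝ) * N x.2 ^ (-2 : ℝ) := by
          rw [← Real.rpow_add (by linarith)]; norm_num
        rw [this]
        exact mul_le_mul_of_nonneg_right
          (Real.rpow_le_rpow_of_nonpos (by linarith) a3 (by norm_num)) (by positivity)
      rw [norm_mul]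
      refine (mul_le_of_le_one_left (norm_nonneg _) (ZKM.norm_mu _)).trans
        ((ph_le E hX 4 n0).trans ?_)
      exact mul_le_mul_of_nonneg_left a4 (by positivity)
    · rw [norm_zero]; positivity
  have e1 : BS s X = ∑' n, ∑' t, H t n := by
    refine tsum_congr fun n => ?_
    by_cases c : Prim n ∧ IsCoprime n s
    · have : ∀ t, H t n = (if Prim t ∧ t ^ 2 ∣ n then mu t else 0) * ph X n := fun t => by
        simp only [hH, c, and_true]
        split_ifs <;> simp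
      simp only [this, tsum_mul_right, mob E c.1, c.1, c.2, true_and]
      split_ifs <;> simp
    · have : ∀ t, H t n = 0 := fun t => if_neg fun h => c h.2
      simp only [this, tsum_zero]
      exact if_neg fun h => c ⟨h.1, h.2.1⟩
  rw [e1, hs.tsum_comm]
  refine tsum_congr fun t => ?_
  by_cases c : Prim t
  · have t0 := pow_ne_zero 2 (hB.b2.ne t c)
    rw [← (mul_right_injective₀ t0).tsum_eq (f := H t) fun n hn => ?_, AA, ← tsum_mul_left]
    · refine tsum_congr fun l => ?_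
      simp only [hH, cM, c, dvd_mul_right, true_and, ZKM.prim_iff hB (hB.b2.pow t 2 c),
        IsCoprime.mul_left_iff, IsCoprime.pow_left_iff two_pos]
      by_cases c1 : Prim l
      · have e : (N t ^ 2) ^ (-1 / 6 : ℝ) = N t ^ (-1 / 3 : ℝ) := by
          rw [← Real.rpow_natCast, ← Real.rpow_mul (N0 t)]; norm_num
        rw [ph_mul E hX t0 (hB.b2.ne l c1), hB.b1.N_pow, e]
        by_cases c2 : IsCoprime t s <;> by_cases c3 : IsCoprime l s <;> simp [c1, c2, c3, mul_assoc]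
      · simp [c1]
    · by_contra h
      exact hn (if_neg fun ⟨⟨_, m, hm⟩, _⟩ => h ⟨m, hm.symm⟩)
  · simp [hH, cM, c]

theorem TT_eq (E : Env) (s : O) {X : ℝ} (hX : 0 < X) :
    ((∑' k, (if Prim k ∧ IsCoprime k s then ww k * VV X (N k) else 0) : ℝ) : ℂ) =
      ∑' u, cZ s u * BS s (X / N u ^ 3) := by
  have hB := E.hB
  set f : O → ℂ := fun k => if Prim k ∧ IsCoprime k s then
    conj (bb k) * ((N k ^ (-7 / 6 : ℝ) * VV X (N k) : ℝ) : ℂ) else 0 with hf
  have e0 : ∀ k, bb k * f k =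
      ((if Prim k ∧ IsCoprime k s then ww k * VV X (N k) else 0 : ℝ) : ℂ) := fun k => by
    simp only [hf]
    split_ifs
    · rw [← mul_assoc, mul_conj', ww]; push_cast; ring
    · simp
  have hs : Summable fun k => bb k * f k := by
    obtain ⟨C, hC⟩ := E.hL.sum (1 / 6)
    refine (hC X hX).1.of_norm_bounded fun k => ?_
    rw [e0, norm_real]
    have := N0 k
    have := VV0 X (N k)
    split_ifs with c1 c2
    · exact absurd c2 (hB.b2.ne k c1.1)
    · have a1 := hB.b1.N_one_le k c2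
      have a2 : ww k ≤ N k ^ (1 / 6 : ℝ) := by
        have b1 : N k ^ (1 / 6 : ℝ) = (N k ^ (2 / 3 : ℝ)) ^ 2 * N k ^ (-7 / 6 : ℝ) := by
          rw [← Real.rpow_natCast, ← Real.rpow_mul (N0 k), ← Real.rpow_add (by linarith)]
          norm_num
        rw [b1, ww]
        exact mul_le_mul_of_nonneg_right (pow_le_pow_left₀ (norm_nonneg _) (E.hb.norm_le k) 2)
          (by positivity)
      have a3 : 0 ≤ ww k := by unfold ww; positivity
      rw [Real.norm_of_nonneg (by positivity)]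
      exact mul_le_mul_of_nonneg_right a2 (by positivity)
    · simp
    · rw [norm_zero]; positivity
  rw [ofReal_tsum, ← tsum_congr e0, E.hb.tsum_eq f hs]
  refine tsum_congr fun u => ?_
  rw [BS, ← tsum_mul_left]
  refine tsum_congr fun n => ?_
  by_cases c : Prim u ∧ Prim n ∧ Squarefree n
  · obtain ⟨c1, c2, c3⟩ := c
    have p3 := hB.b2.pow u 3 c1
    have a1 := hB.b1.N_one_le _ (hB.b2.ne _ c1)
    have a2 := hB.b1.N_one_le _ (hB.b2.ne _ c2)
    simp only [hf, cZ, c1, c2, c3, hB.b2.mul _ _ c2 p3, true_and, and_true, if_true,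
      IsCoprime.mul_left_iff, IsCoprime.pow_left_iff three_pos]
    by_cases c4 : IsCoprime n s
    · by_cases c5 : IsCoprime u s
      · simp only [c4, c5, and_self, if_true]
        have g1 : gs n * conj (gs n) = (N n : ℝ) := by
          rw [mul_conj', ← ofReal_pow, E.hH.n3 n (hB.b2.cop n c2) c3]
        have r1 : N n * N u ^ 4 * (N n * N u ^ 3) ^ (-7 / 6 : ℝ) =
            N u ^ (1 / 2 : ℝ) * N n ^ (-1 / 6 : ℝ) := by
          have b1 : N n ^ (-1 / 6 : ℝ) = N n * N n ^ (-7 / 6 : ℝ) := by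
            rw [← Real.rpow_one_add' (N0 n) (by norm_num)]; norm_num
          have b2 : N u ^ (1 / 2 : ℝ) = N u ^ 4 * (N u ^ 3) ^ (-7 / 6 : ℝ) := by
            rw [← Real.rpow_natCast, ← Real.rpow_natCast, ← Real.rpow_mul (N0 u),
              ← Real.rpow_add (by linarith)]
            norm_num
          rw [b1, b2, Real.mul_rpow (N0 n) (by positivity)]; ring
        have r2 := congrArg (fun x : ℝ => (x : ℂ)) r1
        rw [E.hb.eq n u c2 c1 c3, ph, hB.b1.N_mul, hB.b1.N_pow, mul_comm (N n) (N u ^ 3),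
          E.hL.scale X _ _ hX (by linarith) (by positivity), mul_comm (N u ^ 3) (N n)]
        simp only [map_mul, map_pow, conj_ofReal, ofReal_mul, ofReal_pow] at r2 ⊢
        linear_combination ((N u : ℂ) ^ 4 * (((N n * N u ^ 3) ^ (-7 / 6 : ℝ) : ℝ) : ℂ) *
          (VV (X / N u ^ 3) (N n) : ℝ)) * g1 + ((VV (X / N u ^ 3) (N n) : ℝ) : ℂ) * r2
      · simp [c5]
    · simp [c4]
  · rw [if_neg c]
    by_cases c1 : Prim u
    · rw [if_neg fun h => c ⟨c1, h.1, h.2.2⟩, mul_zero]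
    · simp [cZ, c1]

theorem op (E : Env) (c : O → ℂ) (q : O → ℝ) (F : ℝ → ℂ) (α : ℂ) (B σ : ℝ) (hB0 : 0 ≤ B)
    (hσ : 1 < σ) (hq : ∀ t, c t ≠ 0 → 1 ≤ q t)
    (hc : ∀ t, c t ≠ 0 → ‖c t‖ * q t ^ (-(11 / 20) : ℝ) ≤ N t ^ (-σ))
    (hF : ∀ X : ℝ, 0 < X → ‖F X - α * ((X ^ (5 / 6 : ℝ) : ℝ) : ℂ)‖ ≤ B * X ^ (11 / 20 : ℝ))
    (X : ℝ) (hX : 0 < X) :
    ‖(∑' t, c t * F (X / q t)) - α * (∑' t, c t * ((q t ^ (-(5 / 6) : ℝ) : ℝ) : ℂ)) *
      ((X ^ (5 / 6 : ℝ) : ℝ) : ℂ)‖ ≤ B * (∑' t, N t ^ (-σ)) * X ^ (11 / 20 : ℝ) := by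
  have s0 := E.hB.b3.summ σ hσ
  have b1 : ∀ t, ‖c t * (F (X / q t) - α * (((X / q t) ^ (5 / 6 : ℝ) : ℝ) : ℂ))‖ ≤
      B * N t ^ (-σ) * X ^ (11 / 20 : ℝ) := fun t => by
    have := N0 t
    by_cases h : c t = 0
    · rw [h, zero_mul, norm_zero]; positivity
    · have a1 := hq t h
      have a2 := hF (X / q t) (by positivity)
      rw [Real.div_rpow hX.le (by linarith) (11 / 20), div_eq_mul_inv (X ^ (11 / 20 : ℝ)),
        ← Real.rpow_neg (by linarith)] at a2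
      rw [norm_mul]
      calc _ ≤ ‖c t‖ * (B * (X ^ (11 / 20 : ℝ) * q t ^ (-(11 / 20) : ℝ))) :=
            mul_le_mul_of_nonneg_left a2 (norm_nonneg _)
        _ = B * (‖c t‖ * q t ^ (-(11 / 20) : ℝ)) * X ^ (11 / 20 : ℝ) := by ring
        _ ≤ _ := by gcongr; exact hc t h
  have b2 : ∀ t, ‖c t * ((q t ^ (-(5 / 6) : ℝ) : ℝ) : ℂ)‖ ≤ N t ^ (-σ) := fun t => by
    have := N0 t
    by_cases h : c t = 0
    · rw [h, zero_mul, norm_zero]; positivity
    · have a1 := hq t h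
      rw [norm_mul, norm_real, Real.norm_of_nonneg (by positivity)]
      exact (mul_le_mul_of_nonneg_left (Real.rpow_le_rpow_of_exponent_le a1 (by norm_num))
        (norm_nonneg _)).trans (hc t h)
  have s1 := (s0.mul_left B).mul_right (X ^ (11 / 20 : ℝ))
  have s2 := s1.of_norm_bounded b1
  have s3 := ((s0.of_norm_bounded b2).mul_left α).mul_right ((X ^ (5 / 6 : ℝ) : ℝ) : ℂ)
  have e : ∀ t, c t * F (X / q t) =
      c t * (F (X / q t) - α * (((X / q t) ^ (5 / 6 : ℝ) : ℝ) : ℂ)) +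
        α * (c t * ((q t ^ (-(5 / 6) : ℝ) : ℝ) : ℂ)) * ((X ^ (5 / 6 : ℝ) : ℝ) : ℂ) := fun t => by
    by_cases h : c t = 0
    · simp [h]
    · have a1 := hq t h
      rw [Real.div_rpow hX.le (by linarith) (5 / 6), div_eq_mul_inv (X ^ (5 / 6 : ℝ)),
        ← Real.rpow_neg (by linarith)]
      push_cast; ring
  rw [tsum_congr e, s2.tsum_add s3, tsum_mul_right, tsum_mul_left, add_sub_cancel_right,
    ← tsum_mul_left, ← tsum_mul_right]
  exact tsum_of_norm_bounded s1.hasSum b1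

theorem MZ (E : Env) : ∀ s, Prim s → ZKM.Mf (ZKM.pw 2) (fun n => IsCoprime n s) *
    ZKM.Zf (ZKM.pw 2) (fun n => IsCoprime n s) = 1 := by
  have hB := E.hB
  have hf := ZKM.summ hB (s := 2) (by norm_num)
  refine hB.b2.ind1 _ ?_ fun p a hp hq ha ih => ?_
  · simpa only [isCoprime_one_right] using ZKM.Mf_mul_Zf hB hf (ZKM.pw_mul 2) (ZKM.pw_one 2)
  · by_cases c : p ∣ a
    · simpa only [cop_iff' hp c] using ih
    · simp only [cop_iff hp]
      rw [ZKM.Zf_split hB hf (ZKM.pw_mul 2) hp hq fun m => cop_mul hp c]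
      rw [ZKM.Mf_split hB hf (ZKM.pw_mul 2) hp hq fun m => cop_mul hp c] at ih
      linear_combination ih

theorem pw2 (n : O) : ZKM.pw 2 (Nn n) = ((N n ^ (-2 : ℝ) : ℝ) : ℂ) := by
  rw [ofReal_cpow (N0 n), ZKM.pw, N]
  push_cast
  rfl

theorem cM_sum (E : Env) (s : O) : (∑' t, cM s t * (((N t ^ 2) ^ (-(5 / 6) : ℝ) : ℝ) : ℂ)) =
    ZKM.Mf (ZKM.pw 2) (fun n => IsCoprime n s) := by
  refine tsum_congr fun t => ?_
  rw [cM]
  split_ifs with c
  · have a1 := E.hB.b1.N_one_le _ (E.hB.b2.ne _ c.1)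
    rw [pw2, mul_assoc, ← ofReal_mul, ← Real.rpow_natCast, ← Real.rpow_mul (N0 t),
      ← Real.rpow_add (by linarith)]
    norm_num
  · simp

theorem cZ_sum (E : Env) (s : O) : (∑' t, cZ s t * (((N t ^ 3) ^ (-(5 / 6) : ℝ) : ℝ) : ℂ)) =
    ZKM.Zf (ZKM.pw 2) (fun n => IsCoprime n s) := by
  refine tsum_congr fun t => ?_
  rw [cZ]
  split_ifs with c
  · have a1 := E.hB.b1.N_one_le _ (E.hB.b2.ne _ c.1)
    rw [pw2, ← ofReal_mul, ← Real.rpow_natCast, ← Real.rpow_mul (N0 t),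
      ← Real.rpow_add (by linarith)]
    norm_num
  · simp

end W8M

open W8M in
theorem w8S (E : Env) (h0 : W0Stmt) : W8Stmt := by
  have hB := E.hB
  intro ε hε
  obtain ⟨C, hC, hA⟩ := AA_est E h0
  obtain ⟨C1, h1⟩ := E.h8.ome 2 ε (by norm_num) hε
  have z1 : 0 ≤ ∑' t : O, N t ^ (-(43 / 30) : ℝ) := tsum_nonneg fun t => Real.rpow_nonneg (N0 t) _
  have z2 : 0 ≤ ∑' t : O, N t ^ (-(23 / 20) : ℝ) := tsum_nonneg fun t => Real.rpow_nonneg (N0 t) _
  refine ⟨C * |C1| * (∑' t : O, N t ^ (-(43 / 30) : ℝ)) * ∑' t : O, N t ^ (-(23 / 20) : ℝ),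
    by positivity, fun s Y hs hY => ?_⟩
  have pM : ∀ t, cM s t ≠ 0 → Prim t ∧ IsCoprime t s := fun t h => by
    by_contra c; exact h (if_neg c)
  have pZ : ∀ t, cZ s t ≠ 0 → Prim t ∧ IsCoprime t s := fun t h => by
    by_contra c; exact h (if_neg c)
  have o1 := op E (cM s) (fun t => N t ^ 2) (AA s) _ (C * 2 ^ (pf s).card) (43 / 30) (by positivity)
    (by norm_num)
    (fun t h => one_le_pow₀ (hB.b1.N_one_le _ (hB.b2.ne _ (pM t h).1))) (fun t h => by
      have a1 := hB.b1.N_one_le _ (hB.b2.ne _ (pM t h).1)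
      have e : N t ^ (-(43 / 30) : ℝ) = N t ^ (-1 / 3 : ℝ) * (N t ^ 2) ^ (-(11 / 20) : ℝ) := by
        rw [← Real.rpow_natCast, ← Real.rpow_mul (N0 t), ← Real.rpow_add (by linarith)]
        norm_num
      rw [e, cM, if_pos (pM t h), norm_mul, norm_real, Real.norm_of_nonneg (by positivity)]
      exact mul_le_mul_of_nonneg_right
        (mul_le_of_le_one_left (by positivity) (ZKM.norm_mu t)) (by positivity)) (hA s hs)
  have o2 := op E (cZ s) (fun t => N t ^ 3) (BS s) _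
    (C * 2 ^ (pf s).card * ∑' t : O, N t ^ (-(43 / 30) : ℝ)) (23 / 20) (by positivity) (by norm_num)
    (fun t h => one_le_pow₀ (hB.b1.N_one_le _ (hB.b2.ne _ (pZ t h).1))) (fun t h => by
      have a1 := hB.b1.N_one_le _ (hB.b2.ne _ (pZ t h).1)
      have e : N t ^ (-(23 / 20) : ℝ) = N t ^ (1 / 2 : ℝ) * (N t ^ 3) ^ (-(11 / 20) : ℝ) := by
        rw [← Real.rpow_natCast, ← Real.rpow_mul (N0 t), ← Real.rpow_add (by linarith)]
        norm_num
      rw [e, cZ, if_pos (pZ t h), norm_real, Real.norm_of_nonneg (by positivity)])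
    (fun X hX => by rw [BS_eq E s hX]; exact o1 X hX) Y hY
  rw [← TT_eq E s hY, cM_sum E, cZ_sum E, mul_assoc ((rho0 * EP s : ℝ) : ℂ), MZ E s hs, mul_one,
    ← ofReal_mul, ← ofReal_sub, norm_real] at o2
  refine o2.trans ?_
  have a1 : (2 : ℝ) ^ (pf s).card ≤ |C1| * N s ^ ε := by
    have b1 := E.h8.rd_ge s
    refine (h1 s).trans (mul_le_mul (le_abs_self _) (Real.rpow_le_rpow (by linarith)
      (E.h8.rd_le s (hB.b2.ne s hs)) hε.le) (by positivity) (abs_nonneg _))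
  calc _ ≤ C * (|C1| * N s ^ ε) * (∑' t : O, N t ^ (-(43 / 30) : ℝ)) *
        (∑' t : O, N t ^ (-(23 / 20) : ℝ)) * Y ^ (11 / 20 : ℝ) := by gcongr
    _ = _ := by ring

end Vale.Agent.P006.K
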