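import Vale.Agent.P006.K0
import Vale.Agent.P026.M.PS1a

/-! P006 branch K: Mellin representation of the averaged kernel. -/

noncomputable section
open Complex MeasureTheory Filter Topology
open scoped Classical ComplexConjugate

namespace Vale.Agent.P006.K
open Vale.Agent.P026

theorem kerS (E : Env) : KERStmt := by
  intro A0 β hA hβ
  have b0 : 0 < Real.pi * β ^ 2 := by positivity
  have c0 : (0 : ℝ) < 7 / 9 := by norm_num
  have vs : ∀ A, 0 < A → VV A0 A = VV A A0 := fun A h => by
    rw [VV, VV, ← inv_div A0 A, Real.log_inv, neg_sq]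
  set G : ℝ → ℂ := fun u => cexp (Real.log (Real.pi * β ^ 2) * (-((7 / 9 : ℝ) + u * I))) *
    Gamma ((7 / 9 : ℝ) + u * I) with hG
  set F : ℝ → ℝ → ℂ := fun A u =>
    (VV A A0 : ℂ) * cexp (Real.log A * (-(2 * ((7 / 9 : ℝ) + u * I) - 1) - 1)) * G u with hF
  have gc := PS1M.gam_cont c0
  have iG : Integrable G := (PS1M.gam_int E.hΓ c0).bdd_mul (c := Real.exp (Real.log
      (Real.pi * β ^ 2) * (-(7 / 9)))) (by fun_prop) (.of_forall fun u => by
    rw [norm_exp]; simp)
  have iA : IntegrableOn (fun A : ℝ => (VV A A0 : ℂ) * (A : ℂ) ^ (-(5 / 9 : ℂ) - 1)) (Set.Ioi 0) :=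
    Integrable.of_integral_ne_zero (by
      rw [E.hL.fwd A0 _ hA, PS1M.cp hA]
      have : (√Real.pi : ℂ) ≠ 0 := ofReal_ne_zero.2 (Real.sqrt_pos.2 Real.pi_pos).ne'
      simp [this, exp_ne_zero])
  have iF : Integrable (Function.uncurry F) ((volume.restrict (Set.Ioi (0 : ℝ))).prod volume) := by
    refine (iA.norm.mul_prod iG.norm).mono' ?_ ?_
    · refine Measurable.aestronglyMeasurable ?_
      have h1 : Continuous G := (by fun_prop : Continuous fun u : ℝ => cexp (Real.log
        (Real.pi * β ^ 2) * (-((7 / 9 : ℝ) + u * I)))).mul gc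
      simp only [hF, VV, Function.uncurry_def]
      refine Measurable.mul (Measurable.mul ?_ ?_) (h1.measurable.comp measurable_snd)
      · exact measurable_ofReal.comp (by fun_prop)
      · exact measurable_exp.comp ((measurable_ofReal.comp (by fun_prop)).mul (by fun_prop))
    · refine (Measure.quasiMeasurePreserving_fst.ae (ae_restrict_mem measurableSet_Ioi)).mono
        fun p hp => le_of_eq ?_
      simp only [hF, Function.uncurry_def, norm_mul, PS1M.cp hp, norm_exp]
      congr 3
      simp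
      ring
  have e1 : (Kv A0 β : ℂ) = ∫ A in Set.Ioi (0 : ℝ), ((2 * Real.pi : ℝ) : ℂ)⁻¹ * ∫ u, F A u := by
    rw [Kv, ← integral_complex_ofReal]
    refine setIntegral_congr_fun measurableSet_Ioi fun A hA' => ?_
    have h0 : 0 < A := hA'
    rw [ofReal_mul, ofReal_exp, ofReal_neg, PS1M.mel E.hΓ c0 (by positivity), vs A h0,
      mul_left_comm, ← integral_const_mul, one_div, ofReal_inv]
    congr 2
    ext u
    simp only [hF, hG]
    rw [PS1M.cp (by positivity), show Real.pi * (β * A) ^ 2 = Real.pi * β ^ 2 * A ^ 2 by ring,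
      Real.log_mul b0.ne' (by positivity), Real.log_pow, mul_assoc (VV A A0 : ℂ), ← mul_assoc (cexp _),
      ← exp_add]
    congr 3
    push_cast
    ring
  rw [e1, integral_const_mul, integral_integral_swap iF, ofReal_inv]
  congr 2
  ext u
  simp only [hF]
  rw [integral_mul_const, setIntegral_congr_fun (g := fun A : ℝ => (VV A A0 : ℂ) *
    (A : ℂ) ^ (-(2 * ((7 / 9 : ℝ) + u * I) - 1) - 1 : ℂ)) measurableSet_Ioi
    (fun A hA' => by simp only [PS1M.cp hA']), E.hL.fwd A0 _ hA]
  simp only [hG]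
  rw [PS1M.cp b0, neg_sub, ← neg_sub (1 : ℂ), neg_sq]
  push_cast
  ring

end Vale.Agent.P006.K
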