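import Vale.Agent.P006.K.CUB
import Vale.Agent.P006.K.EM
import Vale.Agent.P006.K.FIN
import Vale.Agent.P006.K.KER
import Vale.Agent.P006.K.KL
import Vale.Agent.P006.K.KR
import Vale.Agent.P006.K.NC
import Vale.Agent.P006.K.NC1
import Vale.Agent.P006.K.GZ
import Vale.Agent.P006.K.P1
import Vale.Agent.P006.K.POI
import Vale.Agent.P006.K.RAT
import Vale.Agent.P006.K.SQ
import Vale.Agent.P006.K.TR
import Vale.Agent.P006.K.W0
import Vale.Agent.P006.K.W8
import Vale.Agent.P026.M.W2a
import Vale.Agent.P026.M.B8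

/-! P006 branch K: closed pieces. -/

namespace Vale.Agent.P006.K
open Vale.Agent.P026

theorem env : Env :=
  ⟨W1.bas, W1.cr, W1.p9, W1.j, W1.hd, W1.bb, b8S W1.bas, W2.ln, W2.gpo, W2.gamm, W2.sh⟩
theorem em : EMStmt := emS env
theorem dec : DECStmt := decS env
theorem tr : TRStmt := trS env
theorem rat : RATStmt := ratS env
theorem w0 : W0Stmt := w0S env tr
theorem w8 : W8Stmt := w8S env w0
theorem kr : KRStmt := krS env em dec (poiS env dec rat (gzS env) (p1S env)) (cubS env em dec)
theorem main0 (hG : GBStmt) (hM : MZStmt) : KStmt :=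
  finS env em w8 (klS env em hM rat w8) kr (ncS env (nc1S env (kerS env) (sqS env tr hG)) em dec)

end Vale.Agent.P006.K
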