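import Vale.Agent.P006.K.RAT
import Vale.Agent.P006.Poi3
import Vale.Agent.P026.M.SS0

noncomputable section
open Complex
open scoped Classical ComplexConjugate

namespace Vale.Agent.P006.K
open Vale.Agent.P026

namespace GBM
open SS0M

lemma summ0 (hB : Bas) {t : ℝ} (ht : 0 < t) :
    Summable fun b : O => if b = 0 then (0 : ℝ) else Real.exp (-(t * N b)) :=
  (summ_exp hB ht).of_nonneg_of_le (fun b => by split_ifs <;> positivity)
    fun b => by split_ifs <;> first | positivity | exact le_rfl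

lemma gsum (hB : Bas) (hG : GPOStmt) : ∃ C : ℝ, 0 ≤ C ∧ ∀ t : ℝ, 0 < t →
    ∑' b : O, (if b = 0 then (0 : ℝ) else Real.exp (-(t * N b))) ≤ C / t := by
  obtain ⟨C, C0, hC⟩ := gp hB hG (A := 2) le_rfl
  have s2 := hB.b3.summ ((2 : ℕ) : ℝ) (by norm_num)
  set Z := ∑' b : O, N b ^ (-((2 : ℕ) : ℝ)) with hZ
  have Z0 : 0 ≤ Z := tsum_nonneg fun b => Real.rpow_nonneg (N0 b) _
  refine ⟨2 * C + 2 * Z, by positivity, fun t ht => ?_⟩
  rcases le_total t 1 with h | h
  · have h1 := hC (fun _ => 1) 1 t⁻¹ one_ne_zero (fun _ _ => rfl) (by simp) (by positivity)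
    have n1 : N (1 : O) = 1 := by rw [N, ZKM.Nn_one]; simp
    have e : ∑' m : O, (1 : ℂ) * cexp (-(N m / t⁻¹ : ℝ)) =
        ((∑' m : O, Real.exp (-(t * N m)) : ℝ) : ℂ) := by
      rw [Complex.ofReal_tsum]
      refine tsum_congr fun m => ?_
      rw [one_mul, Complex.ofReal_exp, div_inv_eq_mul, mul_comm]
      push_cast; rfl
    rw [e, Complex.norm_real, n1, Finset.sum_const, hB.b4.card 1 one_ne_zero, ZKM.Nn_one] at h1
    simp only [one_smul, norm_one, div_one, one_div, inv_inv] at h1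
    calc _ ≤ ∑' m : O, Real.exp (-(t * N m)) :=
          (summ0 hB ht).tsum_le_tsum (fun b => by split_ifs <;> first | positivity | exact le_rfl)
            (summ_exp hB ht)
      _ ≤ C * t⁻¹ * (1 + t ^ 2) := (le_abs_self _).trans h1
      _ ≤ C * t⁻¹ * 2 := by gcongr; nlinarith
      _ ≤ _ := by rw [div_eq_mul_inv]; nlinarith [mul_nonneg Z0 (inv_pos.2 ht).le]
  · calc _ ≤ ∑' b : O, 2 / t * N b ^ (-((2 : ℕ) : ℝ)) := by
          refine (summ0 hB ht).tsum_le_tsum (fun b => ?_) (s2.mul_left _)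
          have := Real.rpow_nonneg (N0 b) (-((2 : ℕ) : ℝ))
          split_ifs with hb
          · positivity
          · refine (exp_le hB (A := 2) ht hb).trans (mul_le_mul_of_nonneg_right ?_ this)
            rw [div_le_div_iff₀ (by positivity) ht]
            simp only [Nat.factorial, Nat.succ_eq_add_one]
            norm_num
            nlinarith
      _ = 2 * Z / t := by rw [tsum_mul_left]; ring
      _ ≤ _ := by gcongr; linarith

lemma pois (hB : Bas) (hG : GPOStmt) : ∃ C : ℝ, 0 ≤ C ∧ ∀ (P : O → ℂ) (q : O) (K y : ℝ),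
    q ≠ 0 → Pe q P → (∀ b, ‖∑ r ∈ Rs q, P r * eQ (r * b) q‖ ≤ K) →
    ∑ r ∈ Rs q, P r * eQ (r * 0) q = 0 → 0 < y →
    ‖∑' l, P l * cexp (-(y * N l : ℝ))‖ ≤ C * K := by
  obtain ⟨C, C0, hC⟩ := gsum hB hG
  have s0 : 0 < sg := lt_of_lt_of_le one_pos sg1
  refine ⟨Real.pi / ‖kap‖ * C / sg, by positivity, fun P q K y hq hP hK h0 hy => ?_⟩
  have q0 : 0 < N q := lt_of_lt_of_le one_pos (hB.b1.N_one_le q hq)
  have K0 : 0 ≤ K := (norm_nonneg _).trans (hK 0)
  have c0 : 0 < sg * y⁻¹ / N q := by positivity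
  have h1 := hG P q y⁻¹ hq hP (by positivity)
  have e : ∀ m : O, N m / y⁻¹ = y * N m := fun m => by rw [div_inv_eq_mul, mul_comm]
  simp only [e] at h1
  have hb := tsum_of_norm_bounded (f := fun b : O =>
      (∑ r ∈ Rs q, P r * eQ (r * b) q) * cexp (-(sg * y⁻¹ * N b / N q : ℝ)))
    ((summ0 hB c0).hasSum.mul_left K) (fun b => by
      split_ifs with hb
      · rw [hb, h0]; simp
      · rw [norm_mul, cexp_norm, show sg * y⁻¹ * N b / N q = sg * y⁻¹ / N q * N b by ring]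
        gcongr
        exact hK b)
  rw [h1, norm_mul, norm_div, norm_mul, Complex.norm_real, Complex.norm_real,
    Real.norm_of_nonneg q0.le, Real.norm_of_nonneg (by positivity)]
  have k0 : 0 < ‖kap‖ := norm_pos_iff.2 Poi3.kap_ne
  calc _ ≤ Real.pi * y⁻¹ / (‖kap‖ * N q) * (K * (C / (sg * y⁻¹ / N q))) := by
        gcongr
        exact hb.trans (by gcongr; exact hC _ c0)
    _ = _ := by field_simp

/-- the part of the character at `3` -/
def al (v : ℕ) (l : O) : ℂ := if Prim l then cub 3 l ^ v else 0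

lemma al_pe (E : Env) (v : ℕ) : Pe 27 (al v) := by
  intro a m
  have h : Prim (a + 27 * m) ↔ Prim a := by
    unfold Prim
    rw [show a + 27 * m - 1 = a - 1 + 3 * (9 * m) by ring]
    exact dvd_add_left (dvd_mul_right _ _)
  unfold al
  by_cases ha : Prim a
  · have h3 : (3 : O) ≠ 0 := fun h => by
      have := congrArg QuadraticAlgebra.re h
      simp [QuadraticAlgebra.re_ofNat] at this
    rw [if_pos ha, if_pos (h.2 ha), E.h9 3 _ a h3 (h.2 ha) ha ⟨m, by ring⟩]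
  · rw [if_neg ha, if_neg (fun h' => ha (h.1 h'))]

lemma al_le (hB : Bas) (v : ℕ) (l : O) : ‖al v l‖ ≤ 1 := by
  unfold al
  split_ifs
  · rw [norm_pow]; exact pow_le_one₀ (norm_nonneg _) (hB.b6.norm_le _ _)
  · simp

lemma n27 : (27 : O) ≠ 0 := fun h => by
  have := congrArg QuadraticAlgebra.re h
  simp [QuadraticAlgebra.re_ofNat] at this

lemma cop27 (hB : Bas) {n : O} (hn : Prim n) : IsCoprime n 27 := by
  have := (hB.b2.cop n hn).pow_right (n := 3)
  rwa [show (3 : O) ^ 3 = 27 by norm_num] at this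

lemma al_sum (E : Env) {v : ℕ} (hv : v % 3 ≠ 0) : ∑ r ∈ Rs 27, al v r = 0 := by
  have hB := E.hB
  obtain ⟨p, hp, hp', hN⟩ : ∃ p : O, Prime p ∧ Prim p ∧ Nn p = 7 := by
    rcases ZKM.cls hB 7 (by norm_num) (by norm_num) with ⟨_, p, _, hp, hp', _, _, _, hN, _, _⟩ | ⟨h, _⟩
    · exact ⟨p, hp, hp', hN⟩
    · omega
  have c3 := hB.b6.cube 3 p (hB.b2.cop p hp').symm
  have c1 : cub 3 p ≠ 1 := fun h => by
    obtain ⟨z, z1, z2, _⟩ := hB.b6.spec 3 p hp (hB.b2.cop p hp')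
    rw [h, ← map_one toC] at z1
    rw [hB.b1.inj z1, hN] at z2
    have := ZKM.Nn_dvd hB z2
    rw [hN, show (3 : O) ^ ((7 - 1) / 3) - 1 = ((8 : ℕ) : O) by norm_num, ZKM.Nn_nat] at this
    omega
  have cv : cub 3 p ^ v ≠ 1 := fun h => by
    rw [← Nat.div_add_mod v 3, pow_add, pow_mul, c3, one_pow, one_mul] at h
    have : v % 3 = 1 ∨ v % 3 = 2 := by omega
    rcases this with e | e <;> rw [e] at h
    · exact c1 (by simpa using h)
    · exact c1 (by linear_combination c3 - cub 3 p * h)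
  have h1 := hB.b4.affine 27 (al v) p 0 n27 (al_pe E v) (cop27 hB hp')
  have h2 : ∀ r, al v (p * r + 0) = cub 3 p ^ v * al v r := fun r => by
    rw [add_zero]
    unfold al
    by_cases hr : Prim r
    · rw [if_pos hr, if_pos (hB.b2.mul _ _ hp' hr), hB.b6.mul_r _ _ _ hp.ne_zero (hB.b2.ne r hr),
        mul_pow]
    · rw [if_neg hr, if_neg (fun h => hr (hB.b2.cancel _ _ hp' h)), mul_zero]
  simp only [h2] at h1
  rw [← Finset.mul_sum] at h1
  exact (mul_eq_zero.1 (show (cub 3 p ^ v - 1) * ∑ r ∈ Rs 27, al v r = 0 by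
    linear_combination h1)).resolve_left (sub_ne_zero.2 cv)

lemma cub_zero (hB : Bas) {n : O} (hn : Prim n) (h1 : n ≠ 1) : cub 0 n = 0 :=
  hB.b6.zero 0 n (hB.b2.ne n hn) fun h =>
    h1 (Poi3.eq_one_of_dvd hB hn (isUnit_iff_dvd_one.1 (isCoprime_zero_left.1 h)))

lemma core (E : Env) : ∃ C : ℝ, 0 ≤ C ∧ ∀ (v : ℕ) (n1 n2 : O) (y : ℝ), Prim n1 → Prim n2 →
    Squarefree n1 → Squarefree n2 → IsCoprime n1 n2 → (v % 3 ≠ 0 ∨ n1 ≠ 1 ∨ n2 ≠ 1) → 0 < y →
    ‖∑' l, (if Prim l then cub (3 ^ v * n1 * n2 ^ 2) l else 0) * cexp (-(y * N l : ℝ))‖ ≤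
      C * Real.sqrt (N n1 * N n2) := by
  have hB := E.hB
  obtain ⟨C, C0, hC⟩ := pois hB E.hG
  refine ⟨C * 729, by positivity, fun v n1 n2 y p1 p2 s1 s2 hc hn hy => ?_⟩
  have pn := hB.b2.mul _ _ p1 p2
  have n0 := hB.b2.ne _ pn
  have pb := Poi3.pe_pair hB n1 n2
  obtain ⟨β, hβ⟩ : ∃ β : O → ℂ, β = fun l => cub l n1 * conj (cub l n2) := ⟨_, rfl⟩
  rw [← hβ] at pb
  have e : ∀ l, (if Prim l then cub (3 ^ v * n1 * n2 ^ 2) l else 0) = al v l * β l := fun l => by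
    unfold al
    split_ifs with hl
    · have c := hB.b2.cop l hl
      rw [hB.b6.mul_l _ _ _ c, hB.b6.mul_l _ _ _ c, hB.b6.pow_l _ _ _ c, hB.b6.pow_l _ _ _ c,
        E.hC n1 l p1 hl, E.hC n2 l p2 hl, hβ]
      simp only
      rw [hB.b6.conj_eq, mul_assoc]
    · rw [zero_mul]
  simp only [e]
  have pe : Pe (27 * (n1 * n2)) fun l => al v l * β l := fun a m => by
    simp only
    rw [mul_assoc 27, al_pe E v, show 27 * (n1 * n2 * m) = n1 * n2 * (27 * m) by ring, pb]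
  have key : ∀ b, ∑ r ∈ Rs (27 * (n1 * n2)), al v r * β r * eQ (r * b) (27 * (n1 * n2)) =
      (∑ r ∈ Rs 27, al v (r * (n1 * n2)) * eQ (r * b) 27) * (β 27 *
        (conj (cub b n1 * gs n1) * (cub b n2 * gs n2))) := fun b => by
    rw [hB.b4.crt 27 (n1 * n2) (fun r => al v r * β r * eQ (r * b) (27 * (n1 * n2))) n27 n0
      (cop27 hB pn).symm (fun a m => by
        have := pe a m
        simp only at this ⊢
        rw [this, add_mul, hB.b1.eQ_add,
          hB.b1.eQ_dvd (27 * (n1 * n2) * m * b) _ ⟨m * b, by ring⟩, mul_one]),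
      ← Poi3.ft hB E.hC E.hH p1 p2 s1 s2 hc b, Finset.mul_sum, Finset.sum_mul_sum]
    refine Finset.sum_congr rfl fun r1 _ => Finset.sum_congr rfl fun r2 _ => ?_
    have a1 := al_pe E v (r1 * (n1 * n2)) r2
    have a2 := pb (27 * r2) r1
    have b1 : eQ (r1 * (n1 * n2) * b) (27 * (n1 * n2)) = eQ (r1 * b) 27 := by
      rw [← hB.b1.eQ_mul (n1 * n2) (r1 * b) 27 n0]; congr 1 <;> ring
    have b2 : eQ (r2 * 27 * b) (27 * (n1 * n2)) = eQ (r2 * b) (n1 * n2) := by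
      rw [← hB.b1.eQ_mul 27 (r2 * b) (n1 * n2) n27]; congr 1; ring
    have a3 : β (27 * r2) = β 27 * β r2 := by
      simp only [hβ]
      rw [hB.b6.mul_l _ _ _ (hB.b2.cop _ p1), hB.b6.mul_l _ _ _ (hB.b2.cop _ p2), map_mul]
      ring
    rw [add_mul, hB.b1.eQ_add, b1, b2, mul_comm r2 27, a1,
      show r1 * (n1 * n2) + 27 * r2 = 27 * r2 + n1 * n2 * r1 by ring, a2, a3]
    simp only [hβ]
    ring
  have g1 : ‖gs n1‖ = Real.sqrt (N n1) := by
    rw [← E.hH.n3 n1 (hB.b2.cop _ p1) s1, Real.sqrt_sq (norm_nonneg _)]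
  have g2 : ‖gs n2‖ = Real.sqrt (N n2) := by
    rw [← E.hH.n3 n2 (hB.b2.cop _ p2) s2, Real.sqrt_sq (norm_nonneg _)]
  rw [mul_assoc C]
  refine hC _ (27 * (n1 * n2)) _ y (mul_ne_zero n27 n0) pe (fun b => ?_) ?_ hy
  · rw [key, Real.sqrt_mul (N0 _)]
    simp only [norm_mul, Complex.norm_conj, g1, g2]
    have a1 : ‖∑ r ∈ Rs 27, al v (r * (n1 * n2)) * eQ (r * b) 27‖ ≤ 729 := by
      refine (norm_sum_le _ _).trans ((Finset.sum_le_card_nsmul _ _ 1 fun r _ => ?_).trans ?_)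
      · rw [norm_mul, eQ, hB.b1.norm_psi, mul_one]; exact al_le hB _ _
      · rw [hB.b4.card 27 n27, show (27 : O) = ((27 : ℕ) : O) by norm_num, ZKM.Nn_nat]
        norm_num
    have a2 : ‖β 27‖ ≤ 1 := by
      simp only [hβ]
      rw [norm_mul, Complex.norm_conj]
      exact mul_le_one₀ (hB.b6.norm_le _ _) (norm_nonneg _) (hB.b6.norm_le _ _)
    have a3 := hB.b6.norm_le b n1
    have a4 := hB.b6.norm_le b n2
    calc _ ≤ 729 * (1 * (1 * Real.sqrt (N n1) * (1 * Real.sqrt (N n2)))) := by gcongr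
      _ = _ := by ring
  · rw [key]
    by_cases h1 : n1 = 1
    · by_cases h2 : n2 = 1
      · have hv : v % 3 ≠ 0 := by tauto
        simp only [h1, h2, mul_one, mul_zero, hB.b1.eQ_dvd 0 27 (dvd_zero _)]
        rw [al_sum E hv, zero_mul]
      · rw [cub_zero hB p2 h2]; simp
    · rw [cub_zero hB p1 h1]; simp

end GBM

end Vale.Agent.P006.K
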