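import Vale.Agent.P006.K0

/-! P006 branch K: Moebius sieve over `ℤ`, coprimality transfer, Gaussian summability. -/

noncomputable section
open Complex
open scoped Classical ComplexConjugate

namespace Vale.Agent.P006.K
open Vale.Agent.P026
namespace POIM

lemma mob (R : ℕ) (hR : R ≠ 0) (a : ℤ) : (if IsCoprime a R then (1 : ℂ) else 0) =
    ∑ e ∈ R.divisors, if (e : ℤ) ∣ a then ((ArithmeticFunction.moebius e : ℤ) : ℂ) else 0 := by
  have h1 : R.divisors.filter (fun e : ℕ => (e : ℤ) ∣ a) = (Nat.gcd a.natAbs R).divisors := by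
    ext e
    simp only [Finset.mem_filter, Nat.mem_divisors, Nat.dvd_gcd_iff, Int.natCast_dvd]
    constructor
    · rintro ⟨⟨h1, _⟩, h2⟩
      exact ⟨⟨h2, h1⟩, Nat.gcd_ne_zero_right hR⟩
    · rintro ⟨⟨h1, h2⟩, _⟩
      exact ⟨⟨h2, hR⟩, h1⟩
  rw [← Finset.sum_filter, h1]
  have h2 := congrArg (fun f : ArithmeticFunction ℤ => f (Nat.gcd a.natAbs R))
    ArithmeticFunction.moebius_mul_coe_zeta
  simp only [ArithmeticFunction.coe_mul_zeta_apply, ArithmeticFunction.one_apply] at h2
  rw [← Int.cast_sum, h2]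
  have h3 : IsCoprime a R ↔ Nat.gcd a.natAbs R = 1 := by
    rw [Int.isCoprime_iff_gcd_eq_one]
    rfl
  by_cases h : IsCoprime a R
  · rw [if_pos h, if_pos (h3.1 h)]; simp
  · rw [if_neg h, if_neg (fun g => h (h3.2 g))]; simp

lemma mult (e : ℤ) (he : e ≠ 0) (F : ℤ → ℂ) :
    ∑' a, (if e ∣ a then F a else 0) = ∑' a, F (e * a) := by
  have hi : Function.Injective (fun a : ℤ => e * a) := fun a b h => mul_left_cancel₀ he h
  rw [← hi.tsum_eq (f := fun a => if e ∣ a then F a else 0)]
  · refine tsum_congr fun a => ?_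
    rw [if_pos (dvd_mul_right _ _)]
  · intro a ha
    by_cases h : e ∣ a
    · obtain ⟨b, rfl⟩ := h
      exact ⟨b, rfl⟩
    · simp [h] at ha

lemma sieve (R : ℕ) (hR : R ≠ 0) (F : ℤ → ℂ) (hF : Summable F) :
    ∑' a : ℤ, (if IsCoprime a R then F a else 0) =
      ∑ e ∈ R.divisors, ((ArithmeticFunction.moebius e : ℤ) : ℂ) * ∑' a : ℤ, F (e * a) := by
  have h1 : ∀ a : ℤ, (if IsCoprime a R then F a else 0) = ∑ e ∈ R.divisors,
      ((ArithmeticFunction.moebius e : ℤ) : ℂ) * (if (e : ℤ) ∣ a then F a else 0) := by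
    intro a
    have := mob R hR a
    calc _ = (if IsCoprime a R then (1 : ℂ) else 0) * F a := by split_ifs <;> simp
      _ = _ := by
        rw [this, Finset.sum_mul]
        refine Finset.sum_congr rfl fun e _ => ?_
        split_ifs <;> simp
  simp_rw [h1]
  rw [Summable.tsum_finsetSum]
  · refine Finset.sum_congr rfl fun e he => ?_
    have he0 : (e : ℤ) ≠ 0 := by
      have := Nat.pos_of_mem_divisors he
      omega
    rw [tsum_mul_left, mult e he0]
  · intro e _
    refine Summable.mul_left _ (Summable.of_norm_bounded hF.norm fun a => ?_)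
    split_ifs <;> simp

lemma copO (a b : ℤ) : IsCoprime (a : O) (b : O) ↔ IsCoprime a b := by
  constructor
  · rintro ⟨x, y, h⟩
    refine ⟨x.re, y.re, ?_⟩
    have := congrArg QuadraticAlgebra.re h
    simpa [QuadraticAlgebra.re_mul, QuadraticAlgebra.re_one] using this
  · intro h
    exact h.intCast

lemma cj_int (a : ℤ) : cj (a : O) = a := by
  ext <;> simp [cj]

lemma cj_cop (a b : O) (h : IsCoprime a b) : IsCoprime (cj a) (cj b) := by
  obtain ⟨x, y, h⟩ := h
  refine ⟨cj x, cj y, ?_⟩
  have h1 := congrArg QuadraticAlgebra.re h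
  have h2 := congrArg QuadraticAlgebra.im h
  simp only [QuadraticAlgebra.re_add, QuadraticAlgebra.im_add, QuadraticAlgebra.re_mul,
    QuadraticAlgebra.im_mul, QuadraticAlgebra.re_one, QuadraticAlgebra.im_one] at h1 h2
  ext
  · simp only [cj, QuadraticAlgebra.re_add, QuadraticAlgebra.re_mul, QuadraticAlgebra.re_one]
    linarith
  · simp only [cj, QuadraticAlgebra.im_add, QuadraticAlgebra.im_mul, QuadraticAlgebra.im_one]
    linarith

lemma copN (hB : Bas) (a : ℤ) (u : O) : IsCoprime (a : O) u ↔ IsCoprime a (Nn u : ℤ) := by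
  rw [← copO, Int.cast_natCast, ← hB.b1.cj_mul]
  constructor
  · intro h
    have := cj_cop _ _ h
    rw [cj_int] at this
    exact h.mul_right this
  · intro h
    exact h.of_mul_right_left

lemma gsum (c : ℝ) (hc : c ≠ 0) : Summable fun a : ℤ => Real.exp (-(Real.pi * (a * c) ^ 2)) := by
  have := summable_pow_mul_jacobiTheta₂_term_bound 0 (T := c ^ 2) (by positivity) 0
  refine this.congr fun a => ?_
  rw [pow_zero, one_mul]
  congr 1
  ring

/-- rational cubic symbols are trivial -/
lemma cub_rat (hB : Bas) (a d : ℤ) (hd : IsCoprime (d : O) 3) :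
    cub a d = if IsCoprime a d then 1 else 0 := by
  have hd0 : (d : O) ≠ 0 := by
    rintro h
    rw [h, isCoprime_zero_left, hB.b1.unit_iff] at hd
    revert hd
    decide
  split_ifs with h
  · have h1 := hB.b6.cj_cj a d hd
    rw [cj_int, cj_int, hB.b6.conj_eq] at h1
    have h2 := hB.b6.cube a d ((copO a d).2 h)
    linear_combination (cub (a : O) (d : O) + 1) * h1 + h2
  · exact hB.b6.zero _ _ hd0 fun g => h ((copO a d).1 g)

lemma cub_cube (hB : Bas) (a u : O) (hu : u ≠ 0) :
    cub a u ^ 3 = if IsCoprime a u then 1 else 0 := by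
  split_ifs with h
  · exact hB.b6.cube a u h
  · rw [hB.b6.zero a u hu h]; simp

lemma mobsum (R : ℕ) (hR : R ≠ 0) (f : ArithmeticFunction ℝ) (hf : f.IsMultiplicative) :
    ∑ e ∈ R.divisors, ((ArithmeticFunction.moebius e : ℤ) : ℝ) * f e =
      ∏ p ∈ R.primeFactors, (1 - f p) := by
  set r := ∏ p ∈ R.primeFactors, p with hr
  have hp : ∀ p ∈ R.primeFactors, p.Prime := fun p hp => Nat.prime_of_mem_primeFactors hp
  have h1 : r.primeFactors = R.primeFactors := Nat.primeFactors_prod hp
  have h2 : Squarefree r := by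
    refine Finset.squarefree_prod_of_pairwise_isCoprime ?_ fun p h => (hp p h).prime.squarefree
    intro p h q h' hne
    exact Nat.isCoprime_iff_coprime.1 (Nat.isCoprime_iff_coprime.2
      ((Nat.coprime_primes (hp p h) (hp q h')).2 hne)) |> Nat.coprime_iff_isRelPrime.1
  have h3 : r ∣ R := Nat.prod_primeFactors_dvd R
  rw [← h1, hf.prodPrimeFactors_one_sub_of_squarefree _ h2]
  symm
  refine Finset.sum_subset (Nat.divisors_subset_of_dvd hR h3) fun e he hne => ?_
  have : ¬ Squarefree e := by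
    intro hs
    apply hne
    rw [Nat.mem_divisors]
    refine ⟨?_, h2.ne_zero⟩
    rw [← Nat.prod_primeFactors_of_squarefree hs]
    exact Finset.prod_dvd_prod_of_subset _ _ _
      (Nat.primeFactors_mono (Nat.dvd_of_mem_divisors he) hR)
  rw [ArithmeticFunction.moebius_eq_zero_of_not_squarefree this]
  simp

end POIM
end Vale.Agent.P006.K
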