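import Vale.Agent.P006.K.DEC
import Vale.Agent.P006.Poi3

noncomputable section
open Complex MeasureTheory Filter Topology
open scoped Classical ComplexConjugate

namespace Vale.Agent.P006.K
open Vale.Agent.P026
namespace SQM

def Tw (χ : O → ℂ) (w : ℂ) (X : ℝ) : ℂ := ∑' l, χ l * (N l : ℂ) ^ w * VV X (N l)

lemma N0 (n : O) : 0 ≤ N n := Nat.cast_nonneg _
lemma Npos (E : Env) {k : O} (hk : k ≠ 0) : 0 < N k := lt_of_lt_of_le one_pos (E.hB.b1.N_one_le k hk)
lemma VV0 (x y : ℝ) : 0 < VV x y := Real.exp_pos _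

lemma swap (E : Env) {ι : Type} (d : ι → O) (c : ι → ℂ) (F : O → ℂ) (K : ℝ)
    (hd : ∀ i, c i ≠ 0 → d i ≠ 0) (hF : ∀ n, ‖F n‖ ≤ K * N n ^ (-2 : ℝ))
    (hs : Summable fun i => ‖c i‖ * N (d i) ^ (-2 : ℝ)) :
    ∑' n, (∑' i, if d i ∣ n then c i else 0) * F n = ∑' i, c i * ∑' l, F (d i * l) := by
  have s2 := E.hB.b3.summ 2 (by norm_num)
  have sF : Summable F := Summable.of_norm_bounded (s2.mul_left K) hF
  have inj : ∀ i, c i ≠ 0 → Function.Injective fun l => d i * l := fun i h a b e =>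
    mul_left_cancel₀ (hd i h) e
  have e1 : ∀ (G : O → ℂ) i, c i ≠ 0 → ∑' n, (if d i ∣ n then G n else 0) = ∑' l, G (d i * l) := by
    intro G i h
    rw [← (inj i h).tsum_eq]
    · simp
    · intro n hn
      have : d i ∣ n := by
        by_contra h'
        exact hn (if_neg h')
      obtain ⟨l, rfl⟩ := this
      exact ⟨l, rfl⟩
  have sG : Summable fun p : ι × O => (if d p.1 ∣ p.2 then c p.1 else 0) * F p.2 := by
    apply Summable.of_norm
    have s1 : ∀ i, Summable fun n => ‖(if d i ∣ n then c i else 0) * F n‖ := by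
      intro i
      refine Summable.of_nonneg_of_le (fun _ => norm_nonneg _) (fun n => ?_) (sF.norm.mul_left ‖c i‖)
      rw [norm_mul]
      split_ifs
      · exact le_rfl
      · rw [norm_zero, zero_mul]; positivity
    rw [summable_prod_of_nonneg fun _ => norm_nonneg _]
    refine ⟨s1, Summable.of_nonneg_of_le (fun _ => tsum_nonneg fun _ => norm_nonneg _) (fun i => ?_)
      (hs.mul_right (K * ∑' l : O, N l ^ (-2 : ℝ)))⟩
    by_cases h : c i = 0
    · simp [h]
    · show ∑' n, ‖(if d i ∣ n then c i else 0) * F n‖ ≤ _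
      rw [← (inj i h).tsum_eq]
      · rw [← tsum_mul_left, ← tsum_mul_left]
        refine Summable.tsum_le_tsum (fun l => ?_) ((s1 i).comp_injective (inj i h))
          ((s2.mul_left K).mul_left _)
        rw [if_pos (dvd_mul_right _ _), norm_mul]
        have := hF (d i * l)
        rw [E.hB.b1.N_mul, Real.mul_rpow (N0 _) (N0 _)] at this
        calc _ ≤ ‖c i‖ * (K * (N (d i) ^ (-2 : ℝ) * N l ^ (-2 : ℝ))) := by gcongr
          _ = _ := by ring
      · intro n hn
        have : d i ∣ n := by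
          by_contra h'
          exact hn (by simp [h'])
        obtain ⟨l, rfl⟩ := this
        exact ⟨l, rfl⟩
  simp only [← tsum_mul_right]
  have sG' : Summable (Function.uncurry fun (i : ι) (n : O) => (if d i ∣ n then c i else 0) * F n) := sG
  rw [sG'.tsum_comm]
  refine tsum_congr fun i => ?_
  by_cases h : c i = 0
  · simp [h]
  · rw [← e1 F i h, ← tsum_mul_left]
    refine tsum_congr fun n => ?_
    split_ifs <;> simp

lemma nrm (E : Env) (χ : O → ℂ) (w : ℂ) (X : ℝ) {n : O} (hn : n ≠ 0) :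
    ‖χ n * (N n : ℂ) ^ w * VV X (N n)‖ = ‖χ n‖ * (N n ^ w.re * VV X (N n)) := by
  rw [norm_mul, norm_mul, Complex.norm_cpow_eq_rpow_re_of_pos (Npos E hn), Complex.norm_real,
    Real.norm_of_nonneg (VV0 _ _).le, mul_assoc]

lemma gen (E : Env) {ι : Type} (d : ι → O) (c κ : ι → ℂ) (χ : O → ℂ) (χ' : ι → O → ℂ) (B : ι → ℝ)
    (w : ℂ) (θ X : ℝ) (hX : 0 < X) (h0 : χ 0 = 0) (h1 : ∀ n, ‖χ n‖ ≤ 1)
    (hd : ∀ i, c i ≠ 0 → d i ≠ 0 ∧ ‖κ i‖ ≤ 1 ∧ (∀ l, χ (d i * l) = κ i * χ' i l) ∧
      ∀ Z : ℝ, 0 < Z → ‖Tw (χ' i) w Z‖ ≤ B i * Z ^ θ)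
    (hs : Summable fun i => ‖c i‖ * N (d i) ^ (-2 : ℝ))
    (hs' : Summable fun i => ‖c i‖ * (B i * N (d i) ^ (w.re - θ))) :
    ‖Tw (fun n => (∑' i, if d i ∣ n then c i else 0) * χ n) w X‖ ≤
      (∑' i, ‖c i‖ * (B i * N (d i) ^ (w.re - θ))) * X ^ θ := by
  have hF : ∀ n, ‖χ n * (N n : ℂ) ^ w * VV X (N n)‖ ≤
      (Real.exp ((w.re + 2) ^ 2 / 4) * X ^ (w.re + 2)) * N n ^ (-2 : ℝ) := by
    intro n
    by_cases hn : n = 0
    · subst hn
      rw [h0, zero_mul, zero_mul, norm_zero]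
      have := N0 0
      positivity
    have hN := Npos E hn
    rw [nrm E χ w X hn]
    have hl := E.hL.le (w.re + 2) X (N n) hX hN
    have a1 := VV0 X (N n)
    calc _ ≤ 1 * (N n ^ w.re * (Real.exp ((w.re + 2) ^ 2 / 4) * (X / N n) ^ (w.re + 2))) := by
          gcongr; exact h1 n
      _ = _ := by
          rw [Real.div_rpow hX.le hN.le, Real.rpow_add hN, Real.rpow_neg hN.le]
          have := Real.rpow_pos_of_pos hN w.re
          field_simp
  have sw := swap E d c (fun n => χ n * (N n : ℂ) ^ w * VV X (N n)) _ (fun i h => (hd i h).1) hF hs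
  unfold Tw
  simp only [mul_assoc] at sw ⊢
  rw [sw, ← tsum_mul_right]
  refine tsum_of_norm_bounded (hs'.mul_right _).hasSum fun i => ?_
  by_cases h : c i = 0
  · simp [h]
  obtain ⟨d0, hk, he, hb⟩ := hd i h
  have hN := Npos E d0
  have e : ∑' l, χ (d i * l) * ((N (d i * l) : ℂ) ^ w * VV X (N (d i * l))) =
      κ i * (N (d i) : ℂ) ^ w * Tw (χ' i) w (X / N (d i)) := by
    unfold Tw
    rw [← tsum_mul_left]
    refine tsum_congr fun l => ?_
    by_cases hl : l = 0
    · have := he 0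
      rw [mul_zero, h0] at this
      subst hl
      rw [mul_zero, h0, zero_mul]
      calc (0 : ℂ) = κ i * χ' i 0 * ((N (d i) : ℂ) ^ w * ((N 0 : ℂ) ^ w * VV (X / N (d i)) (N 0))) := by
            rw [← this, zero_mul]
        _ = _ := by ring
    rw [he, E.hB.b1.N_mul, E.hL.scale X _ _ hX (Npos E hl) hN, Complex.ofReal_mul,
      Complex.mul_cpow_ofReal_nonneg (N0 _) (N0 _)]
    ring
  rw [e, norm_mul, norm_mul, norm_mul, Complex.norm_cpow_eq_rpow_re_of_pos hN]
  have hb' := hb (X / N (d i)) (by positivity)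
  rw [Real.div_rpow hX.le hN.le] at hb'
  rw [Real.rpow_sub hN]
  have a := Real.rpow_pos_of_pos hN w.re
  calc _ ≤ ‖c i‖ * (1 * N (d i) ^ w.re * (B i * (X ^ θ / N (d i) ^ θ))) := by gcongr
    _ = _ := by ring

lemma exsq (E : Env) : ∀ (k : ℕ) (n : O), Nn n = k → n ≠ 0 → ∃ g m : O, g ^ 2 * m = n ∧ Squarefree m := by
  intro k
  induction k using Nat.strong_induction_on with
  | _ k ih =>
    intro n hk n0
    by_cases hs : Squarefree n
    · exact ⟨1, n, by simp, hs⟩
    · unfold Squarefree at hs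
      push Not at hs
      obtain ⟨x, ⟨y, rfl⟩, hx⟩ := hs
      have y0 : y ≠ 0 := right_ne_zero_of_mul n0
      have x0 : x ≠ 0 := left_ne_zero_of_mul (left_ne_zero_of_mul n0)
      have a1 : 1 ≤ Nn x := by have := E.hB.b1.N_one_le x x0; unfold N at this; exact_mod_cast this
      have a2 : 1 ≤ Nn y := by have := E.hB.b1.N_one_le y y0; unfold N at this; exact_mod_cast this
      have a3 : Nn x ≠ 1 := fun h => hx ((E.hB.b1.unit_iff x).2 h)
      rw [E.hB.b1.Nn_mul, E.hB.b1.Nn_mul] at hk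
      have a4 : 2 ≤ Nn x := by omega
      obtain ⟨g, m, e, hm⟩ := ih (Nn y) (by nlinarith [Nat.mul_le_mul a4 a4]) y rfl y0
      exact ⟨x * g, m, by rw [← e]; ring, hm⟩

/-- squarefree sieve -/
lemma sv1 (E : Env) {n : O} (hn : Prim n) :
    (∑' t : O, if t ^ 2 ∣ n then (if Prim t then mu t else 0) else 0) = if Squarefree n then 1 else 0 := by
  have hB := E.hB
  have n0 := hB.b2.ne n hn
  obtain ⟨g0, m, hg, hm⟩ := exsq E _ n rfl n0
  have c3 : IsCoprime g0 3 := (hB.b2.cop n hn).of_isCoprime_of_dvd_left ⟨g0 * m, by rw [← hg]; ring⟩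
  obtain ⟨u, hu, pg⟩ := hB.b2.ex g0 c3
  have fin := hB.b3.fin (N n)
  set D := fin.toFinset.filter Prim with hD
  have le : ∀ t, t ∣ n → N t ≤ N n := by
    rintro t ⟨e, rfl⟩
    have := hB.b1.N_one_le e (right_ne_zero_of_mul n0)
    rw [hB.b1.N_mul]; nlinarith [N0 t]
  have gn : u * g0 ∣ n := (hu.mul_left_dvd).2 ⟨g0 * m, by rw [← hg]; ring⟩
  have mb := Poi3.mob hB pg D (fun d hd => (Finset.mem_filter.1 hd).2) (fun d hd h =>
    Finset.mem_filter.2 ⟨fin.mem_toFinset.2 (le d (h.trans gn)), hd⟩)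
  rw [tsum_eq_sum (s := D)]
  · have : (if Squarefree n then (1 : ℂ) else 0) = if u * g0 = 1 then 1 else 0 := by
      congr 1
      apply propext
      constructor
      · intro h
        have : IsUnit g0 := h g0 ⟨m, by rw [← hg]; ring⟩
        exact Poi3.eq_one_of_dvd hB pg (hu.mul this).dvd
      · intro h
        have : IsUnit g0 := IsUnit.of_mul_eq_one_right _ h
        rw [← hg]
        exact squarefree_mul_iff.2 ⟨(this.pow 2).isRelPrime_left, (this.pow 2).squarefree, hm⟩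
    rw [this, ← mb]
    refine Finset.sum_congr rfl fun t ht => ?_
    rw [if_pos (Finset.mem_filter.1 ht).2]
    by_cases hs : Squarefree t
    · congr 1
      apply propext
      rw [hu.dvd_mul_left]
      constructor
      · intro h
        have : t ∣ g0 ^ 2 := hm.dvd_of_squarefree_of_mul_dvd_mul_right
          (by rw [← sq, mul_comm, hg]; exact h)
        exact (hs.dvd_pow_iff_dvd two_ne_zero).1 this
      · intro h
        rw [← hg]; exact (pow_dvd_pow_of_dvd h 2).mul_right _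
    · have : mu t = 0 := if_neg hs
      simp [this]
  · intro t ht
    split_ifs with a b
    · exact absurd (Finset.mem_filter.2 ⟨fin.mem_toFinset.2 (le t ((dvd_pow_self t two_ne_zero).trans a)), b⟩) ht
    · rfl
    · rfl

def sgn (e : ℕ) : ℤ := if Prim ((e : ℤ) : O) then e else -e

lemma sgn_abs (e : ℕ) : (sgn e).natAbs = e := by
  unfold sgn; split_ifs <;> simp

/-- sieve for rational divisors -/
lemma sv2 (E : Env) {n : O} (hn : Prim n) (hs : Squarefree n) :
    (∑' e : ℕ, if ((sgn e : ℤ) : O) ∣ n then ((ArithmeticFunction.moebius e : ℤ) : ℂ) else 0) =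
      if Squarefree (Nn n) then 1 else 0 := by
  have hB := E.hB
  have n0 := hB.b2.ne n hn
  set g := Int.gcd n.re n.im with hg
  have dv : ∀ m : ℤ, (m : O) ∣ n ↔ m.natAbs ∣ g := by
    intro m
    rw [DECM.idvd, hg, Int.gcd_eq_natAbs, Nat.dvd_gcd_iff, Int.natAbs_dvd_natAbs, Int.natAbs_dvd_natAbs]
  have g0 : g ≠ 0 := by
    intro h
    have := (dv 0).2 (by simp [h])
    exact n0 (by simpa using this)
  rw [tsum_eq_sum (s := g.divisors)]
  · have e1 : ∑ e ∈ g.divisors, (if ((sgn e : ℤ) : O) ∣ n then ((ArithmeticFunction.moebius e : ℤ) : ℂ) else 0) =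
        ((∑ e ∈ g.divisors, ArithmeticFunction.moebius e : ℤ) : ℂ) := by
      push_cast
      refine Finset.sum_congr rfl fun e he => if_pos ?_
      rw [dv, sgn_abs]; exact Nat.dvd_of_mem_divisors he
    rw [e1, ← ArithmeticFunction.coe_mul_zeta_apply, ArithmeticFunction.moebius_mul_coe_zeta,
      ArithmeticFunction.one_apply]
    by_cases h : g = 1
    · rw [if_pos h, if_pos]
      · simp
      · refine DECM.Nn_sqf hB (hB.b2.cop n hn) hs fun l hl hd => ?_
        have := (dv l).1 (by simpa using hd)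
        rw [h] at this
        exact hl.one_lt.ne' (by simpa using this)
    · rw [if_neg h, if_neg]
      · simp
      · intro h'
        have a := DECM.Nn_dvd hB ((dv g).2 (by simp))
        rw [DECM.Nn_int, Int.natAbs_natCast, sq] at a
        exact h (Nat.isUnit_iff.1 (h' g a))
  · intro e he
    rw [if_neg]
    rw [dv, sgn_abs]
    exact fun h => he (Nat.mem_divisors.2 ⟨h, g0⟩)

end SQM
end Vale.Agent.P006.K
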